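import Vale.Agent.P354K.Defs
import Vale.Agent.P354J.Defs
import Vale.Agent.P354D.Kick

/-!
Block B9: the statements in terms of (h, K) in a chart and on the cylinder.
-/

open scoped ContDiff
open MeasureTheory Set Filter Topology

namespace Vale.Agent.P354K

open Vale.Agent.P354H (X3 e pd pdl Sb)
open Vale.Agent.P354J (PD CC MS pb)
open Vale.Agent.P354I (IsData)

/-- The jet of a pair of matrix fields. -/
noncomputable def jet (h π : X3 → M3) : Jt → X3 → ℝ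
  | .h a b => fun y => h y a b
  | .dh i a b => pd i fun y => h y a b
  | .ddh i k a b => pd i (pd k fun y => h y a b)
  | .p a b => fun y => π y a b
  | .dp i a b => pd i fun y => π y a b

/-- The momentum density of (h, K), and K from (h, pi). -/
noncomputable def piOf (h K : M3) : M3 := Matrix.of fun a b =>
  √h.det * (∑ c, ∑ d, h⁻¹ a c * h⁻¹ b d * K c d - h⁻¹ a b * ∑ c, ∑ d, h⁻¹ c d * K c d)
noncomputable def kOf (h π : M3) : M3 := Matrix.of fun a b => par h π a b / √h.det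

/-- The constraint equations in polynomial form. -/
def ALG0 : Prop :=
  (∃ B, Pl B ∧ ∀ h K, PD h K → ∀ y,
    (CC h K y ↔ ∀ k, PC B k (at' (jet h fun z => piOf (h z) (K z)) y) = 0)) ∧
  (∀ h K : M3, h.PosDef → K.IsSymm → (piOf h K).IsSymm ∧ kOf h (piOf h K) = K) ∧
  ∀ h π : M3, h.PosDef → π.IsSymm → (kOf h π).IsSymm ∧ piOf h (kOf h π) = π

/-- The Kerr slice in a chart. -/
noncomputable def hS (M a r : ℝ) (σ : Bool) (z : X3) : M3 :=
  Matrix.of fun i j => P354R.hK M a r σ z (e i) (e j)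
noncomputable def kS (M a r : ℝ) (σ : Bool) (z : X3) : M3 :=
  Matrix.of fun i j => P354R.kK M a r σ z (e i) (e j)

/-- The witness for the Kerr slice, on either side of the cube. -/
def WIT : Prop :=
  ∀ M a : ℝ, a ≠ 0 → |a| < M → ∃ μ > 0, ∀ ρ ∈ Ioo 0 μ, ∀ σ b : Bool,
    PD (hS M a (P354I.rm M a + ρ) σ) (kS M a (P354I.rm M a + ρ) σ) →
    ∃ (K : Set X3) (T : X3 → M3) (χ : X3 → ℝ), IsCompact K ∧ K ⊆ cube ∧
      (∀ y ∈ K, 1 < P354D.sgn b * y.1) ∧
      Wit pd K (jet (hS M a (P354I.rm M a + ρ) σ) fun z =>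
        piOf (hS M a (P354I.rm M a + ρ) σ z) (kS M a (P354I.rm M a + ρ) σ z)) (jet 0 T) χ

/-- Deformation of solutions (h, K) of the constraints in a chart, with support in the cube. -/
def COREK : Prop :=
  ∀ (P : Type) (l : Filter P) (h K : P → X3 → M3) (hs Ks T : X3 → M3) (χ : X3 → ℝ)
    (K0 K1 : Set X3) (π : P → X3 → M3) (lam : P → ℝ) (m : ℕ),
    (∀ r, PD (h r) (K r)) → (∀ r y, CC (h r) (K r) y) →
    (∀ α, ∃ C, ∀ r a b, ∀ y ∈ cube,
      |pdl α (fun z => h r z a b) y| ≤ C ∧ |pdl α (fun z => K r z a b) y| ≤ C) →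
    (∃ c > 0, ∀ r, ∀ y ∈ cube, ∀ w : Fin 3 → ℝ,
      c * ∑ a, w a ^ 2 ≤ ∑ a, ∑ b, w a * h r y a b * w b) →
    PD hs Ks → IsCompact K0 → IsCompact K1 → K0 ⊆ cube → K1 ⊆ cube →
    Wit pd K1 (jet hs fun z => piOf (hs z) (Ks z)) (jet 0 T) χ →
    (∀ η > 0, ∀ᶠ r in l, ∀ α : List (Fin 3), α.length ≤ 2 → ∀ a b, ∀ y ∈ K1,
      |pdl α (fun z => h r z a b - hs z a b) y| ≤ η ∧
        |pdl α (fun z => K r z a b - Ks z a b) y| ≤ η) →
    (∀ b c, UC K0 fun r y => π r y b c) → (∀ r y, (π r y).IsSymm) → (∀ r y b, π r y b 0 = 0) →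
    (∀ r, 1 ≤ lam r) → Tendsto lam l atTop →
    ∃ (M : ℕ) (C : ℝ), ∀ᶠ r in l, ∃ h' K' : X3 → M3, PD (h r + h') (K r + K') ∧
      (∀ y, CC (h r + h') (K r + K') y) ∧ (∀ y, y ∉ cube → h' y = 0 ∧ K' y = 0) ∧
      ∀ α : List (Fin 3), α.length ≤ m → ∀ y a b,
        |pdl α (fun z => h' z a b) y| ≤ C / lam r ∧ |pdl α (fun z => K' z a b) y| ≤ C / lam r ∧
        (y ∉ K1 → |pdl α (fun z => h' z a b) y| ≤ C * lam r ^ n0 α / lam r ^ (M + 2) ∧
          |pdl α (fun z => K' z a b -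
            kOf (h r z) (π r z) a b * Real.cos (lam r * z.1) / lam r ^ M) y| ≤
            C * lam r ^ n0 α / lam r ^ (M + 1))

/-- From a deformation in a chart with support in a translate of the cube to data on the
cylinder. -/
def PUSH : Prop :=
  ∀ (s : ℝ) (m : ℕ), 0 ≤ s → ∃ C : ℝ, 0 ≤ C ∧ ∀ (M a r0 : ℝ) (σ : Bool) (d : P354I.Dat)
    (h' K' : X3 → M3) (R c : ℝ), IsData M a r0 s d → PD (pb σ d.h + h') (pb σ d.K + K') →
    (∀ y, CC (pb σ d.h + h') (pb σ d.K + K') y) →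
    (∀ y : X3, y - (R, 0, 0) ∉ cube → h' y = 0 ∧ K' y = 0) →
    (∀ α : List (Fin 3), α.length ≤ m → ∀ y i j,
      |pdl α (fun z => h' z i j) y| ≤ c ∧ |pdl α (fun z => K' z i j) y| ≤ c) →
    ∃ d', IsData M a r0 s d' ∧ pb σ d'.h = pb σ d.h + h' ∧ pb σ d'.K = pb σ d.K + K' ∧
      P354I.pm s m d' d ≤ ENNReal.ofReal (C * c * (1 + |R|) ^ s)

end Vale.Agent.P354K
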