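import Vale.Agent.P354K.Pack
import Vale.Agent.P354KW.Main

open scoped ContDiff
open MeasureTheory Set Filter Topology

namespace Vale.Agent.P354K

open Vale.Agent.P354H (X3 e pd pdl Sb pd_sm pdl_sm dif)
open Vale.Agent.P354KW (Gm)

variable {P : Type} {K : Set X3} {ψ : X3 → ℝ} {lam : P → ℝ} {l : Filter P}
  {jb : P → Jt → X3 → ℝ} {c : Jt → Jt → P → X3 → ℝ} {lc : Eq4 → Jt → P → X3 → ℝ}
  {f : P → X3 → ℝ}

theorem uc_PP (h : UC K f) (a b d : Fin 3) : UC K fun r z => (f r z • PP a) b d :=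
  h.mul' (ub_c (PP a b d))

theorem uc_0 (b d : Fin 3) : UC K fun r z => (0 : P → X3 → M3) r z b d := uc_zero

theorem ex_pi (hb : Base jb) (hs : Str jb lc) (hK : IsCompact K) (hl : ∀ r, 1 ≤ lam r)
    (a : Fin 3) (J : ℕ) (h : UC K f) : ∃ v, Pkt K lam jb a 0 (fun r z => f r z • PP a) v ∧
      ∀ k, Osc K lam a J fun r => Lin lc r (v r) k :=
  ex_pkt P354KW.wkb hb hs hK hl a J uc_0 (uc_PP h a) (fun _ _ _ _ => rfl)
    (fun r z b d => by simp [PP_symm a b d]) (fun _ _ => rfl) fun r z b => by simp [PP_zero]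

theorem ex_q (hb : Base jb) (hs : Str jb lc) (hK : IsCompact K) (hl : ∀ r, 1 ≤ lam r)
    (a : Fin 3) (J : ℕ) (h : UC K f) : ∃ v, Pkt K lam jb a (fun r z => f r z • PP a) 0 v ∧
      ∀ k, Osc K lam a J fun r => Lin lc r (v r) k :=
  ex_pkt P354KW.wkb hb hs hK hl a J (uc_PP h a) uc_0 (fun r z b d => by simp [PP_symm a b d])
    (fun _ _ _ _ => rfl) (fun r z => by simp [PP_zero]) fun _ _ _ => rfl

theorem qf_PP (a : Fin 3) (r : P) (z : X3) (s t : ℝ) :
    qf (Gm jb r z) (s • PP a) (t • PP a) = s * t * NN jb a r z := by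
  rw [qf_smul_left, qf_smul_right, NN, mul_assoc]

theorem qf_0 (G A : M3) : qf G A 0 = 0 := by simp [qf, par_zero]
theorem qf_0' (G A : M3) : qf G 0 A = 0 := by simp [qf]

theorem Pkt.wz {a : Fin 3} {q π : P → X3 → M3} {v : P → Jt → X3 → ℝ} (hK : IsCompact K)
    (hl : ∀ r, 1 ≤ lam r) (hb : Base jb) (h : Pkt K lam jb a q π v) (x : Jt) :
    WZ K lam (wt x) fun r => v r x := (wz_osc hK hl (h.osc hK hl hb x)).mono hl (by omega)

theorem Sml.sup {K' : Set X3} (h : Sml l K ψ f) (hK : K ⊆ K') : Sml l K' ψ f :=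
  fun η hη => (h η hη).mono fun _ h => ⟨h.cont, fun z hz => h.supp z fun h => hz (hK h),
    h.nonneg, h.le⟩

theorem sml_mul (hK : IsCompact K) (hψ : Wt ψ) {g : P → X3 → ℝ} (hc : UB g)
    (hf : ∀ r, Continuous (f r)) (h0 : ∀ r z, z ∉ K → f r z = 0)
    (h : ∀ η > 0, ∀ᶠ r in l, ∀ z ∈ K, |f r z| ≤ η) : Sml l K ψ fun r z => g r z * f r z := by
  obtain ⟨C, hC, h1⟩ := hc.bd
  refine sml_sup hK hψ (fun r => (hc.1 r).continuous.mul (hf r))
    (fun r z hz => by simp [h0 r z hz]) fun η hη => ?_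
  filter_upwards [h (η / (C + 1)) (by positivity)] with r hr z hz
  rw [abs_mul]
  refine (mul_le_mul ((h1 r z).trans (by linarith : C ≤ C + 1)) (hr z hz) (abs_nonneg _)
    (by positivity)).trans (le_of_eq ?_)
  field_simp

theorem sml_lin (hK : IsCompact K) (hψ : Wt ψ) (hl : ∀ r, 1 ≤ lam r) (ht : Tendsto lam l atTop)
    {M : ℕ} (h : Bz K lam (-(M + 1 : ℕ)) f) :
    Sml l K ψ fun r z => f r z / lam r ^ (-M : ℤ) :=
  ((((h.scal hl M).mono hl (show _ ≤ (-1 : ℤ) by omega)).db hK hψ).sml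
    ((tendsto_zpow_atTop_zero (by norm_num)).comp ht)).congr fun r z => by
      rw [zpow_neg, div_inv_eq_mul, mul_comm]

/-- Expansion of the quadratic form. -/
theorem Q2_left (k : Eq4) (r : P) (z : X3) (W : Fin 3 → Jt → X3 → ℝ) (u : Jt → X3 → ℝ)
    (y : Jt → ℝ) : Q2 jb c k r z (at' (fun x z => ∑ a, W a x z + u x z) z) y =
      ∑ a, Q2 jb c k r z (at' (W a) z) y + Q2 jb c k r z (at' u z) y := by
  rw [show at' (fun x z => ∑ a, W a x z + u x z) z = ∑ a, at' (W a) z + at' u z from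
    funext fun x => by simp [at']]
  simp only [← QL_apply, map_add, map_sum, LinearMap.add_apply, LinearMap.sum_apply]

theorem Q2_right (k : Eq4) (r : P) (z : X3) (W : Fin 3 → Jt → X3 → ℝ) (u : Jt → X3 → ℝ)
    (y : Jt → ℝ) : Q2 jb c k r z y (at' (fun x z => ∑ a, W a x z + u x z) z) =
      ∑ a, Q2 jb c k r z y (at' (W a) z) + Q2 jb c k r z y (at' u z) := by
  rw [show at' (fun x z => ∑ a, W a x z + u x z) z = ∑ a, at' (W a) z + at' u z from
    funext fun x => by simp [at']]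
  simp only [← QL_apply, map_add, map_sum]

/-- The means of the products of a base packet and any packet. -/
theorem pair_base (hK : IsCompact K) (hψ : Wt ψ) (hl : ∀ r, 1 ≤ lam r) (hc : Cf jb c)
    {a b : Fin 3} {q π π' : P → X3 → M3} {v w : P → Jt → X3 → ℝ}
    (hv : Pkt K lam jb a 0 π v) (hw : Pkt K lam jb b q π' w) :
    (DB K ψ (fun r => lam r ^ (-1 : ℤ)) fun r z =>
      (Q2 jb c none r z (at' (v r) z) (at' (w r) z) + Q2 jb c none r z (at' (w r) z) (at' (v r) z)) +
        (if a = b then 1 / 2 else 0) * ((Gm jb r z).det ^ 2 *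
          (qf (Gm jb r z) (π r z) (π' r z) + qf (Gm jb r z) (π' r z) (π r z)))) ∧
    ∀ i, DB K ψ (fun r => lam r ^ (-1 : ℤ)) fun r z =>
      (Q2 jb c (some i) r z (at' (v r) z) (at' (w r) z) +
        Q2 jb c (some i) r z (at' (w r) z) (at' (v r) z)) +
        (if a = b then 1 / 2 else 0) * ((if b = i then 1 else 0) / 2 *
          qf (Gm jb r z) (π r z) (q r z)) := by
  refine ⟨((pair_none hK hψ hl hc hv hw (.inl (hv.szP hK hl))).add hK
    (pair_none hK hψ hl hc hw hv (.inr (hv.szP hK hl)))).congr fun r z => ?_, fun i =>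
    ((pair_some hK hψ hl hc hv hw i).add hK (pair_some hK hψ hl hc hw hv i)).congr fun r z => ?_⟩
  · simp only [eq_comm (a := b)]
    ring
  · simp only [Pi.zero_apply, qf_0]
    ring

theorem xpk : XPK := by
  intro P l jb lc c R K0 K S js jT χ π lam ψ E M hc hs hR hK0 hK hw hcv hπ hπs hπ0 hl ht hψ hS
    hχ hE hM
  have hb := hc.base
  have hK' : IsCompact (K0 ∪ K) := hK0.union hK
  have sr : K ⊆ K0 ∪ K := subset_union_right
  have hp : ∀ r (k : ℤ), 0 < lam r ^ k := fun r k => zpow_pos (one_pos.trans_le (hl r)) k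
  have t1 : Tendsto (fun r => lam r ^ (-1 : ℤ)) l (𝓝 0) :=
    (tendsto_zpow_atTop_zero (by norm_num)).comp ht
  obtain ⟨s, s0, hs2⟩ : ∃ s : ℝ, s ≠ 0 ∧ s * s = 4 / 3 :=
    ⟨√(4 / 3), by positivity, Real.mul_self_sqrt (by norm_num)⟩
  have uN : ∀ a, UB (sN jb a) := fun a => (ud_rpow hb a _).ub
  have uχ : UC K fun _ : P => χ := uc_of_supp hK hw.sm fun z hz => (hw.supp z hz).1
  have uT : ∀ x, UC K fun _ : P => jT x := fun x =>
    uc_of_supp hK (hw.T.sm x) fun z hz => (hw.supp z hz).2 x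
  obtain ⟨Eh, uE, eE⟩ : ∃ Eh : Fin 4 → X3 → ℝ, (∀ σ, UC K fun _ : P => Eh σ) ∧
      ∀ σ z, E σ z = χ z * Eh σ z := by
    refine ⟨fun σ z => E σ z / χ z, fun σ => uc_of_supp hK (contDiff_iff_contDiffAt.2 fun z => ?_)
      fun z hz => by simp [(hw.supp z hz).1], fun σ z => ?_⟩ <;> by_cases hz : z ∈ S
    · exact (hE σ).1.contDiffAt.div hw.sm.contDiffAt (hχ z hz)
    · refine contDiffAt_const (c := (0 : ℝ)).congr_of_eventuallyEq ?_
      filter_upwards [hS.isOpen_compl.mem_nhds hz] with y hy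
      simp [(hE σ).2 y hy]
    · field_simp [hχ z hz]
    · simp [(hE σ).2 z hz]
  choose W hW lW using fun a => ex_pi hb hs hK hl a (M + 1) (uχ.mul' ((ub_c s).mul (uN a)))
  obtain ⟨w, hw0, lw⟩ := ex_pkt P354KW.wkb hb hs hK0 hl 0 (M + 1) uc_0 hπ (fun _ _ _ _ => rfl)
    hπs (fun _ _ => rfl) hπ0
  choose Y hY lY using fun σ => ex_pi hb hs hK hl 0 (M + 1) ((uE σ).mul'
    (((ub_c (-s⁻¹)).mul ((P354KW.ud_det_inv hb).pow 2).ub).mul (uN 0)))
  choose Z hZ lZ using fun a σ => ex_q hb hs hK hl a (M + 1) ((uE σ).mul'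
    ((ub_c (-4 * s⁻¹)).mul (uN a)))
  let u : P → Jt → X3 → ℝ := fun r x z =>
    scl (lam r ^ (-1 : ℤ)) (w r) x z + scl (lam r ^ (-M : ℤ)) jT x z
  let X0 : P → Jt → X3 → ℝ := fun r x z => ∑ a, W a r x z + u r x z
  let X : Eq4 × Fin 4 → P → Jt → X3 → ℝ := fun p => p.1.elim (Y p.2) fun a => Z a p.2
  have wu : ∀ x, WZ (K0 ∪ K) lam (wt x - 1) fun r => u r x := fun x =>
    ((((hw0.wz hK0 hl hb x).scal hl (-1)).sup subset_union_left).mono hl (by omega)).add
      ((((wz_uc hK hl (uT x)).scal hl (-M)).sup sr).mono hl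
        (by cases x <;> simp only [wt] <;> omega))
  have au : ∀ r, Adm (u r) := fun r =>
    P354KW.adm_add (adm_scl (hw0.adm r) _) (adm_scl hw.T _)
  have w0 : ∀ x, WZ (K0 ∪ K) lam (wt x) fun r => X0 r x := fun x =>
    (WZ.sum fun a => ((hW a).wz hK hl hb x).sup sr).add ((wu x).mono hl (by omega))
  have a0 : ∀ r, Adm (X0 r) := fun r => P354KW.adm_add (adm_sum3 fun a => (hW a).adm r) (au r)
  have wX : ∀ p x, WZ K lam (wt x) fun r => X p r x := by
    rintro ⟨_ | a, σ⟩ x
    exacts [(hY σ).wz hK hl hb x, (hZ a σ).wz hK hl hb x]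
  have aX : ∀ p r, Adm (X p r) := by
    rintro ⟨_ | a, σ⟩ r
    exacts [(hY σ).adm r, (hZ a σ).adm r]
  have lX : ∀ p k, WZ K lam (-(M + 1 : ℕ)) fun r => Lin lc r (X p r) k := by
    rintro ⟨_ | a, σ⟩ k
    exacts [wz_osc hK hl (lY σ k), wz_osc hK hl (lZ a σ k)]
  have w1 : ∀ x, wt x ≤ 1 := fun x => by cases x <;> simp [wt]
  have su : Sz (K0 ∪ K) lam 1 u := ⟨au, fun x => (wu x).bz⟩
  have s0' : Sz (K0 ∪ K) lam 0 X0 := ⟨a0, fun x => (w0 x).bz.mono hl (by omega)⟩
  have sX : ∀ p, Sz (K0 ∪ K) lam 0 (X p) := fun p =>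
    ⟨aX p, fun x => ((wX p x).bz.sup sr).mono hl (by omega)⟩
  have sW : ∀ a, Sz (K0 ∪ K) lam 0 (W a) := fun a => ((hW a).sup sr).sz hK' hl hb
  have lA : ∀ k, WZ (K0 ∪ K) lam (-(M + 1 : ℕ)) fun r z =>
      ∑ a, Lin lc r (W a r) k z + lam r ^ (-1 : ℤ) * Lin lc r (w r) k z := fun k =>
    (WZ.sum fun a => (wz_osc hK hl (lW a k)).sup sr).add
      ((((wz_osc hK0 hl (lw k)).scal hl (-1)).sup subset_union_left).mono hl (by omega))
  have e0 : ∀ r k z, Lin lc r (X0 r) k z = (∑ a, Lin lc r (W a r) k z +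
      lam r ^ (-1 : ℤ) * Lin lc r (w r) k z) + lam r ^ (-M : ℤ) * Lin lc r jT k z :=
    fun r k z => by
      simp only [X0, u]
      rw [lin_add, lin_sum, lin_add, lin_scl, lin_scl, add_assoc]
  have l0 : ∀ k, WZ (K0 ∪ K) lam (-M) fun r => Lin lc r (X0 r) k := fun k =>
    (((lA k).mono hl (by omega)).add ((((wz_uc hK hl (UC.sum Finset.univ fun x =>
      (uT x).mul (hs.ud k x).ub)).scal hl (-M)).sup sr).mono hl (by omega))).congr
      fun r z => e0 r k z
  have dq : ∀ {v v' : P → Jt → X3 → ℝ} (k : Eq4), Sz (K0 ∪ K) lam 1 v → Sz (K0 ∪ K) lam 0 v' →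
      DB (K0 ∪ K) ψ (fun r => lam r ^ (-1 : ℤ)) fun r z =>
        Q2 jb c k r z (at' (v r) z) (at' (v' r) z) + Q2 jb c k r z (at' (v' r) z) (at' (v r) z) :=
    fun k h h' => (db_Q2 hK' hψ hl hc h h' k).add hK' (db_Q2 hK' hψ hl hc h' h k)
  have cs := fun x => (hw.s.sm x).continuous
  have cT := fun x => (hw.T.sm x).continuous
  have cb := fun r x => ((hb.adm r).sm x).continuous
  have nT : ∀ z, z ∉ K → at' jT z = 0 := fun z hz => funext (hw.supp z hz).2
  refine ⟨X0, w, X, ⟨fun r => adm_scl (a0 r) _, fun r p => adm_scl (aX p r) _,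
    fun r x z hz => ⟨?_, fun p => ?_⟩, fun n => ?_, fun n => ?_, assemble hK' hψ hl hc hR
      (fun r => hp r _) ?_ s0' sX (fun k => ?_) fun k p => ?_⟩,
    fun x => (w0 x).mono hl (w1 x), fun p x => (wX p x).mono hl (w1 x), hw0, fun r x z hz => ?_⟩
  · simp [scl, (w0 x).bz.2.1 r z hz]
  · simp [scl, (sX p).2 x |>.2.1 r z hz]
  · obtain ⟨C, hC, h⟩ := WZ.sb hl (fun x => ((w0 x).mono hl (w1 x)).scal hl (-M)) n
    obtain ⟨C', hC', h'⟩ := WZ.sb hl (fun p : (Eq4 × Fin 4) × Jt =>
      ((wX p.1 p.2).mono hl (w1 _)).scal hl (-M)) n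
    have e : ∀ r, lam r ^ (n + (-M + 1) : ℤ) = lam r ^ (-M : ℤ) * lam r ^ (n + 1) := fun r => by
      rw [← zpow_natCast, ← zpow_add₀ (one_pos.trans_le (hl r)).ne']
      congr 1
      push_cast
      ring
    refine ⟨C + C', fun r x => ⟨(h x r).mono le_rfl ?_, fun p => (h' (p, x) r).mono le_rfl ?_⟩⟩ <;>
      rw [mul_assoc, ← e] <;> exact mul_le_mul_of_nonneg_right (by linarith) (hp r _).le
  · obtain ⟨C, hC, h⟩ := WZ.sb hl (fun k => ((l0 k).scal hl (-M)).congr
      fun r z => lin_scl r _ _ k z) n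
    obtain ⟨C', hC', h'⟩ := WZ.sb hl (fun p : (Eq4 × Fin 4) × Eq4 =>
      (((lX p.1 p.2).mono hl (show _ ≤ (-M : ℤ) by omega)).scal hl (-M)).congr
        fun r z => lin_scl r _ _ p.2 z) n
    have e : ∀ r, lam r ^ (n + (-M + -M) : ℤ) = (lam r ^ (-M : ℤ)) ^ 2 * lam r ^ n := fun r => by
      have := (one_pos.trans_le (hl r)).ne'
      rw [zpow_add₀ this, zpow_add₀ this, zpow_natCast]
      ring
    refine ⟨C + C', fun r k => ⟨(h k r).mono le_rfl ?_, fun p => (h' (p, k) r).mono le_rfl ?_⟩⟩ <;>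
      rw [mul_assoc, ← e] <;> exact mul_le_mul_of_nonneg_right (by linarith) (hp r _).le
  · refine ((tendsto_zpow_atTop_zero (n := -M + 3) (by omega)).comp ht).congr fun r => ?_
    simp only [Function.comp]
    rw [zpow_add₀ (one_pos.trans_le (hl r)).ne', zpow_ofNat]
  · have b1 := sml_lin hK' hψ hl ht (lA k).bz
    have b2 := ((DB.sum hK' fun a => dq k su (sW a)).add hK' ((db_Q2 hK' hψ hl hc su su k).mono
      fun r => zpow_le_zpow_right₀ (hl r) (by norm_num))).sml t1
    have e1 : ∀ r z, Lin lc r (X0 r) k z / lam r ^ (-M : ℤ) = (∑ a, Lin lc r (W a r) k z +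
        lam r ^ (-1 : ℤ) * Lin lc r (w r) k z) / lam r ^ (-M : ℤ) + Lin lc r jT k z :=
      fun r z => by rw [e0, add_div, mul_div_cancel_left₀ _ (hp r _).ne']
    cases k with
    | none =>
      have b3 := (DB.sum hK' fun a => DB.sum hK' fun b => pair_none hK' hψ hl hc ((hW a).sup sr)
        ((hW b).sup sr) (.inl (((hW a).sup sr).szP hK' hl))).sml t1
      have b4 := (sml_mul (l := l) hK hψ ((ud_c (-2)).mul ((P354KW.ud_det hb).pow 2)).ub
        (f := fun r z => qf (Gm jb r z) (pm (at' jT z)) (pm (at' (jb r) z)) + χ z ^ 2)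
        (fun r => by
          have := cb r
          have := hw.sm.continuous
          simp only [qf, par, Gm, hm, pm, at', Matrix.of_apply]
          fun_prop)
        (fun r z hz => by simp [nT z hz, (hw.supp z hz).1, qf, pm]) fun η hη => by
          filter_upwards [conv_jet hb hK cs cT hcv
            (F := fun p => qf (hm p.1) (pm p.2) (pm p.1)) (by
              simp only [qf, par, hm, pm, Matrix.of_apply]
              fun_prop) η hη] with r hr z hz
          simpa [hw.sign z] using hr z hz).sup sr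
      refine (((b1.add hK' b2).add hK' b3).add hK' b4).congr fun r z => ?_
      have n1 := sN_sq hb (r := r) (z := z)
      rw [e1]
      simp only [X0, Q2_left, Q2_right, (lin_wit hs hw r z).1, Finset.sum_add_distrib,
        ite_mul, zero_mul, Finset.sum_ite_eq, Finset.mem_univ, if_true, qf_PP]
      simp only [Fin.sum_univ_three]
      linear_combination -((Gm jb r z).det ^ 2 * χ z ^ 2 / 2) *
        (s * s * (n1 0 + n1 1 + n1 2) + 3 * hs2)
    | some i =>
      have b3 := (DB.sum hK' fun a => DB.sum hK' fun b => pair_some hK' hψ hl hc ((hW a).sup sr)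
        ((hW b).sup sr) i).sml t1
      have b4 := (sml_sup (l := l) hK hψ (F := fun r z => PM i (at' (jb r) z) (at' jT z))
        (fun r => by
          have := cb r
          simp only [PM, at']
          fun_prop)
        (fun r z hz => by simp [nT z hz, PM]) fun η hη => by
          filter_upwards [conv_jet hb hK cs cT hcv (F := fun p => PM i p.1 p.2) (by
              simp only [PM]
              fun_prop) η hη] with r hr z hz
          simpa [hw.div i z] using hr z hz).sup sr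
      refine (((b1.add hK' b2).add hK' b3).add hK' b4).congr fun r z => ?_
      rw [e1]
      simp only [X0, Q2_left, Q2_right, (lin_wit hs hw r z).2, Finset.sum_add_distrib,
        Pi.zero_apply, qf_0, mul_zero, add_zero]
      simp only [Fin.sum_univ_three]
      ring
  · have b1 := sml_lin hK' hψ hl ht ((lX p k).bz.sup sr)
    have b2 := (dq k su (sX p)).sml t1
    obtain ⟨_ | a, σ⟩ := p
    · have b3 := fun b => pair_base hK' hψ hl hc ((hW b).sup sr) ((hY σ).sup sr)
      cases k with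
      | none =>
        refine ((b1.add hK' b2).add hK' ((DB.sum hK' fun b => (b3 b).1).sml t1)).congr
          fun r z => ?_
        obtain ⟨δ, hδ, hd⟩ := P354KW.det_low hb
        have n1 := sN_sq hb 0 r z
        have n2 := mul_inv_cancel₀ (hδ.trans_le (hd r z)).ne'
        have n3 := mul_inv_cancel₀ s0
        simp only [X0, X, Option.elim, Q2_left, Q2_right, Finset.sum_add_distrib,
          ite_mul, zero_mul, Finset.sum_ite_eq', Finset.mem_univ, if_true, qf_PP]
        rw [eE σ z]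
        generalize Eh σ z = t
        generalize (Gm jb r z).det⁻¹ = d at *
        generalize s⁻¹ = s' at *
        linear_combination (χ z * t) * ((s * s') * ((Gm jb r z).det * d) ^ 2 * n1 +
          ((Gm jb r z).det * d) ^ 2 * n3 + ((Gm jb r z).det * d + 1) * n2)
      | some i =>
        refine ((b1.add hK' b2).add hK' ((DB.sum hK' fun b => (b3 b).2 i).sml t1)).congr
          fun r z => ?_
        simp only [X0, X, Option.elim, Q2_left, Q2_right, Finset.sum_add_distrib, Pi.zero_apply,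
          qf_0, mul_zero, add_zero, reduceCtorEq, if_false]
        ring
    · have b3 := fun b => pair_base hK' hψ hl hc ((hW b).sup sr) ((hZ a σ).sup sr)
      cases k with
      | none =>
        refine ((b1.add hK' b2).add hK' ((DB.sum hK' fun b => (b3 b).1).sml t1)).congr
          fun r z => ?_
        simp only [X0, X, Option.elim, Q2_left, Q2_right, Finset.sum_add_distrib, Pi.zero_apply,
          qf_0, qf_0', mul_zero, add_zero, reduceCtorEq, if_false]
        ring
      | some i =>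
        refine ((b1.add hK' b2).add hK' ((DB.sum hK' fun b => (b3 b).2 i).sml t1)).congr
          fun r z => ?_
        have n1 := sN_sq hb a r z
        have n3 := mul_inv_cancel₀ s0
        simp only [X0, X, Option.elim, Q2_left, Q2_right, Finset.sum_add_distrib,
          ite_mul, zero_mul, Finset.sum_ite_eq', Finset.mem_univ, if_true, qf_PP,
          Option.some.injEq]
        rw [eE σ z]
        generalize Eh σ z = t
        generalize s⁻¹ = s' at *
        split_ifs
        · linear_combination (χ z * t) * ((s * s') * n1 + n3)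
        · ring
  · have h1 : ∀ a, W a r x z = 0 := fun a => ((hW a).wz hK hl hb x).bz.2.1 r z hz
    simp [X0, u, scl, h1, (hw.supp z hz).2 x]

end Vale.Agent.P354K
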