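import Vale.Agent.P354K.Calc

open scoped ContDiff
open MeasureTheory Set Filter Topology

namespace Vale.Agent.P354K

open Vale.Agent.P354H (X3 e pd pdl Sb pd_sm pdl_sm dif)

variable {P : Type}

/-! ### Bounds for words in weighted derivatives -/

/-- The derivatives g j * pd j and words in them. -/
noncomputable def Gd1 (g : Fin 3 → X3 → ℝ) (j : Fin 3) (u : X3 → ℝ) (z : X3) : ℝ :=
  g j z * pd j u z
noncomputable def Gl (g : Fin 3 → X3 → ℝ) : List (Fin 3) → (X3 → ℝ) → X3 → ℝ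
  | [], u => u
  | j :: α, u => Gl g α (Gd1 g j u)

/-- Smooth, and the words of length at most k are uniformly bounded. -/
def UG (g : Fin 3 → X3 → ℝ) (k : ℕ) (c : P → X3 → ℝ) : Prop :=
  (∀ r, Sm (c r)) ∧ ∃ C, ∀ α : List (Fin 3), α.length ≤ k → ∀ r z, |Gl g α (c r) z| ≤ C

section
variable {g : Fin 3 → X3 → ℝ} (hg : ∀ j, Sm (g j))
include hg

theorem Gd1_sm (j : Fin 3) {u : X3 → ℝ} (hu : Sm u) : Sm (Gd1 g j u) := (hg j).mul (pd_sm j hu)

omit hg in
theorem UG.low {k m : ℕ} {c : P → X3 → ℝ} (h : UG g k c) (hm : m ≤ k) : UG g m c :=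
  ⟨h.1, h.2.imp fun _ h α hα => h α (hα.trans hm)⟩

theorem UG.d {k : ℕ} {c : P → X3 → ℝ} (h : UG g (k + 1) c) (j : Fin 3) :
    UG g k fun r => Gd1 g j (c r) :=
  ⟨fun r => Gd1_sm hg j (h.1 r), h.2.imp fun _ h α hα => h (j :: α) (by simpa using hα)⟩

omit hg in
theorem UG.bd {k : ℕ} {c : P → X3 → ℝ} (h : UG g k c) : ∃ C, ∀ r z, |c r z| ≤ C :=
  h.2.imp fun _ h => h [] (Nat.zero_le _)

omit hg in
theorem ug_zero {c : P → X3 → ℝ} (h : ∀ r, Sm (c r)) (h0 : ∃ C, ∀ r z, |c r z| ≤ C) :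
    UG g 0 c := by
  refine ⟨h, h0.imp fun C hC α hα => ?_⟩
  rw [List.eq_nil_of_length_eq_zero (Nat.le_zero.1 hα)]
  exact hC

omit hg in
theorem ug_succ {k : ℕ} {c : P → X3 → ℝ} (h : ∀ r, Sm (c r)) (h0 : ∃ C, ∀ r z, |c r z| ≤ C)
    (h1 : ∀ j, UG g k fun r => Gd1 g j (c r)) : UG g (k + 1) c := by
  obtain ⟨C, hC⟩ := h0
  choose C' hC' using fun j => (h1 j).2
  refine ⟨h, max C (max (C' 0) (max (C' 1) (C' 2))), fun α hα r z => ?_⟩
  cases α with
  | nil => exact (hC r z).trans (le_max_left _ _)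
  | cons j α =>
    refine (hC' j α (by simpa using hα) r z).trans (le_max_of_le_right ?_)
    fin_cases j <;> simp

theorem UG.add {k : ℕ} {c d : P → X3 → ℝ} (h : UG g k c) (h' : UG g k d) :
    UG g k fun r z => c r z + d r z := by
  have hb : ∀ {k : ℕ} {c d : P → X3 → ℝ}, UG g k c → UG g k d →
      ∃ C, ∀ r z, |c r z + d r z| ≤ C := fun h h' => by
    obtain ⟨C, hC⟩ := h.bd
    obtain ⟨C', hC'⟩ := h'.bd
    exact ⟨C + C', fun r z => (abs_add_le _ _).trans (add_le_add (hC r z) (hC' r z))⟩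
  induction k generalizing c d with
  | zero => exact ug_zero (fun r => (h.1 r).add (h'.1 r)) (hb h h')
  | succ k ih =>
    refine ug_succ (fun r => (h.1 r).add (h'.1 r)) (hb h h') fun j => ?_
    convert ih (h.d hg j) (h'.d hg j) using 2 with r
    funext z
    simp only [Gd1, pd_add' j (h.1 r) (h'.1 r)]
    ring

theorem UG.mul {k : ℕ} {c d : P → X3 → ℝ} (h : UG g k c) (h' : UG g k d) :
    UG g k fun r z => c r z * d r z := by
  have hb : ∀ {k : ℕ} {c d : P → X3 → ℝ}, UG g k c → UG g k d →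
      ∃ C, ∀ r z, |c r z * d r z| ≤ C := fun h h' => by
    obtain ⟨C, hC⟩ := h.bd
    obtain ⟨C', hC'⟩ := h'.bd
    exact ⟨C * C', fun r z => by
      rw [abs_mul]
      exact mul_le_mul (hC r z) (hC' r z) (abs_nonneg _) ((abs_nonneg _).trans (hC r z))⟩
  induction k generalizing c d with
  | zero => exact ug_zero (fun r => (h.1 r).mul (h'.1 r)) (hb h h')
  | succ k ih =>
    refine ug_succ (fun r => (h.1 r).mul (h'.1 r)) (hb h h') fun j => ?_
    convert (ih (h.d hg j) (h'.low k.le_succ)).add hg (ih (h.low k.le_succ) (h'.d hg j))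
      using 2 with r
    funext z
    simp only [Gd1, pd_mul j (h.1 r) (h'.1 r)]
    ring

omit hg in
theorem ug_const (k : ℕ) {a : P → ℝ} (h : ∃ C, ∀ r, |a r| ≤ C) : UG g k fun r _ => a r := by
  induction k generalizing a with
  | zero => exact ug_zero (fun _ => contDiff_const) (h.imp fun _ h r _ => h r)
  | succ k ih =>
    refine ug_succ (fun _ => contDiff_const) (h.imp fun _ h r _ => h r) fun j => ?_
    convert ih (a := fun _ => 0) ⟨0, by simp⟩ using 2 with r
    funext z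
    simp [Gd1, pd_const]

/-- Composition with a function F in a class of functions closed under derivatives and bounded
on the range. -/
theorem UG.comp {k : ℕ} {c : P → X3 → ℝ} (h : UG g k c) {F : ℝ → ℝ} {S : Set ℝ}
    (hS : IsOpen S) (hF : ContDiffOn ℝ ∞ F S) {T : Set ℝ} (hT : IsCompact T) (hTS : T ⊆ S)
    (hc : ∀ r z, c r z ∈ T) : UG g k fun r z => F (c r z) := by
  have hsm : ∀ {F : ℝ → ℝ}, ContDiffOn ℝ ∞ F S → ∀ r, Sm fun z => F (c r z) := fun hF r =>
    hF.comp_contDiff (h.1 r) fun z => hTS (hc r z)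
  have hb : ∀ {F : ℝ → ℝ}, ContDiffOn ℝ ∞ F S → ∃ C, ∀ r z, |F (c r z)| ≤ C := fun hF => by
    obtain ⟨C, hC⟩ := hT.exists_bound_of_continuousOn (hF.continuousOn.mono hTS)
    exact ⟨C, fun r z => hC _ (hc r z)⟩
  induction k generalizing F with
  | zero => exact ug_zero (hsm hF) (hb hF)
  | succ k ih =>
    refine ug_succ (hsm hF) (hb hF) fun j => ?_
    have hF' : ContDiffOn ℝ ∞ (deriv F) S := hF.deriv_of_isOpen hS (by simp)
    convert (ih (h.low k.le_succ) hF').mul hg (h.d hg j) using 2 with r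
    funext z
    have h1 : HasDerivAt F (deriv F (c r z)) (c r z) :=
      ((hF.contDiffAt (hS.mem_nhds (hTS (hc r z)))).differentiableAt (by simp)).hasDerivAt
    have h2 := (h1.comp_hasFDerivAt z (dif (h.1 r) z).hasFDerivAt).fderiv
    simp only [Gd1, pd]
    rw [show (fun z => F (c r z)) = F ∘ c r from rfl, h2]
    simp only [_root_.smul_apply, smul_eq_mul]
    ring

end

theorem Gl_one (α : List (Fin 3)) (u : X3 → ℝ) : Gl (fun _ _ => 1) α u = pdl α u := by
  induction α generalizing u with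
  | nil => rfl
  | cons j α ih =>
    simp only [Gl, pdl]
    rw [ih]
    congr 1
    funext z
    simp [Gd1]

theorem Gl_gz (α : List (Fin 3)) (u : X3 → ℝ) : Gl gz α u = Dl α u := by
  induction α generalizing u with
  | nil => rfl
  | cons j α ih => exact ih _

theorem ub_iff {c : P → X3 → ℝ} : UB c ↔ ∀ k, UG (fun _ _ => 1) k c := by
  simp only [UB, UG, Gl_one, Sb, Real.norm_eq_abs]
  exact ⟨fun h k => ⟨h.1, (h.2 k).imp fun _ h α hα r z => h r α hα z⟩,
    fun h => ⟨(h 0).1, fun k => (h k).2.imp fun _ h r α hα z => h α hα r z⟩⟩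

theorem words_bound {F : List (Fin 3) → ℝ → Prop} (hm : ∀ α a b, a ≤ b → F α a → F α b)
    (h : ∀ α, ∃ C, F α C) (k : ℕ) : ∃ C, ∀ α : List (Fin 3), α.length ≤ k → F α C := by
  choose C hC using h
  obtain ⟨B, hB⟩ := ((List.finite_length_le (Fin 3) k).image C).bddAbove
  exact ⟨B, fun α hα => hm α _ _ (hB ⟨α, hα, rfl⟩) (hC α)⟩

theorem ud_iff {c : P → X3 → ℝ} : UD c ↔ ∀ k, UG gz k c := by
  simp only [UD, UG, Gl_gz]
  refine ⟨fun h k => ⟨h.1, words_bound (F := fun α C => ∀ r z, |Dl α (c r) z| ≤ C)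
    (fun α a b hab h r z => (h r z).trans hab) h.2 k⟩,
    fun h => ⟨(h 0).1, fun α => (h α.length).2.imp fun _ h => h α le_rfl⟩⟩

theorem one_sm (j : Fin 3) : Sm ((fun _ _ => 1 : Fin 3 → X3 → ℝ) j) := contDiff_const

/-! ### The class UB -/

theorem UB.bd {c : P → X3 → ℝ} (h : UB c) : ∃ C, 0 ≤ C ∧ ∀ r z, |c r z| ≤ C := by
  obtain ⟨C, hC⟩ := (ub_iff.1 h 0).bd
  exact ⟨max C 0, le_max_right _ _, fun r z => (hC r z).trans (le_max_left _ _)⟩

theorem UB.sb {c : P → X3 → ℝ} (h : UB c) (k : ℕ) : ∃ C, 0 ≤ C ∧ ∀ r, Sb k (c r) C := by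
  obtain ⟨C, hC⟩ := h.2 k
  exact ⟨max C 0, le_max_right _ _, fun r => (hC r).mono le_rfl (le_max_left _ _)⟩

theorem UB.add {c d : P → X3 → ℝ} (h : UB c) (h' : UB d) : UB fun r z => c r z + d r z :=
  ub_iff.2 fun k => (ub_iff.1 h k).add one_sm (ub_iff.1 h' k)

theorem UB.mul {c d : P → X3 → ℝ} (h : UB c) (h' : UB d) : UB fun r z => c r z * d r z :=
  ub_iff.2 fun k => (ub_iff.1 h k).mul one_sm (ub_iff.1 h' k)

theorem ub_const {a : P → ℝ} (h : ∃ C, ∀ r, |a r| ≤ C) : UB fun r _ => a r :=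
  ub_iff.2 fun k => ug_const k h

theorem ub_c (a : ℝ) : UB fun (_ : P) _ => a := ub_const ⟨|a|, fun _ => le_rfl⟩

theorem UB.neg {c : P → X3 → ℝ} (h : UB c) : UB fun r z => -c r z := by
  simpa using (ub_c (-1)).mul h

theorem UB.sub {c d : P → X3 → ℝ} (h : UB c) (h' : UB d) : UB fun r z => c r z - d r z := by
  simpa [sub_eq_add_neg] using h.add h'.neg

theorem UB.sum {ι : Type} (s : Finset ι) {c : ι → P → X3 → ℝ} (h : ∀ i, UB (c i)) :
    UB fun r z => ∑ i ∈ s, c i r z := by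
  classical
  induction s using Finset.induction_on with
  | empty => simpa using ub_c 0
  | insert a s ha ih => simpa [Finset.sum_insert ha] using (h a).add ih

theorem UB.pd {c : P → X3 → ℝ} (h : UB c) (j : Fin 3) : UB fun r => pd j (c r) :=
  ⟨fun r => pd_sm j (h.1 r), fun k => (h.2 (k + 1)).imp fun _ h r => (h r).pd j⟩

theorem UB.pdl {c : P → X3 → ℝ} (h : UB c) (α : List (Fin 3)) : UB fun r => pdl α (c r) := by
  induction α generalizing c with
  | nil => exact h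
  | cons j α ih => exact ih (h.pd j)

theorem UB.re {P' : Type} {c : P → X3 → ℝ} (h : UB c) (f : P' → P) : UB fun r => c (f r) :=
  ⟨fun _ => h.1 _, fun k => (h.2 k).imp fun _ h _ => h _⟩

theorem UB.comp {c : P → X3 → ℝ} (h : UB c) {F : ℝ → ℝ} {S : Set ℝ} (hS : IsOpen S)
    (hF : ContDiffOn ℝ ∞ F S) {T : Set ℝ} (hT : IsCompact T) (hTS : T ⊆ S)
    (hc : ∀ r z, c r z ∈ T) : UB fun r z => F (c r z) :=
  ub_iff.2 fun k => (ub_iff.1 h k).comp one_sm hS hF hT hTS hc

/-- A smooth function with compact support. -/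
theorem ub_of_cs {u : X3 → ℝ} (hu : Sm u) (hc : HasCompactSupport u) : UB fun _ : P => u := by
  refine ⟨fun _ => hu, fun k => ?_⟩
  obtain ⟨C, hC⟩ := words_bound (F := fun α C => ∀ z, ‖pdl α u z‖ ≤ C)
    (fun α a b hab h z => (h z).trans hab) (fun α => by
      have hg : P354H.Good (pdl α u) := P354H.Good.pdl ⟨hu, hc⟩ α
      exact hg.1.continuous.bounded_above_of_compact_support hg.2) k
  exact ⟨C, fun _ => hC⟩

/-! ### The class UD -/

theorem UD.bd {c : P → X3 → ℝ} (h : UD c) : ∃ C, 0 ≤ C ∧ ∀ r z, |c r z| ≤ C := by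
  obtain ⟨C, hC⟩ := h.2 []
  exact ⟨max C 0, le_max_right _ _, fun r z => (hC r z).trans (le_max_left _ _)⟩

theorem UD.add {c d : P → X3 → ℝ} (h : UD c) (h' : UD d) : UD fun r z => c r z + d r z :=
  ud_iff.2 fun k => (ud_iff.1 h k).add gz_sm (ud_iff.1 h' k)

theorem UD.mul {c d : P → X3 → ℝ} (h : UD c) (h' : UD d) : UD fun r z => c r z * d r z :=
  ud_iff.2 fun k => (ud_iff.1 h k).mul gz_sm (ud_iff.1 h' k)

theorem ud_const {a : P → ℝ} (h : ∃ C, ∀ r, |a r| ≤ C) : UD fun r _ => a r :=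
  ud_iff.2 fun k => ug_const k h

theorem ud_c (a : ℝ) : UD fun (_ : P) _ => a := ud_const ⟨|a|, fun _ => le_rfl⟩

theorem UD.neg {c : P → X3 → ℝ} (h : UD c) : UD fun r z => -c r z := by
  simpa using (ud_c (-1)).mul h

theorem UD.sub {c d : P → X3 → ℝ} (h : UD c) (h' : UD d) : UD fun r z => c r z - d r z := by
  simpa [sub_eq_add_neg] using h.add h'.neg

theorem UD.sum {ι : Type} (s : Finset ι) {c : ι → P → X3 → ℝ} (h : ∀ i, UD (c i)) :
    UD fun r z => ∑ i ∈ s, c i r z := by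
  classical
  induction s using Finset.induction_on with
  | empty => simpa using ud_c 0
  | insert a s ha ih => simpa [Finset.sum_insert ha] using (h a).add ih

theorem UD.pow {c : P → X3 → ℝ} (h : UD c) (n : ℕ) : UD fun r z => c r z ^ n := by
  induction n with
  | zero => simpa using ud_c 1
  | succ n ih => simpa [pow_succ] using ih.mul h

theorem UD.D {c : P → X3 → ℝ} (h : UD c) (j : Fin 3) : UD fun r => D j (c r) :=
  ⟨fun r => D_sm j (h.1 r), fun α => h.2 (j :: α)⟩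

theorem UD.Dl {c : P → X3 → ℝ} (h : UD c) (α : List (Fin 3)) : UD fun r => Dl α (c r) := by
  induction α generalizing c with
  | nil => exact h
  | cons j α ih => exact ih (h.D j)

theorem UD.re {P' : Type} {c : P → X3 → ℝ} (h : UD c) (f : P' → P) : UD fun r => c (f r) :=
  ⟨fun _ => h.1 _, fun α => (h.2 α).imp fun _ h _ => h _⟩

theorem UD.comp {c : P → X3 → ℝ} (h : UD c) {F : ℝ → ℝ} {S : Set ℝ} (hS : IsOpen S)
    (hF : ContDiffOn ℝ ∞ F S) {T : Set ℝ} (hT : IsCompact T) (hTS : T ⊆ S)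
    (hc : ∀ r z, c r z ∈ T) : UD fun r z => F (c r z) :=
  ud_iff.2 fun k => (ud_iff.1 h k).comp gz_sm hS hF hT hTS hc

/-- Composition with a function smooth on the positive reals, for families bounded below. -/
theorem UD.compPos {c : P → X3 → ℝ} (h : UD c) {δ : ℝ} (hδ : 0 < δ) (hc : ∀ r z, δ ≤ c r z)
    {F : ℝ → ℝ} (hF : ContDiffOn ℝ ∞ F (Ioi 0)) : UD fun r z => F (c r z) := by
  obtain ⟨C, -, hC⟩ := h.bd
  exact h.comp isOpen_Ioi hF (isCompact_Icc (a := δ) (b := C)) (fun x hx => hδ.trans_le hx.1)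
    fun r z => ⟨hc r z, (le_abs_self _).trans (hC r z)⟩

theorem UD.inv {c : P → X3 → ℝ} (h : UD c) {δ : ℝ} (hδ : 0 < δ) (hc : ∀ r z, δ ≤ c r z) :
    UD fun r z => (c r z)⁻¹ :=
  h.compPos hδ hc (F := fun x => x⁻¹) (contDiffOn_inv ℝ |>.mono fun x hx => ne_of_gt hx)

theorem ud_yc (i : Fin 3) : UD fun _ : P => yc i := by
  refine ud_iff.2 fun k => ?_
  have hb : ∃ C, ∀ (_ : P) z, |yc i z| ≤ C := ⟨Real.pi, fun _ z => by
    rw [yc, abs_mul, abs_two]
    have := abs_le.2 ⟨(Real.neg_pi_div_two_lt_arctan (co i z)).le,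
      (Real.arctan_lt_pi_div_two (co i z)).le⟩
    linarith⟩
  cases k with
  | zero => exact ug_zero (fun _ => yc_sm i) hb
  | succ k =>
    refine ug_succ (fun _ => yc_sm i) hb fun j => ?_
    have : Gd1 gz j (yc i) = fun _ => if i = j then 1 else 0 := D_yc j i
    simp only [this]
    exact ug_const k ⟨_, fun _ => le_rfl⟩

theorem gz_inv (i : Fin 3) (z : X3) : (gz i z)⁻¹ = 1 + Real.cos (yc i z) := by
  have h := Real.cos_sq_arctan (co i z)
  rw [yc, Real.cos_two_mul, h, gz]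
  field_simp
  ring

theorem ud_cos {c : P → X3 → ℝ} (h : UD c) : UD fun r z => Real.cos (c r z) := by
  obtain ⟨C, -, hC⟩ := h.bd
  exact h.comp isOpen_univ Real.contDiff_cos.contDiffOn (isCompact_Icc (a := -C) (b := C))
    (subset_univ _) fun r z => abs_le.1 (hC r z)

theorem ud_gz_inv (i : Fin 3) : UD fun (_ : P) z => (gz i z)⁻¹ := by
  simp only [gz_inv]
  exact (ud_c 1).add (ud_cos (ud_yc i))

theorem UD.pd {c : P → X3 → ℝ} (h : UD c) (j : Fin 3) : UD fun r => pd j (c r) := by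
  simp only [pd_eq_D]
  exact (ud_gz_inv j).mul (h.D j)

theorem UD.ub {c : P → X3 → ℝ} (h : UD c) : UB c := by
  refine ub_iff.2 fun k => ?_
  induction k generalizing c with
  | zero => exact ug_zero h.1 (h.2 [])
  | succ k ih =>
    refine ug_succ h.1 (h.2 []) fun j => ?_
    convert ih (h.pd j) using 2 with r
    funext z
    simp [Gd1]

theorem ub_gz_inv (i : Fin 3) : UB fun (_ : P) z => (gz i z)⁻¹ := (ud_gz_inv i).ub

/-- The logarithmic derivative of gz. -/
theorem ub_co_gz (i : Fin 3) : UB fun (_ : P) z => co i z * (gz i z)⁻¹ := by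
  have := ((ud_gz_inv (P := P) i).D i).neg.ub
  convert this using 3 with r z
  rw [D, pd_inv i (gz_sm i) fun z => (gz_pos i z).ne', pd_gz]
  have := (gz_pos i z).ne'
  simp only [if_true]
  field_simp

/-! ### The class UC -/

section
variable {K : Set X3}

theorem UC.add {c d : P → X3 → ℝ} (h : UC K c) (h' : UC K d) : UC K fun r z => c r z + d r z :=
  ⟨h.1.add h'.1, fun r z hz => by simp [h.2 r z hz, h'.2 r z hz]⟩

theorem UC.mul {c d : P → X3 → ℝ} (h' : UC K d) (h : UB c) : UC K fun r z => c r z * d r z :=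
  ⟨h.mul h'.1, fun r z hz => by simp [h'.2 r z hz]⟩

theorem UC.mul' {c d : P → X3 → ℝ} (h' : UC K d) (h : UB c) : UC K fun r z => d r z * c r z :=
  ⟨h'.1.mul h, fun r z hz => by simp [h'.2 r z hz]⟩

theorem UC.neg {c : P → X3 → ℝ} (h : UC K c) : UC K fun r z => -c r z :=
  ⟨h.1.neg, fun r z hz => by simp [h.2 r z hz]⟩

theorem UC.sub {c d : P → X3 → ℝ} (h : UC K c) (h' : UC K d) : UC K fun r z => c r z - d r z :=
  ⟨h.1.sub h'.1, fun r z hz => by simp [h.2 r z hz, h'.2 r z hz]⟩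

theorem uc_zero : UC K fun (_ : P) _ => (0 : ℝ) := ⟨ub_c 0, fun _ _ _ => rfl⟩

theorem UC.sum {ι : Type} (s : Finset ι) {c : ι → P → X3 → ℝ} (h : ∀ i, UC K (c i)) :
    UC K fun r z => ∑ i ∈ s, c i r z :=
  ⟨UB.sum s fun i => (h i).1, fun r z hz => Finset.sum_eq_zero fun i _ => (h i).2 r z hz⟩

theorem UC.mono {K' : Set X3} {c : P → X3 → ℝ} (h : UC K c) (hK : K ⊆ K') : UC K' c :=
  ⟨h.1, fun r z hz => h.2 r z fun h => hz (hK h)⟩

theorem UC.re {P' : Type} {c : P → X3 → ℝ} (h : UC K c) (f : P' → P) : UC K fun r => c (f r) :=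
  ⟨h.1.re f, fun _ => h.2 _⟩

theorem UC.pd {c : P → X3 → ℝ} (h : UC K c) (hK : IsCompact K) (j : Fin 3) :
    UC K fun r => pd j (c r) := ⟨h.1.pd j, fun r => pd_supp j hK.isClosed (h.2 r)⟩

/-- A smooth function with compact support which is 1 on a given compact set. -/
theorem ex_bump (hK : IsCompact K) : ∃ η : X3 → ℝ, Sm η ∧ HasCompactSupport η ∧
    (∀ z ∈ K, η z = 1) ∧ ∀ z, 0 ≤ η z ∧ η z ≤ 1 := by
  obtain ⟨R, hR0, hR⟩ := hK.isBounded.subset_closedBall_lt 0 0
  let b : ContDiffBump (0 : X3) := ⟨R, R + 1, hR0, by linarith⟩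
  exact ⟨b, b.contDiff, b.hasCompactSupport, fun z hz => b.one_of_mem_closedBall (hR hz),
    fun z => ⟨b.nonneg, b.le_one⟩⟩

/-- Multiplication by any fixed smooth function. -/
theorem UC.smul {c : P → X3 → ℝ} (h : UC K c) (hK : IsCompact K) {g : X3 → ℝ} (hg : Sm g) :
    UC K fun r z => g z * c r z := by
  obtain ⟨η, h1, h2, h3, -⟩ := ex_bump hK
  have := h.mul (ub_of_cs (P := P) (h1.mul hg) h2.mul_right)
  convert this using 3 with r z
  by_cases hz : z ∈ K
  · simp [h3 z hz]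
  · simp [h.2 r z hz]

theorem uc_of_supp (hK : IsCompact K) {u : X3 → ℝ} (hu : Sm u) (h : ∀ z, z ∉ K → u z = 0) :
    UC K fun _ : P => u :=
  ⟨ub_of_cs hu (HasCompactSupport.intro hK h), fun _ => h⟩

theorem UC.D {c : P → X3 → ℝ} (h : UC K c) (hK : IsCompact K) (j : Fin 3) :
    UC K fun r => D j (c r) := (h.pd hK j).smul hK (gz_sm j)

theorem UC.Dl {c : P → X3 → ℝ} (h : UC K c) (hK : IsCompact K) (α : List (Fin 3)) :
    UC K fun r => Dl α (c r) := by
  induction α generalizing c with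
  | nil => exact h
  | cons j α ih => exact ih (h.D hK j)

theorem UC.ud {c : P → X3 → ℝ} (h : UC K c) (hK : IsCompact K) : UD c :=
  ⟨h.1.1, fun α => let ⟨C, _, hC⟩ := (h.Dl hK α).1.bd; ⟨C, hC⟩⟩

end

end Vale.Agent.P354K
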