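import Vale.Agent.P354K.Unif
import Vale.Agent.P354H.Sob

open scoped ContDiff
open MeasureTheory Set Filter Topology

namespace Vale.Agent.P354K

open Vale.Agent.P354H (X3 e pd pdl Sb pd_sm pdl_sm dif)

variable {P : Type}

/-! ### L2 bounds -/

theorem L2.cont {g : X3 → ℝ} {c : ℝ} (h : L2 g c) : Continuous g := h.1
theorem L2.int {g : X3 → ℝ} {c : ℝ} (h : L2 g c) : Integrable fun z => g z ^ 2 := h.2.1
theorem L2.nonneg {g : X3 → ℝ} {c : ℝ} (h : L2 g c) : 0 ≤ c := h.2.2.1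
theorem L2.sq {g : X3 → ℝ} {c : ℝ} (h : L2 g c) : ∫ z, g z ^ 2 ≤ c ^ 2 := h.2.2.2

theorem L2.le {g : X3 → ℝ} {c d : ℝ} (h : L2 g c) (hd : c ≤ d) : L2 g d :=
  ⟨h.1, h.2.1, h.nonneg.trans hd, h.sq.trans (pow_le_pow_left₀ h.nonneg hd 2)⟩

/-- The optimal constant. -/
theorem l2_opt {g : X3 → ℝ} (hg : Continuous g) (hi : Integrable fun z => g z ^ 2) :
    L2 g √(∫ z, g z ^ 2) :=
  ⟨hg, hi, Real.sqrt_nonneg _, (Real.sq_sqrt (integral_nonneg fun _ => sq_nonneg _)).ge⟩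

theorem L2.opt_le {g : X3 → ℝ} {c : ℝ} (h : L2 g c) : √(∫ z, g z ^ 2) ≤ c :=
  Real.sqrt_le_iff.2 ⟨h.nonneg, h.sq⟩

theorem L2.mono {f g : X3 → ℝ} {c s : ℝ} (h : L2 g c) (hf : Continuous f) (hs : 0 ≤ s)
    (hle : ∀ z, |f z| ≤ s * |g z|) : L2 f (s * c) := by
  have hp : ∀ z, f z ^ 2 ≤ s ^ 2 * g z ^ 2 := fun z => by
    have := pow_le_pow_left₀ (abs_nonneg _) (hle z) 2
    rwa [mul_pow, sq_abs, sq_abs] at this
  have hi : Integrable fun z => f z ^ 2 :=
    (h.int.const_mul (s ^ 2)).mono' (hf.pow 2).aestronglyMeasurable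
      (ae_of_all _ fun z => by rw [Real.norm_of_nonneg (sq_nonneg _)]; exact hp z)
  refine ⟨hf, hi, mul_nonneg hs h.nonneg, ?_⟩
  refine (integral_mono hi (h.int.const_mul _) hp).trans ?_
  rw [integral_const_mul, mul_pow]
  exact mul_le_mul_of_nonneg_left h.sq (sq_nonneg _)

theorem L2.congr {f g : X3 → ℝ} {c : ℝ} (h : L2 g c) (hf : ∀ z, f z = g z) : L2 f c := by
  rwa [show f = g from funext hf]

theorem L2.mul_int {f g : X3 → ℝ} {a b : ℝ} (hf : L2 f a) (hg : L2 g b) :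
    Integrable fun z => f z * g z :=
  (hf.int.add hg.int).mono' (hf.1.mul hg.1).aestronglyMeasurable (ae_of_all _ fun z => by
    rw [Real.norm_eq_abs, abs_le]
    simp only [Pi.add_apply]
    constructor <;> nlinarith [sq_nonneg (f z + g z), sq_nonneg (f z - g z)])

/-- Cauchy-Schwarz. -/
theorem L2.cs {f g : X3 → ℝ} {a b : ℝ} (hf : L2 f a) (hg : L2 g b) :
    |∫ z, f z * g z| ≤ a * b := by
  have h : ∀ t : ℝ, 0 ≤ a ^ 2 * (t * t) + (2 * ∫ z, f z * g z) * t + b ^ 2 := by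
    intro t
    have h0 : 0 ≤ ∫ z, (f z ^ 2 * (t * t) + (2 * t) * (f z * g z) + g z ^ 2) :=
      integral_nonneg fun z => by
        have : 0 ≤ (f z * t + g z) ^ 2 := sq_nonneg _
        simp only [Pi.zero_apply]
        nlinarith
    rw [P354H.int3 (hf.int.mul_const _) ((hf.mul_int hg).const_mul _) hg.int, integral_mul_const,
      integral_const_mul] at h0
    nlinarith [hf.sq, hg.sq, mul_self_nonneg t]
  have hd := discrim_le_zero h
  rw [discrim] at hd
  refine abs_le_of_sq_le_sq ?_ (mul_nonneg hf.nonneg hg.nonneg)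
  nlinarith

theorem L2.add {f g : X3 → ℝ} {a b : ℝ} (hf : L2 f a) (hg : L2 g b) :
    L2 (fun z => f z + g z) (a + b) := by
  have he : (fun z => (f z + g z) ^ 2) = fun z => f z ^ 2 + 2 * (f z * g z) + g z ^ 2 := by
    funext z
    ring
  refine ⟨hf.1.add hg.1, ?_, add_nonneg hf.nonneg hg.nonneg, ?_⟩
  · rw [he]
    exact (hf.int.add ((hf.mul_int hg).const_mul _)).add hg.int
  · rw [he, P354H.int3 hf.int ((hf.mul_int hg).const_mul _) hg.int, integral_const_mul]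
    nlinarith [hf.sq, hg.sq, (le_abs_self _).trans (hf.cs hg)]

theorem l2_zero : L2 (fun _ => 0) 0 := ⟨continuous_const, by simp, le_rfl, by simp⟩

theorem L2.neg {f : X3 → ℝ} {a : ℝ} (hf : L2 f a) : L2 (fun z => -f z) a := by
  simpa using hf.mono (f := fun z => -f z) hf.1.neg zero_le_one fun z => by simp

theorem L2.sub {f g : X3 → ℝ} {a b : ℝ} (hf : L2 f a) (hg : L2 g b) :
    L2 (fun z => f z - g z) (a + b) := by
  simpa [sub_eq_add_neg] using hf.add hg.neg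

theorem L2.cmul {f : X3 → ℝ} {a : ℝ} (hf : L2 f a) (c : ℝ) : L2 (fun z => c * f z) (|c| * a) :=
  hf.mono (continuous_const.mul hf.1) (abs_nonneg c) fun _ => (abs_mul _ _).le

theorem L2.bmul {f c : X3 → ℝ} {a s : ℝ} (hf : L2 f a) (hc : Continuous c)
    (hs : ∀ z, |c z| ≤ s) : L2 (fun z => c z * f z) (s * a) :=
  hf.mono (hc.mul hf.1) ((abs_nonneg _).trans (hs 0)) fun z => by
    rw [abs_mul]
    exact mul_le_mul_of_nonneg_right (hs z) (abs_nonneg _)

theorem L2.sum {ι : Type} (s : Finset ι) {f : ι → X3 → ℝ} {a : ι → ℝ}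
    (h : ∀ i ∈ s, L2 (f i) (a i)) : L2 (fun z => ∑ i ∈ s, f i z) (∑ i ∈ s, a i) := by
  classical
  induction s using Finset.induction_on with
  | empty => simpa using l2_zero
  | insert i s hi ih =>
    simp only [Finset.sum_insert hi]
    exact (h i (Finset.mem_insert_self _ _)).add
      (ih fun j hj => h j (Finset.mem_insert_of_mem hj))

theorem L2.abs {f : X3 → ℝ} {a : ℝ} (hf : L2 f a) : L2 (fun z => |f z|) a := by
  simpa using hf.mono hf.1.abs zero_le_one fun z => by simp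

/-- Domination by a sum. -/
theorem L2.dom {ι : Type} (s : Finset ι) {f : ι → X3 → ℝ} {a : ι → ℝ}
    (h : ∀ i ∈ s, L2 (f i) (a i)) {g : X3 → ℝ} (hg : Continuous g) {C : ℝ} (hC : 0 ≤ C)
    (hle : ∀ z, |g z| ≤ C * ∑ i ∈ s, |f i z|) : L2 g (C * ∑ i ∈ s, a i) :=
  (L2.sum s fun i hi => (h i hi).abs).mono hg hC fun z => by
    rw [abs_of_nonneg (a := ∑ i ∈ s, |f i z|) (Finset.sum_nonneg fun _ _ => abs_nonneg _)]
    exact hle z

/-- Bounded functions with support in a compact set. -/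
theorem l2_supp {K : Set X3} (hK : IsCompact K) : ∃ C, 0 ≤ C ∧ ∀ (g : X3 → ℝ) (c : ℝ),
    Continuous g → (∀ z, z ∉ K → g z = 0) → (∀ z, |g z| ≤ c) → L2 g (C * c) := by
  obtain ⟨η, h1, h2, h3, h4⟩ := ex_bump hK
  have hη : L2 η _ := l2_opt h1.continuous (by
    simp only [pow_two]
    exact (h1.continuous.mul h1.continuous).integrable_of_hasCompactSupport h2.mul_right)
  refine ⟨_, hη.nonneg, fun g c hg h0 hc => ?_⟩
  rw [mul_comm]
  refine hη.mono hg ((abs_nonneg _).trans (hc 0)) fun z => ?_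
  by_cases hz : z ∈ K
  · simpa [h3 z hz] using hc z
  · simpa [h0 z hz] using mul_nonneg ((abs_nonneg _).trans (hc 0)) (abs_nonneg _)

/-- Fatou. -/
theorem l2_lim {f : ℕ → X3 → ℝ} {g : X3 → ℝ} {c : ℝ} (h : ∀ n, L2 (f n) c) (hg : Continuous g)
    (ht : ∀ z, Tendsto (fun n => f n z) atTop (𝓝 (g z))) : L2 g c := by
  have h1 : ∫⁻ z, ENNReal.ofReal (g z ^ 2) ≤ ENNReal.ofReal (c ^ 2) := by
    have h2 := lintegral_liminf_le (μ := volume) (u := atTop)
      (f := fun n z => ENNReal.ofReal (f n z ^ 2)) fun n => ((h n).1.pow 2).measurable.ennreal_ofReal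
    have h3 : ∀ z, liminf (fun n => ENNReal.ofReal (f n z ^ 2)) atTop =
        ENNReal.ofReal (g z ^ 2) := fun z =>
      ((ENNReal.continuous_ofReal.tendsto _).comp ((ht z).pow 2)).liminf_eq
    simp only [h3] at h2
    refine h2.trans (liminf_le_of_frequently_le' (Frequently.of_forall fun n => ?_))
    rw [← ofReal_integral_eq_lintegral_ofReal (h n).int (ae_of_all _ fun _ => sq_nonneg _)]
    exact ENNReal.ofReal_le_ofReal (h n).sq
  have hi : Integrable fun z => g z ^ 2 := by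
    refine ⟨(hg.pow 2).aestronglyMeasurable, ?_⟩
    rw [hasFiniteIntegral_iff_ofReal (ae_of_all _ fun _ => sq_nonneg _)]
    exact h1.trans_lt ENNReal.ofReal_lt_top
  refine ⟨hg, hi, (h 0).nonneg, ?_⟩
  rw [← ofReal_integral_eq_lintegral_ofReal hi (ae_of_all _ fun _ => sq_nonneg _)] at h1
  exact (ENNReal.ofReal_le_ofReal_iff (sq_nonneg _)).1 h1

/-- Integration by parts. -/
theorem int_pd (j : Fin 3) {f : X3 → ℝ} (hf : Sm f) (h1 : Integrable f)
    (h2 : Integrable (pd j f)) : ∫ z, pd j f z = 0 := by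
  have := P354H.haar
  have := integral_mul_fderiv_eq_neg_fderiv_mul_of_integrable (μ := (volume : Measure X3))
    (f := fun _ => (1 : ℝ)) (g := f) (v := e j) (by simp) (by simp only [one_mul]; exact h2)
    (by simpa using h1)
    (fun _ _ => differentiableAt_const _) fun z _ => dif hf z
  simpa [pd] using this

theorem ibp (j : Fin 3) {f g : X3 → ℝ} (hf : Sm f) (hg : Sm g)
    (h0 : Integrable fun z => f z * g z) (h1 : Integrable fun z => pd j f z * g z)
    (h2 : Integrable fun z => f z * pd j g z) :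
    ∫ z, f z * pd j g z = -∫ z, pd j f z * g z := by
  have h := int_pd j (hf.mul hg) h0 (by rw [pd_mul j hf hg]; exact h1.add h2)
  rw [pd_mul j hf hg, integral_add h1 h2] at h
  linarith

/-- Integration by parts for D and Dh when f has compact support. -/
theorem ibp_D (j : Fin 3) {f g : X3 → ℝ} (hf : Sm f) (hc : HasCompactSupport f) (hg : Sm g) :
    ∫ z, f z * Dh j g z = -∫ z, D j f z * g z := by
  have hg' : Sm fun z => gz j z * g z := (gz_sm j).mul hg
  rw [Dh, ibp j hf hg'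
    ((hf.continuous.mul hg'.continuous).integrable_of_hasCompactSupport hc.mul_right)
    (((pd_sm j hf).continuous.mul hg'.continuous).integrable_of_hasCompactSupport
      (P354H.pd_cs j hc).mul_right)
    ((hf.continuous.mul (pd_sm j hg').continuous).integrable_of_hasCompactSupport hc.mul_right)]
  congr 2
  funext z
  simp only [D]
  ring

/-! ### Weights -/

theorem LW.cont {W : X3 → ℝ} (h : LW W) : Continuous W := h.sm.continuous

theorem LW.mul {W W' : X3 → ℝ} (h : LW W) (h' : LW W') : LW fun z => W z * W' z := by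
  refine ⟨fun z => mul_pos (h.pos z) (h'.pos z), h.sm.mul h'.sm, fun i => ?_⟩
  obtain ⟨t, ht, e1⟩ := h.der i
  obtain ⟨t', ht', e2⟩ := h'.der i
  refine ⟨fun z => t z + t' z, ht.add ht', ?_⟩
  rw [pd_mul i h.sm h'.sm, e1, e2]
  funext z
  ring

theorem LW.inv {W : X3 → ℝ} (h : LW W) : LW fun z => (W z)⁻¹ := by
  refine ⟨fun z => inv_pos.2 (h.pos z), h.sm.inv fun z => (h.pos z).ne', fun i => ?_⟩
  obtain ⟨t, ht, e1⟩ := h.der i
  refine ⟨fun z => -t z, ht.neg, ?_⟩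
  rw [pd_inv i h.sm fun z => (h.pos z).ne', e1]
  funext z
  have := (h.pos z).ne'
  field_simp

theorem lw_one : LW fun _ => 1 :=
  ⟨fun _ => one_pos, contDiff_const, fun i => ⟨fun _ => 0, ub_c 0, by rw [pd_const]; simp⟩⟩

theorem lw_gz (i : Fin 3) : LW (gz i) := by
  refine ⟨gz_pos i, gz_sm i, fun j => ?_⟩
  by_cases h : i = j
  · refine ⟨fun z => co i z * (gz i z)⁻¹, ub_co_gz i, ?_⟩
    rw [pd_gz]
    funext z
    have := (gz_pos i z).ne'
    simp only [if_pos h]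
    field_simp
  · refine ⟨fun _ => 0, ub_c 0, ?_⟩
    rw [pd_gz]
    simp [h]

theorem Wt.sw {ψ : X3 → ℝ} (h : Wt ψ) : LW (sw ψ) := h.lw.inv

theorem prod_gz (z : X3) : ∏ i, gz i z ^ 2 =
    gz 0 z * gz 0 z * (gz 1 z * gz 1 z) * (gz 2 z * gz 2 z) := by
  rw [Fin.prod_univ_three]
  ring

theorem lw_prod_gz : LW fun z => ∏ i, gz i z ^ 2 := by
  simp only [prod_gz]
  exact (((lw_gz 0).mul (lw_gz 0)).mul ((lw_gz 1).mul (lw_gz 1))).mul ((lw_gz 2).mul (lw_gz 2))

theorem Wt.ww {ψ : X3 → ℝ} (h : Wt ψ) : LW (ww ψ) := (h.lw.mul lw_prod_gz).inv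

theorem prod_gz_ge (z : X3) : 1 / 64 ≤ ∏ i, gz i z ^ 2 := by
  rw [prod_gz]
  have h : ∀ i, 1 / 4 ≤ gz i z * gz i z := fun i => by nlinarith [gz_ge i z]
  have h1 : 1 / 4 * (1 / 4) ≤ gz 0 z * gz 0 z * (gz 1 z * gz 1 z) :=
    mul_le_mul (h 0) (h 1) (by norm_num) (by linarith [h 0])
  have h2 := mul_le_mul h1 (h 2) (by norm_num) (by linarith)
  linarith

theorem prod_gz_le (z : X3) : ∏ i, gz i z ^ 2 ≤ (1 + ‖z‖ ^ 2) ^ 6 := by
  calc ∏ i, gz i z ^ 2 ≤ ∏ _i : Fin 3, (1 + ‖z‖ ^ 2) ^ 2 :=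
        Finset.prod_le_prod (fun _ _ => sq_nonneg _) fun i _ =>
          pow_le_pow_left₀ (gz_pos i z).le (gz_le i z) 2
    _ = _ := by simp [← pow_mul]

theorem ww_eq (ψ : X3 → ℝ) (z : X3) : ww ψ z = sw ψ z * (∏ i, gz i z ^ 2)⁻¹ := mul_inv _ _

/-- The weak weight is bounded by the strong weight. -/
theorem ww_le {ψ : X3 → ℝ} (h : Wt ψ) (z : X3) : ww ψ z ≤ 64 * sw ψ z := by
  rw [ww_eq, mul_comm]
  refine mul_le_mul_of_nonneg_right ?_ (h.sw.pos z).le
  exact inv_le_of_inv_le₀ (by norm_num) (by simpa using prod_gz_ge z)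

/-- The strong weight is bounded by the square of the weak weight. -/
theorem sw_le {ψ : X3 → ℝ} (h : Wt ψ) : ∃ C, 0 ≤ C ∧ ∀ z, sw ψ z ≤ C * (ww ψ z * ww ψ z) := by
  obtain ⟨C, hC⟩ := h.dec 12
  have hp := h.lw.pos
  refine ⟨C, le_trans (by have := hp 0; positivity) (hC 0), fun z => ?_⟩
  have h1 := hp z
  have h2 : 0 < ∏ i, gz i z ^ 2 := lw_prod_gz.pos z
  have h3 : ψ z * ((∏ i, gz i z ^ 2) * ∏ i, gz i z ^ 2) ≤ C := by
    refine le_trans (mul_le_mul_of_nonneg_left ?_ h1.le) (hC z)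
    rw [show 12 = 6 + 6 from rfl, pow_add]
    exact mul_le_mul (prod_gz_le z) (prod_gz_le z) h2.le (by positivity)
  unfold sw ww
  generalize ∏ i, gz i z ^ 2 = q at *
  rw [← mul_inv, ← div_eq_mul_inv, le_div_iff₀ (by positivity)]
  calc (ψ z)⁻¹ * (ψ z * q * (ψ z * q)) = ψ z * (q * q) := by field_simp
    _ ≤ C := h3

/-- Polynomials are bounded by the weak weight. -/
theorem poly_le_ww {ψ : X3 → ℝ} (h : Wt ψ) (n : ℕ) :
    ∃ C, 0 ≤ C ∧ ∀ z, (1 + ‖z‖ ^ 2) ^ n ≤ C * ww ψ z := by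
  obtain ⟨C, hC⟩ := h.dec (n + 6)
  have hp := h.lw.pos
  refine ⟨C, le_trans (by have := hp 0; positivity) (hC 0), fun z => ?_⟩
  have h1 := hp z
  have h2 : 0 < ∏ i, gz i z ^ 2 := lw_prod_gz.pos z
  unfold ww
  rw [← div_eq_mul_inv, le_div_iff₀ (by positivity)]
  refine le_trans ?_ (hC z)
  rw [pow_add, mul_left_comm]
  exact mul_le_mul_of_nonneg_left (mul_le_mul_of_nonneg_left (prod_gz_le z) (by positivity)) h1.le

/-- Derivatives of a weight. -/
theorem LW.pdl {W : X3 → ℝ} (h : LW W) (α : List (Fin 3)) :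
    ∃ t : X3 → ℝ, UB (fun _ : Unit => t) ∧ pdl α W = fun z => t z * W z := by
  induction α using List.reverseRecOn with
  | nil => exact ⟨fun _ => 1, ub_c 1, by simp [P354H.pdl]⟩
  | append_singleton α j ih =>
    obtain ⟨t, ht, e1⟩ := ih
    obtain ⟨s, hs, e2⟩ := h.der j
    refine ⟨fun z => pd j t z + t z * s z, (ht.pd j).add (ht.mul hs), ?_⟩
    rw [P354H.pdl_append, e1]
    simp only [P354H.pdl]
    rw [pd_mul j (ht.1 ()) h.sm, e2]
    funext z
    ring

end Vale.Agent.P354K
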