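import Vale.Agent.P354K.XP
import Vale.Agent.P354KZ.Main
import Vale.Agent.P354KS.Main
import Vale.Agent.P354KP.Main
import Vale.Agent.P354S.Main
import Vale.Agent.P354KC.Ck
import Vale.Agent.P354KD.Alg
import Vale.Agent.P354KE.Ext

namespace Vale.Agent.P354K

theorem sol : SOL := P354KS.spec (P354S.sol0 P354KP.poin lim sobw)

theorem corey : COREY := P354KE.ext (P354KZ.corez xpk sol)

theorem corek : COREK := P354KC.ck P354KD.alg0 corey

end Vale.Agent.P354K
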