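import Vale.Agent.P354K.Top

/-!
Deformation of the constraints with a source (for NEMP): exact statements.
-/

open scoped ContDiff
open MeasureTheory Set Filter Topology

namespace Vale.Agent.P354K

open Vale.Agent.P354H (X3 e pd pdl Sb)
open Vale.Agent.P354J (PD CC)

/-- A small source S with compact support is removed by a small deformation (coordinates z). -/
def GLZ : Prop :=
  ∀ B, Pl B → ∀ (P : Type) (l : Filter P) (jb : P → Jt → X3 → ℝ) (K0 K : Set X3)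
    (js jT : Jt → X3 → ℝ) (χ : X3 → ℝ) (S : Eq4 → P → X3 → ℝ),
    Base jb → IsCompact K0 → IsCompact K → Wit D K js jT χ →
    (∀ η > 0, ∀ᶠ r in l, ∀ x, ∀ z ∈ K, |jb r x z - js x z| ≤ η) → (∀ k, UC K0 (S k)) →
    (∀ n, ∀ η > 0, ∀ᶠ r in l, ∀ k, Sb n (S k r) η) →
    ∀ m : ℕ, ∀ η > 0, ∀ᶠ r in l, ∃ j : Jt → X3 → ℝ, Adm j ∧
      (∀ k z, PC B k (at' (jb r) z + at' j z) = PC B k (at' (jb r) z) - S k r z) ∧
      (∀ x α (n : ℕ), ∃ c, ∀ z, |Dl α (j x) z| * (1 + ‖z‖ ^ 2) ^ n ≤ c) ∧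
      ∀ α : List (Fin 3), α.length ≤ m → ∀ z x, |Dl α (j x) z| ≤ η

/-- The same for (h, K) in a chart: the constraints are repaired where φ = 1. -/
def GLK : Prop :=
  ∀ (P : Type) (l : Filter P) (h K : P → X3 → M3) (hs Ks T : X3 → M3) (χ φ : X3 → ℝ)
    (K0 K1 : Set X3), (∀ r, PD (h r) (K r)) →
    (∀ α, ∃ C, ∀ r a b, ∀ y ∈ cube,
      |pdl α (fun z => h r z a b) y| ≤ C ∧ |pdl α (fun z => K r z a b) y| ≤ C) →
    (∃ c > 0, ∀ r, ∀ y ∈ cube, ∀ w : Fin 3 → ℝ,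
      c * ∑ a, w a ^ 2 ≤ ∑ a, ∑ b, w a * h r y a b * w b) →
    PD hs Ks → (∀ y, CC hs Ks y) → IsCompact K0 → IsCompact K1 → K0 ⊆ cube → K1 ⊆ cube →
    Wit pd K1 (jet hs fun z => piOf (hs z) (Ks z)) (jet 0 T) χ →
    (∀ α, ∀ η > 0, ∀ᶠ r in l, ∀ a b, ∀ y ∈ cube,
      |pdl α (fun z => h r z a b - hs z a b) y| ≤ η ∧
        |pdl α (fun z => K r z a b - Ks z a b) y| ≤ η) →
    ContDiff ℝ ∞ φ → (∀ y, y ∉ K0 → φ y = 0) →
    ∀ m : ℕ, ∀ η > 0, ∀ᶠ r in l, ∃ h' K' : X3 → M3, PD (h r + h') (K r + K') ∧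
      (∀ y, CC (h r) (K r) y ∨ φ y = 1 → CC (h r + h') (K r + K') y) ∧
      (∀ y, y ∉ cube → h' y = 0 ∧ K' y = 0) ∧
      ∀ α : List (Fin 3), α.length ≤ m → ∀ y a b,
        |pdl α (fun z => h' z a b) y| ≤ η ∧ |pdl α (fun z => K' z a b) y| ≤ η

end Vale.Agent.P354K
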