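import Vale.Agent.P354K.Glk
import Vale.Agent.P354KK.Push2
import Vale.Agent.P354KK.Chart
import Vale.Agent.P354I.Core2
import Vale.Agent.P354KM.Glz
import Vale.Agent.P354M2.Mix

open scoped ContDiff
open Set Filter Topology Matrix Metric

noncomputable section

namespace Vale.Agent.P354K

open Vale.Agent.P354H (X3 pdl)
open Vale.Agent.P354J (PD CC MS pb sl2 PDy Bd Phi Psi)
open Vale.Agent.P354JK Vale.Agent.P354KU
open Vale.Agent.P354I (X Dat IsDat wn Con Wi mix MIX NEMP)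
open Vale.Agent.P354T (DSm)
open Vale.Agent.P354KC (Lo)

/-- The constraints at a point. -/
def CA (d : Dat) (y : X) : Prop :=
  d.scal y + d.trK y ^ 2 - d.sqK y = 0 ∧ ∀ j, d.divK j y - P354I.pd j d.trK y = 0

theorem CA.loc {d d' : Dat} {y : X} (h : CA d y) (h1 : d'.h =ᶠ[𝓝 y] d.h) (h2 : d'.K =ᶠ[𝓝 y] d.K) :
    CA d' y := by
  obtain ⟨a1, a2, a3, a4⟩ := P354KU.loc h1 h2
  rw [CA, a1, a2.eq_of_nhds, a3]
  exact ⟨h.1, fun j => by rw [a4, P354I.pd, a2.fderiv_eq]; exact h.2 j⟩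

theorem push3 (s : ℝ) (m : ℕ) (hs : 0 ≤ s) : ∃ C : ℝ, 0 ≤ C ∧ ∀ (σ : Bool) (d : Dat)
    (h' K' : X3 → M3) (c : ℝ), PDy d → PD (pb σ d.h + h') (pb σ d.K + K') →
    (∀ y : X3, y ∉ cube → h' y = 0 ∧ K' y = 0) →
    (∀ α : List (Fin 3), α.length ≤ m → ∀ y i j,
      |pdl α (fun z => h' z i j) y| ≤ c ∧ |pdl α (fun z => K' z i j) y| ≤ c) →
    ∃ d', PDy d' ∧ (∀ k, P354I.pm s k d' d < ⊤) ∧ P354I.pm s m d' d ≤ ENNReal.ofReal (C * c) ∧
      (∀ y, den σ y = 0 → CA d y → CA d' y) ∧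
      ∀ z, CC (pb σ d.h + h') (pb σ d.K + K') z → CA d' (Phi σ z) := by
  obtain ⟨C, h0, hC⟩ := pf_bd s m hs
  refine ⟨18 * C, by positivity, fun σ d h' K' c hd hP h1 h2 => ?_⟩
  have hd0 := (sl2 d σ hd).1
  have sh : MS h' := fun i j => by simpa using (hP.sh i j).sub (hd0.sh i j)
  have sK : MS K' := fun i j => by simpa using (hP.sK i j).sub (hd0.sK i j)
  have z1 : ∀ z : X3, z - ((0 : ℝ), 0, 0) ∉ cube → h' z = 0 := fun z hz =>
    (h1 z (by rwa [show z - ((0 : ℝ), 0, 0) = z from sub_zero z] at hz)).1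
  have z2 : ∀ z : X3, z - ((0 : ℝ), 0, 0) ∉ cube → K' z = 0 := fun z hz =>
    (h1 z (by rwa [show z - ((0 : ℝ), 0, 0) = z from sub_zero z] at hz)).2
  let d' : Dat := ⟨d.h + pf σ h', d.K + pf σ K'⟩
  have e1 : pb σ d'.h = pb σ d.h + h' := by rw [pb_add, pb_pf]
  have e2 : pb σ d'.K = pb σ d.K + K' := by rw [pb_add, pb_pf]
  have sm : DSm d' := fun i j => ⟨(hd.1 i j).1.add (pf_sm sh z1 i j).contDiffOn,
    (hd.1 i j).2.add (pf_sm sK z2 i j).contDiffOn⟩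
  have lo : ∀ y, den σ y = 0 → d'.h =ᶠ[𝓝 y] d.h ∧ d'.K =ᶠ[𝓝 y] d.K := fun y hy =>
    ⟨(pf_zero z1 fun h => kk_sub σ 0 h hy).mono fun z hz => by simp [d', hz],
      (pf_zero z2 fun h => kk_sub σ 0 h hy).mono fun z hz => by simp [d', hz]⟩
  have po : ∀ y ≠ 0, (d'.h y).PosDef ∧ (d'.K y).IsSymm := fun y hy => by
    by_cases h : den σ y = 0
    · rw [(lo y h).1.eq_of_nhds, (lo y h).2.eq_of_nhds]
      exact hd.2 y hy
    rw [← pf_pb h d'.h, ← pf_pb h d'.K, e1, e2]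
    refine ⟨(hP.pos _).1.mul_mul_conjTranspose_same (vecMul_injective_iff_isUnit.2
      (IsUnit.of_mul_eq_one _ (nm_jm h))), ?_⟩
    rw [pf, IsSymm, transpose_mul, transpose_mul, transpose_transpose, (hP.pos _).2,
      Matrix.mul_assoc]
  have key : ∀ {m : ℕ} {η : ℝ}, 0 ≤ η → (∀ i j, wn s m (fun y => pf σ h' y i j) ≤ ENNReal.ofReal η ∧
      wn s m (fun y => pf σ K' y i j) ≤ ENNReal.ofReal η) →
      P354I.pm s m d' d ≤ ENNReal.ofReal (18 * η) := fun hη h =>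
    P354T.pm_le_of hη fun i j => by simpa [d'] using h i j
  have hc0 : 0 ≤ c := (abs_nonneg _).trans (h2 [] (Nat.zero_le _) 0 0 0).1
  refine ⟨d', ⟨sm, po⟩, fun k => ?_, ?_, fun y hy h => h.loc (lo y hy).1 (lo y hy).2,
    fun z hz => ((sl2 d' σ ⟨sm, po⟩).2 _).1 (e1 ▸ e2 ▸ hz)⟩
  · obtain ⟨D, hD0, hD⟩ := pf_bd s k hs
    obtain ⟨c1, b1⟩ := all_bd sh z1 k
    obtain ⟨c2, b2⟩ := all_bd sK z2 k
    exact (key (η := D * max 0 (max c1 c2) * (1 + |0|) ^ s) (by positivity) fun i j =>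
      ⟨hD σ h' 0 _ sh z1 (fun α hα y i j => (b1 α hα y i j).trans (by simp)) i j,
        hD σ K' 0 _ sK z2 (fun α hα y i j => (b2 α hα y i j).trans (by simp)) i j⟩).trans_lt
      ENNReal.ofReal_lt_top
  · rw [mul_assoc]
    exact key (by positivity) fun i j => by
      simpa using And.intro (hC σ h' 0 c sh z1 (fun α hα y i j => (h2 α hα y i j).1) i j)
        (hC σ K' 0 c sK z2 (fun α hα y i j => (h2 α hα y i j).2) i j)

theorem diag {Q : ℕ → ℕ → Prop} (H : ∀ m, ∀ᶠ n in atTop, Q m n) :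
    ∃ μ : ℕ → ℕ, Tendsto μ atTop atTop ∧ ∀ᶠ n in atTop, Q (μ n) n := by
  classical
  refine ⟨fun n => Nat.findGreatest (Q · n) n, tendsto_atTop.2 fun m => ?_, ?_⟩
  · filter_upwards [H m, eventually_ge_atTop m] with n h1 h2 using Nat.le_findGreatest h2 h1
  · filter_upwards [H 0] with n h using Nat.findGreatest_spec (P := (Q · n)) n.zero_le h

theorem unif_seq {F : ℕ → ℝ → Prop} (hm : ∀ n a b, a ≤ b → F n a → F n b) (h1 : ∀ n, ∃ C, F n C)
    (h2 : ∃ C, ∀ᶠ n in atTop, F n C) : ∃ C, ∀ n, F n C := by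
  choose c hc using h1
  obtain ⟨C, h2⟩ := h2
  obtain ⟨N, hN⟩ := eventually_atTop.1 h2
  obtain ⟨D, hD⟩ := ((finite_lt_nat N).image c).bddAbove
  exact ⟨max C D, fun n => (lt_or_ge n N).elim
    (fun h => hm n _ _ (le_max_of_le_right (hD ⟨n, h, rfl⟩)) (hc n))
    fun h => hm n _ _ (le_max_left _ _) (hN n h)⟩

/-- Convergence in the charts. -/
def LC (d : ℕ → Dat) (k : Dat) : Prop :=
  ∀ σ m, ∀ η > 0, ∀ᶠ n in atTop, ∀ a b, ∀ y ∈ cube,
    Bd m (fun z => pb σ (d n).h z a b - pb σ k.h z a b) y η ∧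
      Bd m (fun z => pb σ (d n).K z a b - pb σ k.K z a b) y η

theorem near_bd (m : ℕ) {η : ℝ} (hη : 0 < η) : ∃ ε > 0, ∀ s d k, 0 ≤ s → PDy d → PDy k →
    P354I.pm s m d k ≤ ENNReal.ofReal ε → ∀ σ a b, ∀ y ∈ cube,
      Bd m (fun z => pb σ d.h z a b - pb σ k.h z a b) y η ∧
        Bd m (fun z => pb σ d.K z a b - pb σ k.K z a b) y η := by
  obtain ⟨C, h0, hP⟩ := P354JP.pbe m 4
  refine ⟨η / (C + 1), by positivity, fun s d k hs D D' e σ a b z hz => ?_⟩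
  have hz' := (norm_snd_le z).trans (mem_closedBall_zero_iff.1 (P354KK.cube_ball hz))
  have h1 := hP s _ (fun y => d.h y - k.h y) (by positivity) (fun i j =>
    ⟨(D.1 i j).1.sub (D'.1 i j).1, (P354T.pm_parts e i j).1⟩) σ z hz' a b
  have h2 := hP s _ (fun y => d.K y - k.K y) (by positivity) (fun i j =>
    ⟨(D.1 i j).2.sub (D'.1 i j).2, (P354T.pm_parts e i j).2⟩) σ z hz' a b
  simp only [P354J.pb_sub] at h1 h2
  have w : C * (η / (C + 1)) * P354J.wt s z ≤ η :=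
    (mul_le_of_le_one_right (by positivity) (Real.rpow_le_one_of_one_le_of_nonpos
      (P354T.one_le_rho _) (by linarith))).trans (by
        rw [← mul_div_assoc, div_le_iff₀ (by positivity)]; nlinarith)
  exact ⟨h1.mono le_rfl w, h2.mono le_rfl w⟩

theorem bd_tri {f g k : X3 → ℝ} (hf : ContDiff ℝ ∞ f) (hg : ContDiff ℝ ∞ g) (hk : ContDiff ℝ ∞ k)
    {m : ℕ} {a b : ℝ} {y : X3} (h : Bd m (fun w => f w - g w) y a)
    (h' : Bd m (fun w => g w - k w) y b) : Bd m (fun w => f w - k w) y (a + b) := fun α hα => by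
  have k1 := h α hα
  have k2 := h' α hα
  rw [P354J.pdl_sub hf hg] at k1
  rw [P354J.pdl_sub hg hk] at k2
  rw [P354J.pdl_sub hf hk]
  exact (norm_sub_le_norm_sub_add_norm_sub _ _ _).trans (add_le_add k1 k2)

theorem bd_of {f g : X3 → ℝ} (hf : ContDiff ℝ ∞ f) (hg : ContDiff ℝ ∞ g) {m : ℕ} {a b : ℝ}
    {y : X3} (h : Bd m (fun w => f w - g w) y a) (h' : Bd m g y b) : Bd m f y (a + b) := by
  simpa using bd_tri hf hg (contDiff_const (c := 0)) h (by simpa using h')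

/-- One step: the constraints are repaired in the chart σ. -/
theorem stepD (hG : GLK) {k : Dat} (hk : PDy k) (ck : Con k) (wk : Wi k) {s : ℝ} (hs : 0 ≤ s)
    (σ : Bool) {d : ℕ → Dat} (hd : ∀ n, PDy (d n)) (hl : LC d k) :
    ∃ d' : ℕ → Dat, (∀ n, PDy (d' n) ∧ ∀ m, P354I.pm s m (d' n) (d n) < ⊤) ∧ LC d' k ∧
      (∀ m, ∀ η > 0, ∀ᶠ n in atTop, P354I.pm s m (d' n) (d n) ≤ ENNReal.ofReal η) ∧
      ∀ᶠ n in atTop, ∀ y ≠ 0, CA (d n) y ∨ y ∈ Phi σ '' closedBall 0 2 → CA (d' n) y := by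
  classical
  obtain ⟨φ, Λ, hφ⟩ := P354KK.ex_prof
  obtain ⟨K1, T, χ, k1, k2, -, W⟩ := wk σ true
  have hB := isCompact_closedBall (0 : X3) 4
  have cb := P354KK.cube_ball
  have D := fun n => (sl2 (d n) σ (hd n)).1
  have Ds := (sl2 k σ hk).1
  have bd : ∀ {h K : X3 → M3}, PD h K → ∀ m, ∃ C, ∀ a b, ∀ y ∈ cube,
      Bd m (fun z => h z a b) y C ∧ Bd m (fun z => K z a b) y C := fun p m => by
    choose C1 _ b1 using fun t : Fin 3 × Fin 3 => P354JP.bd_compact m hB (p.sh t.1 t.2)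
    choose C2 _ b2 using fun t : Fin 3 × Fin 3 => P354JP.bd_compact m hB (p.sK t.1 t.2)
    obtain ⟨D1, d1⟩ := (finite_range C1).bddAbove
    obtain ⟨D2, d2⟩ := (finite_range C2).bddAbove
    exact ⟨max D1 D2, fun a b y hy =>
      ⟨(b1 (a, b) y (cb hy)).mono le_rfl (le_max_of_le_left (d1 ⟨_, rfl⟩)),
        (b2 (a, b) y (cb hy)).mono le_rfl (le_max_of_le_right (d2 ⟨_, rfl⟩))⟩⟩
  obtain ⟨c, hc⟩ := unif_seq (F := fun n C => 0 < C ∧ ∀ y ∈ cube, Lo C⁻¹ (pb σ (d n).h y))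
    (fun n a b hab h => ⟨h.1.trans_le hab, fun y hy => (h.2 y hy).mono (inv_anti₀ h.1 hab)⟩)
    (fun n => by
      obtain ⟨c, c0, h⟩ := P354J.unif_pos hB (D n).sh fun z => ((D n).pos z).1
      exact ⟨c⁻¹, inv_pos.2 c0, fun y hy => by rw [inv_inv]; exact h y (cb hy)⟩) (by
      obtain ⟨c, c0, h⟩ := P354J.unif_pos hB Ds.sh fun z => (Ds.pos z).1
      refine ⟨(c / 2)⁻¹, (hl σ 0 (c / 6) (by positivity)).mono fun n hn =>
        ⟨by positivity, fun y hy => ?_⟩⟩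
      have := (Lo.add (H := pb σ (d n).h y - pb σ k.h y) (h y (cb hy))
        fun a b => (hn a b y hy).1.zero).mono (c' := c / 2) (by linarith)
      simpa using this)
  have H := hG ℕ atTop (fun n => pb σ (d n).h) (fun n => pb σ (d n).K) _ _ T χ φ _ K1 D
    (fun α => (unif_seq (F := fun n C => ∀ a b, ∀ y ∈ cube,
        Bd α.length (fun z => pb σ (d n).h z a b) y C ∧ Bd α.length (fun z => pb σ (d n).K z a b) y C)
      (fun n a b hab h i j y hy => ⟨(h i j y hy).1.mono le_rfl hab, (h i j y hy).2.mono le_rfl hab⟩)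
      (fun n => bd (D n) _) ((bd Ds α.length).elim fun C h => ⟨1 + C, (hl σ α.length 1 one_pos).mono
        fun n hn a b y hy => ⟨bd_of ((D n).sh a b) (Ds.sh a b) (hn a b y hy).1 (h a b y hy).1,
          bd_of ((D n).sK a b) (Ds.sK a b) (hn a b y hy).2 (h a b y hy).2⟩⟩)).imp
      fun C h n a b y hy => ⟨(h n a b y hy).1 α le_rfl, (h n a b y hy).2 α le_rfl⟩)
    ⟨c⁻¹, inv_pos.2 (hc 0).1, fun n => (hc n).2⟩ Ds
    (fun y => ((sl2 k σ hk).2 y).2 (ck _ (ne_of_den (den_ne σ y)))) (isCompact_closedBall 0 3) k1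
    P354KK.ball_cube k2 W (fun α η hη => (hl σ α.length η hη).mono fun n h a b y hy =>
      ⟨(h a b y hy).1 α le_rfl, (h a b y hy).2 α le_rfl⟩) hφ.sm hφ.zero
  obtain ⟨μ, hμ, hQ⟩ := diag (Q := fun m n => ∃ d', (PDy d' ∧ ∀ m, P354I.pm s m d' (d n) < ⊤) ∧
      P354I.pm s m d' (d n) ≤ ENNReal.ofReal (1 / (m + 1)) ∧
      ∀ y ≠ 0, CA (d n) y ∨ y ∈ Phi σ '' closedBall 0 2 → CA d' y) fun m => by
    obtain ⟨C, C0, hC⟩ := push3 s m hs
    filter_upwards [H m (1 / (m + 1) / (C + 1)) (by positivity)] with n ⟨h', K', a1, a2, a3, a4⟩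
    obtain ⟨d', b1, b2, b3, b4, b5⟩ := hC σ _ h' K' _ (hd n) a1 a3 a4
    refine ⟨d', ⟨b1, b2⟩, b3.trans (ENNReal.ofReal_le_ofReal ?_), fun y hy h => ?_⟩
    · rw [← mul_div_assoc, div_le_iff₀ (by positivity)]
      nlinarith [show (0 : ℝ) < 1 / (m + 1) by positivity]
    · rcases h with h | ⟨z, hz, rfl⟩
      · by_cases h0 : den σ y = 0
        · exact b4 y h0 h
        · rw [← phi_psi σ hy h0] at h ⊢
          exact b5 _ (a2 _ (.inl (((sl2 _ σ (hd n)).2 _).2 h)))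
      · exact b5 _ (a2 _ (.inr (hφ.one z hz)))
  have : Nonempty Dat := ⟨k⟩
  choose! f hf using fun n (h : ∃ d', (PDy d' ∧ ∀ m, P354I.pm s m d' (d n) < ⊤) ∧
      P354I.pm s (μ n) d' (d n) ≤ ENNReal.ofReal (1 / (μ n + 1)) ∧
      ∀ y ≠ 0, CA (d n) y ∨ y ∈ Phi σ '' closedBall 0 2 → CA d' y) => h
  obtain ⟨N, hN⟩ := eventually_atTop.1 hQ
  have p1 : ∀ n, PDy (if N ≤ n then f n else d n) ∧
      ∀ m, P354I.pm s m (if N ≤ n then f n else d n) (d n) < ⊤ := fun n => by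
    split_ifs with h
    exacts [(hf n (hN n h)).1, ⟨hd n, fun m => by simp [P354T.pm_self]⟩]
  have p2 : ∀ m, ∀ η > 0, ∀ᶠ n in atTop,
      P354I.pm s m (if N ≤ n then f n else d n) (d n) ≤ ENNReal.ofReal η := fun m η hη => by
    filter_upwards [eventually_ge_atTop N, hμ.eventually_ge_atTop m,
      (tendsto_one_div_add_atTop_nhds_zero_nat.comp hμ).eventually_le_const hη] with n h1 h2 h3
    rw [if_pos h1]
    exact (P354T.pm_mono s h2 _ _).trans ((hf n (hN n h1)).2.1.trans (ENNReal.ofReal_le_ofReal h3))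
  refine ⟨fun n => if N ≤ n then f n else d n, p1, fun τ m η hη => ?_, p2, ?_⟩
  · obtain ⟨ε, e0, he⟩ := near_bd m (half_pos hη)
    filter_upwards [p2 m ε e0, hl τ m _ (half_pos hη)] with n h1 h2 a b y hy
    have h3 := he s _ _ hs (p1 n).1 (hd n) h1 τ a b y hy
    have q1 := (sl2 _ τ (p1 n).1).1
    have q2 := (sl2 _ τ (hd n)).1
    have q3 := (sl2 _ τ hk).1
    exact ⟨add_halves η ▸ bd_tri (q1.sh a b) (q2.sh a b) (q3.sh a b) h3.1 (h2 a b y hy).1,
      add_halves η ▸ bd_tri (q1.sK a b) (q2.sK a b) (q3.sK a b) h3.2 (h2 a b y hy).2⟩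
  · filter_upwards [eventually_ge_atTop N] with n h
    rw [if_pos h]
    exact (hf n (hN n h)).2.2

theorem cover {y : X} (hy : y ≠ 0) (h : |Real.log ‖y‖| ≤ 2) :
    ∃ σ, y ∈ Phi σ '' closedBall 0 2 := by
  obtain ⟨σ, hσ⟩ : ∃ σ, 0 ≤ P354E.sg σ * y 2 := (le_total 0 (y 2)).elim
    (fun h => ⟨true, by simpa [P354E.sg]⟩) fun h => ⟨false, by simpa [P354E.sg]⟩
  have h0 := norm_pos_iff.2 hy
  have h1 : ∀ i, |y i / (‖y‖ + P354E.sg σ * y 2)| ≤ 2 := fun i => by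
    rw [abs_div, abs_of_pos (a := ‖y‖ + _) (by linarith), div_le_iff₀ (by linarith)]
    linarith [show |y i| ≤ ‖y‖ from PiLp.norm_apply_le y i]
  exact ⟨σ, _, mem_closedBall_zero_iff.2 (max_le h (max_le (h1 0) (h1 1))),
    phi_psi σ hy (by linarith)⟩

theorem ca_mix {k k' : Dat} (ck : Con k) (ck' : Con k') {y : X} (hy : y ≠ 0)
    (h : 2 < |Real.log ‖y‖|) : CA (mix k k') y := by
  have c : ContinuousAt (fun y : X => Real.log ‖y‖) y :=
    continuous_norm.continuousAt.log (norm_ne_zero_iff.2 hy)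
  rcases lt_abs.1 h with h | h
  · have := c.eventually (lt_mem_nhds h)
    exact CA.loc (ck y hy) (this.mono fun z hz => by
      simp [mix, Real.smoothTransition.one_of_one_le (by linarith : 1 ≤ Real.log ‖z‖)])
      (this.mono fun z hz => by
        simp [mix, Real.smoothTransition.one_of_one_le (by linarith : 1 ≤ Real.log ‖z‖)])
  · have := c.eventually (gt_mem_nhds (show Real.log ‖y‖ < 0 by linarith))
    exact CA.loc (ck' y hy)
      (this.mono fun z hz => by simp [mix, Real.smoothTransition.zero_of_nonpos hz.le])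
      (this.mono fun z hz => by simp [mix, Real.smoothTransition.zero_of_nonpos hz.le])

theorem bd_mix (m : ℕ) : ∃ C, 0 ≤ C ∧ ∀ (f g k : X3 → ℝ) (η : ℝ), ContDiff ℝ ∞ f →
    ContDiff ℝ ∞ g → ContDiff ℝ ∞ k → ∀ y ∈ cube, Bd m (fun w => f w - k w) y η →
    Bd m (fun w => g w - k w) y η → Bd m (fun w => Real.smoothTransition w.1 * f w +
      (1 - Real.smoothTransition w.1) * g w - k w) y (C * η) := by
  have s1 : ContDiff ℝ ∞ fun w : X3 => Real.smoothTransition w.1 :=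
    Real.smoothTransition.contDiff.comp contDiff_fst
  have s2 : ContDiff ℝ ∞ fun w : X3 => -(1 - Real.smoothTransition w.1) :=
    (contDiff_const.sub s1).neg
  obtain ⟨C1, c1, h1⟩ := P354JP.bd_compact m (isCompact_closedBall (0 : X3) 4) s1
  obtain ⟨C2, c2, h2⟩ := P354JP.bd_compact m (isCompact_closedBall (0 : X3) 4) s2
  refine ⟨2 ^ m * C1 + 2 ^ m * C2, by positivity, fun f g k η hf hg hk y hy a1 a2 α hα => ?_⟩
  have b1 := P354KC.bd_mul m s1 (hf.sub hk) (h1 y (P354KK.cube_ball hy)) a1 α hα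
  have b2 := P354KC.bd_mul m s2 (hg.sub hk) (h2 y (P354KK.cube_ball hy)) a2 α hα
  rw [show (fun w : X3 => Real.smoothTransition w.1 * f w + (1 - Real.smoothTransition w.1) * g w -
      k w) = fun w => Real.smoothTransition w.1 * (f w - k w) -
      -(1 - Real.smoothTransition w.1) * (g w - k w) from funext fun w => by ring,
    P354J.pdl_sub (s1.mul (hf.sub hk)) (s2.mul (hg.sub hk)), add_mul]
  exact (norm_sub_le _ _).trans (add_le_add b1 b2)

theorem nemp (hM : MIX) (hG : GLK) : NEMP := by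
  intro p0 k ε0 δ1 C K kd s t m hK hs ht hW η hη
  by_contra hc
  push Not at hc
  have e0 := hK.pos.2.1
  choose p hp q hq he using fun n : ℕ => hc (min ε0 (1 / (n + 1))) (by positivity)
  have b0 := mem_ball_self (x := p0) e0
  have bp := fun n => ball_subset_ball (min_le_left _ _) (hp n)
  have bq := fun n => ball_subset_ball (min_le_left _ _) (hq n)
  have S := fun r hr => hK.sta r hr t ht
  obtain ⟨c, -, B, hB⟩ := hK.geo t 0
  obtain ⟨B', hB'⟩ := hM.2.1 0 B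
  have hd : ∀ n, PDy (mix (kd (p n) t) (kd (q n) t)) := fun n =>
    (hB' c _ _ (hB _ (bp n) t ⟨ht, le_rfl⟩) (hB _ (bq n) t ⟨ht, le_rfl⟩)).1
  have hk := (S _ b0).1.1
  have hl : LC (fun n => mix (kd (p n) t) (kd (q n) t)) (kd p0 t) := fun σ m η hη => by
    obtain ⟨D, D0, hD⟩ := bd_mix m
    obtain ⟨ε, e1, h1⟩ := near_bd m (show 0 < η / (D + 1) by positivity)
    obtain ⟨δ, e2, h2⟩ := hK.kcont t m ε e1
    filter_upwards [tendsto_one_div_add_atTop_nhds_zero_nat.eventually_le_const e2]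
      with n hn a b y hy
    have h3 := fun r (hr : r ∈ ball p0 (min ε0 (1 / (n + 1)))) => h1 0 _ _ le_rfl
      (S r (ball_subset_ball (min_le_left _ _) hr)).1.1 hk
      (h2 r (ball_subset_ball ((min_le_right _ _).trans hn) hr) t ⟨ht, le_rfl⟩) σ a b y hy
    have q1 := (sl2 _ σ (S _ (bp n)).1.1).1
    have q2 := (sl2 _ σ (S _ (bq n)).1.1).1
    have q3 := (sl2 _ σ hk).1
    have w : D * (η / (D + 1)) ≤ η := by
      rw [← mul_div_assoc, div_le_iff₀ (by positivity)]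
      nlinarith
    simp only [fun z => (hM.2.2.2 (kd (p n) t) (kd (q n) t) σ z).1,
      fun z => (hM.2.2.2 (kd (p n) t) (kd (q n) t) σ z).2, Matrix.add_apply, Matrix.smul_apply,
      smul_eq_mul]
    exact ⟨(hD _ _ _ _ (q1.sh a b) (q2.sh a b) (q3.sh a b) y hy (h3 _ (hp n)).1
      (h3 _ (hq n)).1).mono le_rfl w, (hD _ _ _ _ (q1.sK a b) (q2.sK a b) (q3.sK a b) y hy
        (h3 _ (hp n)).2 (h3 _ (hq n)).2).mono le_rfl w⟩
  obtain ⟨d1, a1, a2, a3, a4⟩ := stepD hG hk (S _ b0).2 hW hs true hd hl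
  obtain ⟨d2, b1, -, b3, b4⟩ := stepD hG hk (S _ b0).2 hW hs false (fun n => (a1 n).1) a2
  obtain ⟨n, c1, c2, c3, c4⟩ := ((a3 m (η / 4) (by positivity)).and
    ((b3 m (η / 4) (by positivity)).and (a4.and b4))).exists
  have tri := fun m => P354T.pm_tri s m (b1 n).1.1 (a1 n).1.1 (hd n).1
  have co : ∀ y ≠ 0, CA (d2 n) y := fun y hy => by
    rcases le_or_gt |Real.log ‖y‖| 2 with h | h
    · obtain ⟨_ | _, h⟩ := cover hy h
      exacts [c4 y hy (.inr h), c4 y hy (.inl (c3 y hy (.inr h)))]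
    · exact c4 y hy (.inl (c3 y hy (.inl (ca_mix (S _ (bp n)).2 (S _ (bq n)).2 hy h))))
  refine not_nonempty_iff_eq_empty.2 (he n) ⟨⟨d2 n, (b1 n).1.1, (b1 n).1.2, fun m => (tri m).trans_lt
    (ENNReal.add_lt_top.2 ⟨(b1 n).2 m, (a1 n).2 m⟩), fun y hy => (co y hy).1,
    fun y hy => (co y hy).2⟩, ((tri m).trans (add_le_add c2 c1)).trans_lt ?_⟩
  rw [← ENNReal.ofReal_add (by positivity) (by positivity), ENNReal.ofReal_lt_ofReal_iff hη]
  linarith

theorem nemp_main : NEMP := nemp P354M2.mixThm (glk P354KM.glz)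

end Vale.Agent.P354K
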