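import Vale.Agent.P354K.Pair

open scoped ContDiff
open MeasureTheory Set Filter Topology

namespace Vale.Agent.P354K

open Vale.Agent.P354H (X3 e pd pdl Sb pd_sm pdl_sm dif)

variable {P : Type} {K : Set X3} {ψ : X3 → ℝ} {lam ε : P → ℝ} {l : Filter P}
  {jb : P → Jt → X3 → ℝ} {c : Jt → Jt → P → X3 → ℝ} {lc : Eq4 → Jt → P → X3 → ℝ}

/-- The nonlinear part of the constraints. -/
noncomputable def QQ (jb : P → Jt → X3 → ℝ) (c : Jt → Jt → P → X3 → ℝ)
    (R : Eq4 → P → X3 → (Jt → ℝ) → ℝ) (k : Eq4) (r : P) (z : X3) (v : Jt → ℝ) : ℝ :=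
  Q2 jb c k r z v v + R k r z v

/-- Scaling of a jet field. -/
def scl (a : ℝ) (v : Jt → X3 → ℝ) (x : Jt) (z : X3) : ℝ := a * v x z

theorem adm_scl {v : Jt → X3 → ℝ} (h : Adm v) (a : ℝ) : Adm (scl a v) :=
  ⟨fun x => contDiff_const.mul (h.sm x), fun b c => by unfold scl; rw [h.hs b c],
    fun b c => by unfold scl; rw [h.ps b c],
    fun i b c => by unfold scl; rw [D_cmul i a (h.sm _), h.dh],
    fun i k b c => by unfold scl; rw [D_cmul i a (h.sm _), h.ddh],
    fun i b c => by unfold scl; rw [D_cmul i a (h.sm _), h.dp]⟩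

theorem sz_norm (hl : ∀ r, 1 ≤ lam r) {ι : Type} [Fintype ι] {X : ι → P → Jt → X3 → ℝ}
    (h : ∀ s, Sz K lam 0 (X s)) : ∃ C, 0 ≤ C ∧ ∀ s r z, ‖at' (X s r) z‖ ≤ C * lam r := by
  choose C hC h' using fun (p : ι × Jt) => (((h p.1).2 p.2).mono hl
    (show _ ≤ (1 : ℤ) by cases p.2 <;> simp [wt])).2.2
  refine ⟨∑ p, C p, Finset.sum_nonneg fun p _ => hC p, fun s r z => ?_⟩
  have h0 := zero_le_one.trans (hl r)
  refine (pi_norm_le_iff_of_nonneg (mul_nonneg (Finset.sum_nonneg fun p _ => hC p) h0)).2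
    fun x => ?_
  have := h' (s, x) r z
  rw [zpow_one] at this
  exact this.trans (mul_le_mul_of_nonneg_right
    (Finset.single_le_sum (fun p _ => hC p) (Finset.mem_univ (s, x))) h0)

theorem bil_exp {V ι : Type} [AddCommGroup V] [Module ℝ V] [Fintype ι] (B : V →ₗ[ℝ] V →ₗ[ℝ] ℝ)
    (a : ℝ) (x0 : V) (x : ι → V) (t : ι → ℝ) :
    B (a • (x0 + ∑ s, t s • x s)) (a • (x0 + ∑ s, t s • x s)) = a ^ 2 * (B x0 x0 +
      ∑ s, t s * (B x0 (x s) + B (x s) x0) + ∑ s, ∑ s', t s * t s' * B (x s) (x s')) := by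
  have h1 : B (∑ s, t s • x s) (∑ s, t s • x s) = ∑ s, ∑ s', t s * t s' * B (x s) (x s') := by
    rw [LinearMap.map_sum₂]
    refine Finset.sum_congr rfl fun s _ => ?_
    simp only [map_sum, map_smul, LinearMap.smul_apply, smul_eq_mul]
    exact Finset.sum_congr rfl fun _ _ => by ring
  have h2 : B x0 (∑ s, t s • x s) + B (∑ s, t s • x s) x0 =
      ∑ s, t s * (B x0 (x s) + B (x s) x0) := by
    rw [LinearMap.map_sum₂]
    simp only [map_sum, map_smul, LinearMap.smul_apply, smul_eq_mul, mul_add,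
      Finset.sum_add_distrib]
  rw [← h1, ← h2]
  generalize ∑ s, t s • x s = y
  simp only [map_smul, map_add, LinearMap.add_apply, LinearMap.smul_apply, smul_eq_mul]
  ring

theorem assemble (hK : IsCompact K) (hψ : Wt ψ) (hl : ∀ r, 1 ≤ lam r) (hc : Cf jb c)
    {R : Eq4 → P → X3 → (Jt → ℝ) → ℝ} (hR : ∀ k, Pol 3 (R k)) {E : Fin 4 → X3 → ℝ}
    (hε : ∀ r, 0 < ε r) (ht : Tendsto (fun r => ε r * lam r ^ 3) l (𝓝 0))
    {X0 : P → Jt → X3 → ℝ} {X : Eq4 × Fin 4 → P → Jt → X3 → ℝ} (h0 : Sz K lam 0 X0)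
    (hX : ∀ s, Sz K lam 0 (X s))
    (hA0 : ∀ k, Sml l K ψ fun r z => Lin lc r (X0 r) k z / ε r +
      Q2 jb c k r z (at' (X0 r) z) (at' (X0 r) z))
    (hA : ∀ k s, Sml l K ψ fun r z => Lin lc r (X s r) k z / ε r +
      (Q2 jb c k r z (at' (X0 r) z) (at' (X s r) z) +
        Q2 jb c k r z (at' (X s r) z) (at' (X0 r) z)) - if s.1 = k then E s.2 z else 0) :
    ∃ C, ∀ η > 0, ∀ᶠ r in l,
      Dual ψ (Gd lc (QQ jb c R) E r (ε r ^ 2) (scl (ε r) (X0 r)) 0) (ε r ^ 2 * η) ∧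
      ∀ t t', ‖t‖ ≤ 1 → ‖t'‖ ≤ 1 → Dual ψ (fun k z =>
        Gd lc (QQ jb c R) E r (ε r ^ 2) (pk (scl (ε r) (X0 r)) (fun s => scl (ε r) (X s r)) t) t k z -
        Gd lc (QQ jb c R) E r (ε r ^ 2) (pk (scl (ε r) (X0 r)) (fun s => scl (ε r) (X s r)) t') t' k z)
        (ε r ^ 2 * (η + C * (‖t‖ + ‖t'‖)) * ‖t - t'‖) := by
  classical
  choose CB hCB hB using fun (p : Eq4 × (Eq4 × Fin 4) × (Eq4 × Fin 4)) =>
    db_Q2 hK hψ hl hc (hX p.2.1) (hX p.2.2) p.1
  choose CR hCR hR' using fun k => pol_est (hR k)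
  obtain ⟨C0, hC0, n0⟩ := sz_norm hl (X := fun _ : Unit => X0) fun _ => h0
  obtain ⟨C1, hC1, n1⟩ := sz_norm hl hX
  obtain ⟨Cd, hCd, hd⟩ := ds_sup hK hψ
  set CB' := ∑ p, CB p with hCB'
  set CR' := ∑ k, CR k with hCR'
  have b1 : ∀ p, CB p ≤ CB' := fun p => Finset.single_le_sum (fun p _ => hCB p) (Finset.mem_univ p)
  have b2 : ∀ k, CR k ≤ CR' := fun k => Finset.single_le_sum (fun p _ => hCR p) (Finset.mem_univ k)
  have b3 : 0 ≤ CR' := Finset.sum_nonneg fun p _ => hCR p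
  set C2 := C0 + 16 * C1 with hC2
  have b4 : 0 ≤ C2 := by positivity
  refine ⟨4 * (256 * CB'), fun η hη => ?_⟩
  have e1 : ∀ᶠ r in l, C2 * (ε r * lam r ^ 3) ≤ 1 := by
    have := ht.const_mul C2
    rw [mul_zero] at this
    exact this.eventually (ge_mem_nhds one_pos)
  have e2 : ∀ᶠ r in l, Cd * CR' * C2 ^ 3 * (ε r * lam r ^ 3) ≤ η / 8 := by
    have := ht.const_mul (Cd * CR' * C2 ^ 3)
    rw [mul_zero] at this
    exact this.eventually (ge_mem_nhds (by positivity))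
  filter_upwards [e1, e2, eventually_all.2 fun k => hA0 k (η / 8) (by positivity),
    eventually_all.2 fun k => eventually_all.2 fun s => hA k s (η / 128) (by positivity)]
    with r r1 r2 r3 r4
  have p1 := hε r
  have p2 := hl r
  let Y : (Eq4 × Fin 4 → ℝ) → X3 → Jt → ℝ := fun t z =>
    at' (X0 r) z + ∑ s, t s • at' (X s r) z
  have hY : ∀ t z, at' (pk (scl (ε r) (X0 r)) (fun s => scl (ε r) (X s r)) t) z = ε r • Y t z := by
    intro t z
    funext x
    simp only [at', pk, scl, Y, Pi.smul_apply, Pi.add_apply, Finset.sum_apply, smul_eq_mul,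
      mul_add, Finset.mul_sum, mul_left_comm]
  have hYc : ∀ t x, Continuous (pk (scl (ε r) (X0 r)) (fun s => scl (ε r) (X s r)) t x) :=
    fun t x => (continuous_const.mul ((h0.1 r).sm x).continuous).add (continuous_finsetSum _
      fun s _ => continuous_const.mul (continuous_const.mul (((hX s).1 r).sm x).continuous))
  have hS : ∀ (t : Eq4 × Fin 4 → ℝ) z, ‖∑ s, t s • at' (X s r) z‖ ≤ 16 * C1 * lam r * ‖t‖ := by
    intro t z
    refine (norm_sum_le _ _).trans ((Finset.sum_le_sum (g := fun _ => ‖t‖ * (C1 * lam r))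
      fun s _ => ?_).trans (le_of_eq (by simp; ring)))
    rw [norm_smul]
    exact mul_le_mul (norm_le_pi_norm t s) (n1 s r z) (norm_nonneg _) (norm_nonneg _)
  set ρ := C2 * (ε r * lam r) with hρ
  have ρ0 : 0 ≤ ρ := by positivity
  have ρ1 : ρ ≤ 1 := le_trans (by
    rw [hρ]
    gcongr
    exact le_self_pow₀ p2 (by norm_num)) r1
  have hY1 : ∀ t z, ‖t‖ ≤ 1 → ‖ε r • Y t z‖ ≤ ρ := fun t z ht => by
    rw [norm_smul, Real.norm_of_nonneg p1.le, hρ, mul_left_comm]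
    refine mul_le_mul_of_nonneg_left ((norm_add_le _ _).trans ?_) p1.le
    have := hS t z
    have := n0 () r z
    have : 16 * C1 * lam r * ‖t‖ ≤ 16 * C1 * lam r := mul_le_of_le_one_right (by positivity) ht
    rw [hC2]
    linarith
  have hY2 : ∀ t t' z, ‖ε r • Y t z - ε r • Y t' z‖ ≤ ρ * ‖t - t'‖ := fun t t' z => by
    have : Y t z - Y t' z = ∑ s, (t - t') s • at' (X s r) z := by
      simp only [Y, Pi.sub_apply, sub_smul, Finset.sum_sub_distrib]
      abel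
    rw [← smul_sub, norm_smul, Real.norm_of_nonneg p1.le, this, hρ, mul_left_comm, mul_assoc]
    refine mul_le_mul_of_nonneg_left ((hS _ z).trans ?_) p1.le
    rw [hC2]
    gcongr
    linarith
  have hY0 : ∀ t z, z ∉ K → Y t z = 0 := fun t z hz => by
    funext x
    simp [Y, at', (h0.2 x).2.1 r z hz, fun s => ((hX s).2 x).2.1 r z hz]
  have hcub : ∀ k t t' (δ : ℝ), ‖t‖ ≤ 1 → ‖t'‖ ≤ 1 → (∀ z, ‖ε r • Y t z - ε r • Y t' z‖ ≤ ρ * δ) →
      0 ≤ δ → ∀ z, |R k r z (ε r • Y t z) - R k r z (ε r • Y t' z)| ≤ CR' * ρ ^ 3 * δ := by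
    intro k t t' δ ht ht' h hδ z
    refine (hR' k r z _ _ ρ ρ0 ρ1 (hY1 t z ht) (hY1 t' z ht')).2.trans ?_
    calc CR k * ρ ^ (3 - 1) * _ ≤ CR' * ρ ^ (3 - 1) * (ρ * δ) := by
          gcongr
          exacts [b2 k, h z]
      _ = _ := by ring
  have hρ3 : Cd * (CR' * ρ ^ 3) ≤ ε r ^ 2 * (η / 8) := by
    calc Cd * (CR' * ρ ^ 3) = ε r ^ 2 * (Cd * CR' * C2 ^ 3 * (ε r * lam r ^ 3)) := by
          rw [hρ]
          ring
      _ ≤ _ := by gcongr
  have key : ∀ t k z, Gd lc (QQ jb c R) E r (ε r ^ 2)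
      (pk (scl (ε r) (X0 r)) (fun s => scl (ε r) (X s r)) t) t k z =
      ε r ^ 2 * ((Lin lc r (X0 r) k z / ε r + Q2 jb c k r z (at' (X0 r) z) (at' (X0 r) z)) +
        ∑ s, t s * (Lin lc r (X s r) k z / ε r + (Q2 jb c k r z (at' (X0 r) z) (at' (X s r) z) +
          Q2 jb c k r z (at' (X s r) z) (at' (X0 r) z)) - if s.1 = k then E s.2 z else 0) +
        ∑ s, ∑ s', t s * t s' * Q2 jb c k r z (at' (X s r) z) (at' (X s' r) z)) +
      R k r z (ε r • Y t z) := by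
    intro t k z
    have a1 : Lin lc r (pk (scl (ε r) (X0 r)) (fun s => scl (ε r) (X s r)) t) k z =
        ε r * (Lin lc r (X0 r) k z + ∑ s, t s * Lin lc r (X s r) k z) := by
      simp only [Lin, pk, scl, mul_add, Finset.mul_sum, Finset.sum_add_distrib]
      congr 1
      · exact Finset.sum_congr rfl fun _ _ => by ring
      · rw [Finset.sum_comm]
        exact Finset.sum_congr rfl fun _ _ => Finset.sum_congr rfl fun _ _ => by ring
    have a2 : ∑ σ, t (k, σ) * E σ z = ∑ s, t s * if s.1 = k then E s.2 z else 0 := by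
      rw [Fintype.sum_prod_type, Finset.sum_eq_single k] <;> simp +contextual
    have a3 : ∑ s, t s * (Lin lc r (X s r) k z / ε r) =
        (∑ s, t s * Lin lc r (X s r) k z) / ε r := by
      simp only [Finset.sum_div, mul_div_assoc]
    simp only [Gd, QQ, hY, a1, a2, ← QL_apply]
    rw [show QL jb c k r z (ε r • Y t z) (ε r • Y t z) = _ from bil_exp _ _ _ _ _]
    simp only [mul_sub, mul_add (t _), Finset.sum_add_distrib, Finset.sum_sub_distrib, a3]
    field_simp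
    ring
  refine ⟨?_, fun t t' ht ht' => ?_⟩
  · have hz : scl (ε r) (X0 r) = pk (scl (ε r) (X0 r)) (fun s => scl (ε r) (X s r)) 0 := by
      funext x z
      simp [pk]
    rw [hz, show ε r ^ 2 * η = 4 * (|ε r ^ 2| * (η / 8) + ε r ^ 2 * (η / 8)) by
      rw [abs_of_nonneg (sq_nonneg _)]; ring]
    refine dual_of (K := K) fun k => ?_
    have q0 : ∀ z, |R k r z (ε r • Y 0 z)| ≤ CR' * ρ ^ 3 := fun z =>
      (hR' k r z _ _ ρ ρ0 ρ1 (hY1 0 z (by simp)) (hY1 0 z (by simp))).1.trans (by gcongr; exact b2 k)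
    have q1 := ((hd (fun z => R k r z (ε r • Y 0 z)) _ (fun z hz => by
      simpa [hY0 0 z hz] using (hR' k r z 0 0 0 le_rfl zero_le_one (by simp) (by simp)).1) q0).1
      (by simpa only [hY] using pol_cont (hR k) r (hYc 0))).mono hρ3
    exact (((r3 k).cmul (ε r ^ 2)).add hK q1).congr fun z => by simp [key]
  · have hn := norm_nonneg (t - t')
    rw [show ε r ^ 2 * (η + 4 * (256 * CB') * (‖t‖ + ‖t'‖)) * ‖t - t'‖ =
      4 * (|ε r ^ 2| * (16 * (‖t - t'‖ * (η / 128)) +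
        16 * (16 * ((‖t‖ + ‖t'‖) * ‖t - t'‖ * CB'))) + ε r ^ 2 * (η / 8) * ‖t - t'‖) by
      rw [abs_of_nonneg (sq_nonneg _)]; ring]
    refine dual_of (K := K) fun k => ?_
    have q1 := ((hd (fun z => R k r z (ε r • Y t z) - R k r z (ε r • Y t' z)) _
      (fun z hz => by simp [hY0 _ z hz]) (hcub k t t' _ ht ht' (hY2 t t') hn)).1
      (Continuous.sub (by simpa only [hY] using pol_cont (hR k) r (hYc t))
        (by simpa only [hY] using pol_cont (hR k) r (hYc t')))).mono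
      (show _ ≤ ε r ^ 2 * (η / 8) * ‖t - t'‖ by rw [← mul_assoc]; gcongr)
    have q2 := (DS.sum hK Finset.univ fun s => ((r4 k s).cmul (t s - t' s)).mono
      (mul_le_mul_of_nonneg_right (norm_le_pi_norm (t - t') s) (by positivity))).mono
      (show _ ≤ 16 * (‖t - t'‖ * (η / 128)) by simp)
    have q3 := (DS.sum hK Finset.univ fun s => DS.sum hK Finset.univ fun s' =>
      ((hB (k, s, s') r).cmul (t s * t s' - t' s * t' s')).mono
        (show _ ≤ (‖t‖ + ‖t'‖) * ‖t - t'‖ * CB' from by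
          simp only [add_zero, neg_zero, zpow_zero, mul_one]
          refine mul_le_mul ?_ (b1 _) (hCB _) (by positivity)
          rw [show t s * t s' - t' s * t' s' = t s * (t - t') s' + t' s' * (t - t') s by
            simp only [Pi.sub_apply]; ring, add_mul]
          refine (abs_add_le _ _).trans (add_le_add ?_ ?_) <;> rw [abs_mul]
          · exact mul_le_mul (norm_le_pi_norm t _) (norm_le_pi_norm (t - t') _) (abs_nonneg _)
              (norm_nonneg _)
          · exact mul_le_mul (norm_le_pi_norm t' _) (norm_le_pi_norm (t - t') _) (abs_nonneg _)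
              (norm_nonneg _))).mono
      (show _ ≤ 16 * (16 * ((‖t‖ + ‖t'‖) * ‖t - t'‖ * CB')) by simp)
    refine (((q2.add hK q3).cmul (ε r ^ 2)).add hK q1).congr fun z => ?_
    simp only [key, sub_mul, Finset.sum_sub_distrib]
    ring

end Vale.Agent.P354K
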