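import Vale.Agent.P354K.Defs

open scoped ContDiff
open MeasureTheory Set Filter Topology

namespace Vale.Agent.P354K

open Vale.Agent.P354H (X3 e pd pdl Sb pd_sm pdl_sm dif)

abbrev Sm (f : X3 → ℝ) : Prop := ContDiff ℝ ∞ f

/-! ### Partial derivatives of real functions -/

theorem pd_add' (j : Fin 3) {f g : X3 → ℝ} (hf : Sm f) (hg : Sm g) :
    pd j (fun z => f z + g z) = fun z => pd j f z + pd j g z := P354H.pd_add j hf hg

theorem pd_mul (j : Fin 3) {f g : X3 → ℝ} (hf : Sm f) (hg : Sm g) :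
    pd j (fun z => f z * g z) = fun z => pd j f z * g z + f z * pd j g z := by
  funext z
  unfold pd
  rw [fderiv_fun_mul (dif hf z) (dif hg z)]
  simp only [_root_.add_apply, _root_.smul_apply, smul_eq_mul]
  ring

theorem pd_const (j : Fin 3) (c : ℝ) : pd j (fun _ => c) = fun _ => 0 := by
  funext z
  simp [pd]

theorem pd_neg' (j : Fin 3) (f : X3 → ℝ) : pd j (fun z => -f z) = fun z => -pd j f z :=
  P354H.pd_neg j f

theorem pd_sub' (j : Fin 3) {f g : X3 → ℝ} (hf : Sm f) (hg : Sm g) :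
    pd j (fun z => f z - g z) = fun z => pd j f z - pd j g z := by
  simp only [sub_eq_add_neg]
  rw [pd_add' j hf hg.neg, pd_neg']

theorem pd_cmul (j : Fin 3) (c : ℝ) {f : X3 → ℝ} (hf : Sm f) :
    pd j (fun z => c * f z) = fun z => c * pd j f z := by
  rw [pd_mul j contDiff_const hf, pd_const]
  simp

theorem pd_sum {ι : Type} (j : Fin 3) (s : Finset ι) {f : ι → X3 → ℝ} (hf : ∀ i, Sm (f i)) :
    pd j (fun z => ∑ i ∈ s, f i z) = fun z => ∑ i ∈ s, pd j (f i) z := by
  classical
  induction s using Finset.induction_on with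
  | empty => simpa using pd_const j 0
  | insert a s ha ih =>
    simp only [Finset.sum_insert ha]
    rw [pd_add' j (hf a) (ContDiff.sum fun i _ => hf i), ih]

theorem pd_comp (j : Fin 3) {F F' : ℝ → ℝ} (hF : ∀ x, HasDerivAt F (F' x) x) {f : X3 → ℝ}
    (hf : Sm f) : pd j (fun z => F (f z)) = fun z => F' (f z) * pd j f z := by
  funext z
  unfold pd
  have := ((hF (f z)).comp_hasFDerivAt z (dif hf z).hasFDerivAt).fderiv
  rw [show (fun z => F (f z)) = F ∘ f from rfl, this]
  simp

theorem pd_inv (j : Fin 3) {f : X3 → ℝ} (hf : Sm f) (h0 : ∀ z, f z ≠ 0) :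
    pd j (fun z => (f z)⁻¹) = fun z => -pd j f z * ((f z)⁻¹ * (f z)⁻¹) := by
  funext z
  unfold pd
  have := ((hasDerivAt_inv (h0 z)).comp_hasFDerivAt z (dif hf z).hasFDerivAt).fderiv
  rw [show (fun z => (f z)⁻¹) = (fun y : ℝ => y⁻¹) ∘ f from rfl, this]
  simp only [_root_.smul_apply, smul_eq_mul]
  field_simp

theorem pd_comm (i j : Fin 3) {f : X3 → ℝ} (hf : Sm f) : pd i (pd j f) = pd j (pd i f) := by
  funext z
  have h2 : ContDiffAt ℝ 2 f z := (hf.of_le (WithTop.coe_le_coe.2 (le_top : (2 : ℕ∞) ≤ ⊤))).contDiffAt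
  have hs := h2.isSymmSndFDerivAt (by simp)
  have hd : DifferentiableAt ℝ (fderiv ℝ f) z :=
    (hf.fderiv_right (m := ∞) (by simp)).differentiable (by simp) z
  have k : ∀ a b : Fin 3, pd a (pd b f) z = fderiv ℝ (fderiv ℝ f) z (e a) (e b) := by
    intro a b
    unfold pd
    rw [fderiv_clm_apply hd (differentiableAt_const _)]
    simp
  rw [k, k, hs]

/-- Derivatives vanish outside a closed set where the function vanishes. -/
theorem pd_supp (j : Fin 3) {K : Set X3} (hK : IsClosed K) {f : X3 → ℝ}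
    (h : ∀ z, z ∉ K → f z = 0) (z : X3) (hz : z ∉ K) : pd j f z = 0 := by
  have : f =ᶠ[𝓝 z] fun _ => 0 := by
    filter_upwards [hK.isOpen_compl.mem_nhds hz] with y hy using h y hy
  unfold pd
  rw [this.fderiv_eq]
  simp

theorem pdl_supp (α : List (Fin 3)) {K : Set X3} (hK : IsClosed K) {f : X3 → ℝ}
    (h : ∀ z, z ∉ K → f z = 0) (z : X3) (hz : z ∉ K) : pdl α f z = 0 := by
  induction α generalizing f with
  | nil => exact h z hz
  | cons j α ih => exact ih (pd_supp j hK h)

theorem pdl_add' (α : List (Fin 3)) {f g : X3 → ℝ} (hf : Sm f) (hg : Sm g) :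
    pdl α (fun z => f z + g z) = fun z => pdl α f z + pdl α g z := P354H.pdl_add α hf hg

theorem pdl_sub' (α : List (Fin 3)) {f g : X3 → ℝ} (hf : Sm f) (hg : Sm g) :
    pdl α (fun z => f z - g z) = fun z => pdl α f z - pdl α g z := P354H.pdl_sub α hf hg

theorem pdl_cmul (α : List (Fin 3)) (c : ℝ) {f : X3 → ℝ} (hf : Sm f) :
    pdl α (fun z => c * f z) = fun z => c * pdl α f z := P354H.pdl_smul α c hf

theorem pdl_zero' (α : List (Fin 3)) : pdl α (fun _ => (0 : ℝ)) = fun _ => 0 := P354H.pdl_zero α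

theorem pdl_sum {ι : Type} (α : List (Fin 3)) (s : Finset ι) {f : ι → X3 → ℝ}
    (hf : ∀ i, Sm (f i)) :
    pdl α (fun z => ∑ i ∈ s, f i z) = fun z => ∑ i ∈ s, pdl α (f i) z := by
  induction α generalizing f with
  | nil => rfl
  | cons j α ih =>
    simp only [pdl]
    rw [pd_sum j s hf, ih fun i => pd_sm j (hf i)]

/-! ### Coordinates -/

theorem co_sm (i : Fin 3) : Sm (co i) := by
  fin_cases i
  · exact contDiff_fst
  · exact contDiff_fst.comp contDiff_snd
  · exact contDiff_snd.comp contDiff_snd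

theorem co_add (i : Fin 3) (z w : X3) : co i (z + w) = co i z + co i w := by
  fin_cases i <;> rfl

theorem co_smul (i : Fin 3) (c : ℝ) (z : X3) : co i (c • z) = c * co i z := by
  fin_cases i <;> rfl

theorem co_e (i j : Fin 3) : co i (e j) = if i = j then 1 else 0 := by
  fin_cases i <;> fin_cases j <;> simp [co, e]

theorem abs_co_le (i : Fin 3) (z : X3) : |co i z| ≤ ‖z‖ := by
  fin_cases i
  · exact norm_fst_le z
  · exact (norm_fst_le z.2).trans (norm_snd_le z)
  · exact (norm_snd_le z.2).trans (norm_snd_le z)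

theorem pd_co (j i : Fin 3) : pd j (co i) = fun _ => if i = j then 1 else 0 := by
  funext z
  have h := P354H.hasDerivAt_line j (dif (co_sm i)) z 0
  have h2 : HasDerivAt (fun r : ℝ => co i (z + r • e j)) (co i (e j)) 0 := by
    simp only [co_add, co_smul]
    simpa using ((hasDerivAt_id (0 : ℝ)).mul_const (co i (e j))).const_add (co i z)
  have := h.unique h2
  rw [zero_smul, add_zero] at this
  rw [this, co_e]

theorem gz_sm (i : Fin 3) : Sm (gz i) := (contDiff_const.add ((co_sm i).pow 2)).div_const 2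

theorem gz_ge (i : Fin 3) (z : X3) : 1 / 2 ≤ gz i z := by
  unfold gz
  nlinarith [sq_nonneg (co i z)]

theorem gz_pos (i : Fin 3) (z : X3) : 0 < gz i z := lt_of_lt_of_le (by norm_num) (gz_ge i z)

theorem gz_le (i : Fin 3) (z : X3) : gz i z ≤ 1 + ‖z‖ ^ 2 := by
  unfold gz
  have := sq_le_sq' (by linarith [abs_co_le i z, neg_abs_le (co i z)])
    ((le_abs_self _).trans (abs_co_le i z))
  nlinarith [sq_nonneg (co i z)]

theorem pd_gz (j i : Fin 3) : pd j (gz i) = fun z => if i = j then co i z else 0 := by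
  have : gz i = fun z => (fun x : ℝ => (1 + x ^ 2) / 2) (co i z) := rfl
  rw [this, pd_comp j (F := fun x : ℝ => (1 + x ^ 2) / 2) (F' := fun x => x) (fun x => by
    simpa using (((hasDerivAt_id x).pow 2).const_add 1).div_const 2) (co_sm i), pd_co]
  funext z
  split_ifs <;> simp

theorem yc_sm (i : Fin 3) : Sm (yc i) :=
  contDiff_const.mul (Real.contDiff_arctan.comp (co_sm i))

theorem pd_yc (j i : Fin 3) : pd j (yc i) = fun z => if i = j then (gz i z)⁻¹ else 0 := by
  have : yc i = fun z => (fun x : ℝ => 2 * Real.arctan x) (co i z) := rfl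
  rw [this, pd_comp j (F := fun x : ℝ => 2 * Real.arctan x) (F' := fun x => 2 * (1 / (1 + x ^ 2)))
    (fun x => (Real.hasDerivAt_arctan x).const_mul 2) (co_sm i), pd_co]
  funext z
  split_ifs
  · unfold gz
    field_simp
  · simp

/-! ### The derivatives D -/

theorem D_sm (j : Fin 3) {f : X3 → ℝ} (hf : Sm f) : Sm (D j f) := (gz_sm j).mul (pd_sm j hf)

theorem Dh_sm (j : Fin 3) {f : X3 → ℝ} (hf : Sm f) : Sm (Dh j f) := pd_sm j ((gz_sm j).mul hf)

theorem Dl_sm (α : List (Fin 3)) {f : X3 → ℝ} (hf : Sm f) : Sm (Dl α f) := by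
  induction α generalizing f with
  | nil => exact hf
  | cons j α ih => exact ih (D_sm j hf)

theorem Dhl_sm (α : List (Fin 3)) {f : X3 → ℝ} (hf : Sm f) : Sm (Dhl α f) := by
  induction α generalizing f with
  | nil => exact hf
  | cons j α ih => exact ih (Dh_sm j hf)

theorem D_add (j : Fin 3) {f g : X3 → ℝ} (hf : Sm f) (hg : Sm g) :
    D j (fun z => f z + g z) = fun z => D j f z + D j g z := by
  funext z
  simp only [D, pd_add' j hf hg]
  ring

theorem D_sub (j : Fin 3) {f g : X3 → ℝ} (hf : Sm f) (hg : Sm g) :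
    D j (fun z => f z - g z) = fun z => D j f z - D j g z := by
  funext z
  simp only [D, pd_sub' j hf hg]
  ring

theorem D_neg (j : Fin 3) (f : X3 → ℝ) : D j (fun z => -f z) = fun z => -D j f z := by
  funext z
  simp only [D, pd_neg']
  ring

theorem D_mul (j : Fin 3) {f g : X3 → ℝ} (hf : Sm f) (hg : Sm g) :
    D j (fun z => f z * g z) = fun z => D j f z * g z + f z * D j g z := by
  funext z
  simp only [D, pd_mul j hf hg]
  ring

theorem D_const (j : Fin 3) (c : ℝ) : D j (fun _ => c) = fun _ => 0 := by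
  funext z
  simp [D, pd_const]

theorem D_cmul (j : Fin 3) (c : ℝ) {f : X3 → ℝ} (hf : Sm f) :
    D j (fun z => c * f z) = fun z => c * D j f z := by
  funext z
  simp only [D, pd_cmul j c hf]
  ring

theorem D_sum {ι : Type} (j : Fin 3) (s : Finset ι) {f : ι → X3 → ℝ} (hf : ∀ i, Sm (f i)) :
    D j (fun z => ∑ i ∈ s, f i z) = fun z => ∑ i ∈ s, D j (f i) z := by
  funext z
  simp only [D, pd_sum j s hf, Finset.mul_sum]

theorem D_comp (j : Fin 3) {F F' : ℝ → ℝ} (hF : ∀ x, HasDerivAt F (F' x) x) {f : X3 → ℝ}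
    (hf : Sm f) : D j (fun z => F (f z)) = fun z => F' (f z) * D j f z := by
  funext z
  simp only [D, pd_comp j hF hf]
  ring

theorem D_yc (j i : Fin 3) : D j (yc i) = fun _ => if i = j then 1 else 0 := by
  funext z
  simp only [D, pd_yc]
  split_ifs with h
  · subst h
    exact mul_inv_cancel₀ (gz_pos i z).ne'
  · simp

theorem pd_eq_D (j : Fin 3) (f : X3 → ℝ) : pd j f = fun z => (gz j z)⁻¹ * D j f z := by
  funext z
  rw [D, ← mul_assoc, inv_mul_cancel₀ (gz_pos j z).ne', one_mul]

theorem D_comm (i j : Fin 3) {f : X3 → ℝ} (hf : Sm f) : D i (D j f) = D j (D i f) := by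
  by_cases h : i = j
  · rw [h]
  funext z
  have k : ∀ a b : Fin 3, a ≠ b → D a (D b f) z = gz a z * gz b z * pd a (pd b f) z := by
    intro a b hab
    have : D b f = fun z => gz b z * pd b f z := rfl
    rw [D, this, pd_mul a (gz_sm b) (pd_sm b hf), pd_gz]
    simp only [if_neg hab.symm]
    ring
  rw [k i j h, k j i (Ne.symm h), pd_comm i j hf]
  ring

theorem Dh_eq (j : Fin 3) {f : X3 → ℝ} (hf : Sm f) :
    Dh j f = fun z => D j f z + co j z * f z := by
  funext z
  simp only [Dh, D, pd_mul j (gz_sm j) hf, pd_gz, if_true]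
  ring

theorem D_supp (j : Fin 3) {K : Set X3} (hK : IsClosed K) {f : X3 → ℝ}
    (h : ∀ z, z ∉ K → f z = 0) (z : X3) (hz : z ∉ K) : D j f z = 0 := by
  rw [D, pd_supp j hK h z hz, mul_zero]

theorem Dl_supp (α : List (Fin 3)) {K : Set X3} (hK : IsClosed K) {f : X3 → ℝ}
    (h : ∀ z, z ∉ K → f z = 0) (z : X3) (hz : z ∉ K) : Dl α f z = 0 := by
  induction α generalizing f with
  | nil => exact h z hz
  | cons j α ih => exact ih (D_supp j hK h)

theorem Dl_add (α : List (Fin 3)) {f g : X3 → ℝ} (hf : Sm f) (hg : Sm g) :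
    Dl α (fun z => f z + g z) = fun z => Dl α f z + Dl α g z := by
  induction α generalizing f g with
  | nil => rfl
  | cons j α ih =>
    simp only [Dl]
    rw [D_add j hf hg, ih (D_sm j hf) (D_sm j hg)]

theorem Dl_cmul (α : List (Fin 3)) (c : ℝ) {f : X3 → ℝ} (hf : Sm f) :
    Dl α (fun z => c * f z) = fun z => c * Dl α f z := by
  induction α generalizing f with
  | nil => rfl
  | cons j α ih =>
    simp only [Dl]
    rw [D_cmul j c hf, ih (D_sm j hf)]

theorem Dl_sub (α : List (Fin 3)) {f g : X3 → ℝ} (hf : Sm f) (hg : Sm g) :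
    Dl α (fun z => f z - g z) = fun z => Dl α f z - Dl α g z := by
  induction α generalizing f g with
  | nil => rfl
  | cons j α ih =>
    simp only [Dl]
    rw [D_sub j hf hg, ih (D_sm j hf) (D_sm j hg)]

theorem Dl_zero (α : List (Fin 3)) : Dl α (fun _ => (0 : ℝ)) = fun _ => 0 := by
  induction α with
  | nil => rfl
  | cons j α ih =>
    simp only [Dl]
    rw [D_const, ih]

theorem Dl_sum {ι : Type} (α : List (Fin 3)) (s : Finset ι) {f : ι → X3 → ℝ}
    (hf : ∀ i, Sm (f i)) :
    Dl α (fun z => ∑ i ∈ s, f i z) = fun z => ∑ i ∈ s, Dl α (f i) z := by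
  induction α generalizing f with
  | nil => rfl
  | cons j α ih =>
    simp only [Dl]
    rw [D_sum j s hf, ih fun i => D_sm j (hf i)]

theorem Dl_append (α β : List (Fin 3)) (f : X3 → ℝ) : Dl (α ++ β) f = Dl β (Dl α f) := by
  induction α generalizing f with
  | nil => rfl
  | cons j α ih => exact ih _

end Vale.Agent.P354K
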