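import Vale.Agent.P354KS.Est

open scoped ContDiff
open MeasureTheory Set Filter Topology

namespace Vale.Agent.P354K

open Vale.Agent.P354H (X3 e pd pdl Sb pd_sm pdl_sm dif)

variable {W W1 W2 ψ : X3 → ℝ}

theorem Sw.mul (hle : ∀ z, |W z| ≤ |W1 z| * |W2 z|) {k : ℕ} {u v : X3 → ℝ} {s n : ℝ}
    (h1 : Sw W1 k u s) (h2 : Sw W2 k v n) : Sw W k (fun z => u z * v z) (2 ^ k * (s * n)) := by
  have h0 : ∀ {k : ℕ} {u v : X3 → ℝ}, Sw W1 k u s → Sw W2 k v n →
      ∀ z, |W z * (u z * v z)| ≤ s * n := fun {_ u v} h1 h2 z => by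
    refine le_trans ?_ (mul_le_mul (h1.2 [] (Nat.zero_le _) z) (h2.2 [] (Nat.zero_le _) z)
      (abs_nonneg _) h1.nonneg)
    show _ ≤ |W1 z * u z| * |W2 z * v z|
    rw [abs_mul, abs_mul, abs_mul, abs_mul, mul_mul_mul_comm]
    exact mul_le_mul_of_nonneg_right (hle z) (by positivity)
  have p := mul_nonneg h1.nonneg h2.nonneg
  induction k generalizing u v with
  | zero =>
    refine ⟨h1.1.mul h2.1, fun α hα z => ?_⟩
    rw [List.eq_nil_of_length_eq_zero (Nat.le_zero.1 hα), pow_zero, one_mul]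
    exact h0 h1 h2 z
  | succ k ih =>
    refine ⟨h1.1.mul h2.1, fun α hα z => ?_⟩
    cases α with
    | nil => exact (h0 h1 h2 z).trans (le_mul_of_one_le_left p (one_le_pow₀ one_le_two))
    | cons j α =>
      have a1 := ih (h1.pd j) (h2.low k.le_succ)
      have a2 := ih (h1.low k.le_succ) (h2.pd j)
      have hα' : α.length ≤ k := by simpa using hα
      show |W z * pdl α (P354H.pd j fun z => u z * v z) z| ≤ _
      rw [pd_mul j h1.1 h2.1, pdl_add' α a1.1 a2.1, mul_add, pow_succ]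
      exact (abs_add_le _ _).trans (by linarith [a1.2 α hα' z, a2.2 α hα' z])

theorem dl_sw (k n : ℕ) : ∃ C, 0 ≤ C ∧ ∀ (g : X3 → ℝ) (s : ℝ),
    Sw (fun z => (1 + ‖z‖ ^ 2) ^ (n + k)) k g s → ∀ α : List (Fin 3), α.length ≤ k →
      ∀ z, |Dl α g z| * (1 + ‖z‖ ^ 2) ^ n ≤ C * s := by
  have h0 : ∀ {k : ℕ} {g : X3 → ℝ} {s : ℝ}, Sw (fun z => (1 + ‖z‖ ^ 2) ^ (n + k)) k g s →
      ∀ z, |g z| * (1 + ‖z‖ ^ 2) ^ n ≤ s := fun {k g s} h z => by
    refine le_trans ?_ (h.2 [] (Nat.zero_le _) z)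
    show _ ≤ |(1 + ‖z‖ ^ 2) ^ (n + k) * g z|
    rw [abs_mul, mul_comm, abs_of_pos (a := (1 + ‖z‖ ^ 2) ^ (n + k)) (by positivity)]
    exact mul_le_mul_of_nonneg_right (pow_le_pow_right₀ (by nlinarith [sq_nonneg ‖z‖])
      (by omega)) (abs_nonneg _)
  induction k with
  | zero =>
    refine ⟨1, zero_le_one, fun g s h α hα z => ?_⟩
    rw [List.eq_nil_of_length_eq_zero (Nat.le_zero.1 hα), one_mul]
    exact h0 h z
  | succ k ih =>
    obtain ⟨C, hC, ih⟩ := ih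
    obtain ⟨t, ht, h1⟩ := P354KS.ex_sw k
    refine ⟨1 + C * (2 ^ k * t), by positivity, fun g s h α hα z => ?_⟩
    have p := h.nonneg
    cases α with
    | nil => exact (h0 h z).trans (le_mul_of_one_le_left p (le_add_of_nonneg_right (by positivity)))
    | cons j α =>
      refine (ih (D j g) _ (Sw.mul (fun z => ?_) (h1 j) (h.pd j)) α (by simpa using hα) z).trans
        (by nlinarith)
      have g0 := gz_pos j z
      rw [abs_of_pos (by positivity), abs_of_pos (by positivity), abs_of_pos (by positivity),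
        ← add_assoc, pow_succ _ (n + k), mul_left_comm]
      exact le_mul_of_one_le_right (by positivity) ((one_le_inv_mul₀ g0).2 (gz_le j z))

/-- Pointwise bounds with decay for the y derivatives. -/
theorem dl_nw (hψ : Wt ψ) (k n : ℕ) : ∃ C, 0 ≤ C ∧ ∀ (g : X3 → ℝ) (c : ℝ),
    Nw (ww ψ) (k + 3) g c → ∀ α : List (Fin 3), α.length ≤ k →
      ∀ z, |Dl α g z| * (1 + ‖z‖ ^ 2) ^ n ≤ C * c := by
  obtain ⟨C, hC, h⟩ := dl_sw k n
  obtain ⟨C1, hC1, h1⟩ := sob_sw hψ.ww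
  obtain ⟨C2, hC2, h2⟩ := poly_le_ww hψ (n + k)
  refine ⟨C * (C2 * C1), by positivity, fun g c hg α hα z => ?_⟩
  rw [mul_assoc]
  refine h g _ ⟨hg.1, fun β hβ y => ?_⟩ α hα z
  have := (h1 k g c hg).2 β hβ y
  rw [abs_mul, abs_of_pos (hψ.ww.pos y)] at this
  rw [abs_mul, abs_of_pos (by positivity)]
  exact (mul_le_mul_of_nonneg_right (h2 y) (abs_nonneg _)).trans
    (by linarith [mul_le_mul_of_nonneg_left this hC2])

theorem dl_fw (hψ : Wt ψ) {g : X3 → ℝ} (hg : Fw (ww ψ) g) (α : List (Fin 3)) (n : ℕ) :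
    ∃ c, ∀ z, |Dl α g z| * (1 + ‖z‖ ^ 2) ^ n ≤ c :=
  let ⟨_, _, h⟩ := dl_nw hψ α.length n
  let ⟨c, hc⟩ := hg (α.length + 3)
  ⟨_, h g c hc α le_rfl⟩

end Vale.Agent.P354K
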