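import Vale.Agent.P354H.Calc

/-!
Block B9 (deformation of the constraints with compact support): definitions and exact statements.
The open cube |y i| < pi is identified with X3 by y i = 2 arctan (z i); D i is the derivative
with respect to y i written in the coordinates z.
-/

open scoped ContDiff
open MeasureTheory Set Filter Topology

namespace Vale.Agent.P354K

open Vale.Agent.P354H (X3 e pd pdl Sb)

/-- Coordinates, the factor dz / dy, and y as a function of z. -/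
def co (i : Fin 3) (z : X3) : ℝ := ![z.1, z.2.1, z.2.2] i
noncomputable def gz (i : Fin 3) (z : X3) : ℝ := (1 + co i z ^ 2) / 2
noncomputable def yc (i : Fin 3) (z : X3) : ℝ := 2 * Real.arctan (co i z)

/-- The derivative d / dy i, minus its adjoint for the measure dz, and words in them. -/
noncomputable def D (i : Fin 3) (u : X3 → ℝ) (z : X3) : ℝ := gz i z * pd i u z
noncomputable def Dh (i : Fin 3) (u : X3 → ℝ) : X3 → ℝ := pd i fun z => gz i z * u z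
noncomputable def Dl : List (Fin 3) → (X3 → ℝ) → X3 → ℝ
  | [], u => u
  | j :: α, u => Dl α (D j u)
noncomputable def Dhl : List (Fin 3) → (X3 → ℝ) → X3 → ℝ
  | [], u => u
  | j :: α, u => Dhl α (Dh j u)

/-- Families of smooth functions with uniform bounds: for the z derivatives, for the y
derivatives, and with support in K. -/
def UB {P : Type} (c : P → X3 → ℝ) : Prop :=
  (∀ r, ContDiff ℝ ∞ (c r)) ∧ ∀ k, ∃ C, ∀ r, Sb k (c r) C
def UD {P : Type} (c : P → X3 → ℝ) : Prop :=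
  (∀ r, ContDiff ℝ ∞ (c r)) ∧ ∀ α, ∃ C, ∀ r z, |Dl α (c r) z| ≤ C
def UC {P : Type} (K : Set X3) (c : P → X3 → ℝ) : Prop := UB c ∧ ∀ r z, z ∉ K → c r z = 0

/-- Weights with bounded logarithmic derivatives. -/
structure LW (W : X3 → ℝ) : Prop where
  pos : ∀ z, 0 < W z
  sm : ContDiff ℝ ∞ W
  der : ∀ i, ∃ t : X3 → ℝ, UB (fun _ : Unit => t) ∧ pd i W = fun z => t z * W z

/-- Rapidly decaying weights. -/
structure Wt (ψ : X3 → ℝ) : Prop where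
  lw : LW ψ
  dec : ∀ n : ℕ, ∃ C, ∀ z, ψ z * (1 + ‖z‖ ^ 2) ^ n ≤ C

/-- The strong and the weak weight. -/
noncomputable def sw (ψ : X3 → ℝ) (z : X3) : ℝ := (ψ z)⁻¹
noncomputable def ww (ψ : X3 → ℝ) (z : X3) : ℝ := (ψ z * ∏ i, gz i z ^ 2)⁻¹

/-- The L2 norm of the continuous function g is at most c. -/
def L2 (g : X3 → ℝ) (c : ℝ) : Prop :=
  Continuous g ∧ Integrable (fun z => g z ^ 2) ∧ 0 ≤ c ∧ ∫ z, g z ^ 2 ≤ c ^ 2

/-- Weighted norms: all orders up to k, and the order k alone. -/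
def Nw (W : X3 → ℝ) (k : ℕ) (g : X3 → ℝ) (c : ℝ) : Prop :=
  ContDiff ℝ ∞ g ∧ ∀ α : List (Fin 3), α.length ≤ k → L2 (fun z => W z * pdl α g z) c
def Tw (W : X3 → ℝ) (k : ℕ) (g : X3 → ℝ) (c : ℝ) : Prop :=
  ∀ α : List (Fin 3), α.length = k → L2 (fun z => W z * pdl α g z) c

/-- All weighted norms are finite. -/
def Fw (W : X3 → ℝ) (g : X3 → ℝ) : Prop := ∀ k, ∃ c, Nw W k g c

/-- The norm of test functions and the dual norm. -/
def St (ψ : X3 → ℝ) (V : X3 → ℝ) (c : ℝ) : Prop :=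
  ContDiff ℝ ∞ V ∧ ∀ β : List (Fin 3), β.length ≤ 2 → L2 (fun z => ψ z * Dhl β V z) c
def Dual {κ : Type} [Fintype κ] (ψ : X3 → ℝ) (f : κ → X3 → ℝ) (M : ℝ) : Prop :=
  ∀ (V : κ → X3 → ℝ) (c : ℝ), (∀ k, St ψ (V k) c) → |∑ k, ∫ z, f k z * V k z| ≤ M * c

/-! ### Calculus -/

/-- Sobolev embedding. -/
def SOBW : Prop :=
  ∀ W, LW W → ∃ C, 0 ≤ C ∧ ∀ k g c, Nw W (k + 3) g c → ∀ α : List (Fin 3), α.length ≤ k →
    ∀ z, W z * |pdl α g z| ≤ C * c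

/-- Sums of series. -/
def LIM : Prop :=
  ∀ W, LW W → ∀ δ : ℕ → X3 → ℝ, (∀ k, ∃ c : ℕ → ℝ, Summable c ∧ ∀ n, Nw W k (δ n) (c n)) →
    ∃ g, ContDiff ℝ ∞ g ∧ (∀ α z, HasSum (fun n => pdl α (δ n) z) (pdl α g z)) ∧
      ∀ α (c : ℕ → ℝ), Summable c → (∀ n, L2 (fun z => W z * pdl α (δ n) z) (c n)) →
        L2 (fun z => W z * pdl α g z) (∑' n, c n)

/-- The weighted Poincare inequality. -/
def POIN : Prop :=
  ∀ (z0 : X3) (ρ δ : ℝ), 0 < ρ → 0 < δ → ∃ (ψ b : X3 → ℝ) (C : ℝ), Wt ψ ∧ ContDiff ℝ ∞ b ∧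
    (∀ z, z ∉ Metric.closedBall z0 ρ → b z = 0) ∧ 0 ≤ C ∧
    ∀ (Y : X3 → ℝ) (c0 c1 : ℝ), ContDiff ℝ ∞ Y → L2 (fun z => ψ z * Y z) c0 →
      (∀ i, L2 (fun z => ψ z * Dh i Y z) c1) →
      L2 (fun z => ψ z * Y z) (δ * c1 + C * |∫ z, b z * Y z|)

/-! ### The abstract linear theorem -/

/-- A second order operator in divergence form. -/
noncomputable def Lop {ι κ : Type} [Fintype ι] (a2 : ι → κ → Fin 3 → Fin 3 → X3 → ℝ)
    (a1 : ι → κ → Fin 3 → X3 → ℝ) (a0 : ι → κ → X3 → ℝ) (v : ι → X3 → ℝ) (k : κ) (z : X3) : ℝ :=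
  ∑ i, (∑ j, ∑ l, D l (D j fun y => a2 i k j l y * v i y) z -
    ∑ j, D j (fun y => a1 i k j y * v i y) z + a0 i k z * v i z)

/-- Solvability up to the profiles E when the adjoint principal part is injective. -/
def SOL0 : Prop :=
  ∀ (P ι κ : Type) [Fintype ι] [Fintype κ] (a2 : ι → κ → Fin 3 → Fin 3 → P → X3 → ℝ)
    (a1 : ι → κ → Fin 3 → P → X3 → ℝ) (a0 : ι → κ → P → X3 → ℝ) (B : ℝ),
    (∀ i k j l, UB (a2 i k j l)) → (∀ i k j, UB (a1 i k j)) → (∀ i k, UB (a0 i k)) →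
    (∀ r z (H : κ → Fin 3 → Fin 3 → ℝ) (s : ℝ), (∀ k j l, H k j l = H k l j) →
      (∀ i, |∑ k, ∑ j, ∑ l, a2 i k j l r z * H k j l| ≤ s) → ∀ k j l, |H k j l| ≤ B * s) →
    ∀ (z0 : X3) (ρ : ℝ), 0 < ρ → ∃ (ψ : X3 → ℝ) (E : Fin 4 → X3 → ℝ) (C0 : ℝ) (C : ℕ → ℝ),
      Wt ψ ∧ (∀ s, ContDiff ℝ ∞ (E s) ∧ ∀ z, z ∉ Metric.closedBall z0 ρ → E s z = 0) ∧
      0 ≤ C0 ∧ (∀ n, 0 ≤ C n) ∧ ∀ r (f : κ → X3 → ℝ), (∀ k, Fw (sw ψ) (f k)) →
        ∃ (v : ι → X3 → ℝ) (θ : κ → Fin 4 → ℝ),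
          (∀ k z, Lop (fun i k j l => a2 i k j l r) (fun i k j => a1 i k j r)
            (fun i k => a0 i k r) v k z = f k z - ∑ s, θ k s * E s z) ∧
          (∀ n b, (∀ k, Nw (sw ψ) n (f k) b) → ∀ i, Nw (sw ψ) (n + 2) (v i) (C n * b)) ∧
          (∀ n a b, (∀ k, Tw (sw ψ) (n + 1) (f k) a) → (∀ k, Nw (sw ψ) n (f k) b) →
            ∀ i, Tw (sw ψ) (n + 3) (v i) (C0 * a + C n * b)) ∧
          ∀ M, 0 ≤ M → Dual ψ f M → ∀ k s, |θ k s| ≤ C0 * M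

/-! ### Jets and the constraints -/

/-- The jet variables: h, its first and second derivatives, the density pi, its derivatives. -/
inductive Jt
  | h (a b : Fin 3)
  | dh (i a b : Fin 3)
  | ddh (i k a b : Fin 3)
  | p (a b : Fin 3)
  | dp (i a b : Fin 3)
  deriving DecidableEq, Fintype

/-- j is the jet of a pair of smooth symmetric matrix fields for the derivatives d. -/
structure Jet (d : Fin 3 → (X3 → ℝ) → X3 → ℝ) (j : Jt → X3 → ℝ) : Prop where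
  sm : ∀ x, ContDiff ℝ ∞ (j x)
  hs : ∀ a b, j (.h a b) = j (.h b a)
  ps : ∀ a b, j (.p a b) = j (.p b a)
  dh : ∀ i a b, j (.dh i a b) = d i (j (.h a b))
  ddh : ∀ i k a b, j (.ddh i k a b) = d i (j (.dh k a b))
  dp : ∀ i a b, j (.dp i a b) = d i (j (.p a b))

abbrev Adm (j : Jt → X3 → ℝ) : Prop := Jet D j

abbrev M3 : Type := Matrix (Fin 3) (Fin 3) ℝ
abbrev Eq4 : Type := Option (Fin 3)

def hm (v : Jt → ℝ) : M3 := Matrix.of fun a b => v (.h a b)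
def pm (v : Jt → ℝ) : M3 := Matrix.of fun a b => v (.p a b)

/-- The value of a jet field at a point. -/
def at' (j : Jt → X3 → ℝ) (z : X3) (x : Jt) : ℝ := j x z

/-- The principal part of det^3 times the scalar curvature. -/
noncomputable def SS (G : M3) (a b k l : Fin 3) : ℝ :=
  G.det * (G.adjugate a k * G.adjugate b l - G.adjugate a b * G.adjugate k l)

/-- The map from upper to lower indices, pi to pi - (trace pi) G / 2, and the De Witt form. -/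
noncomputable def par (G π : M3) (a b : Fin 3) : ℝ :=
  ∑ c, ∑ d, G a c * G b d * π c d - G a b * (∑ c, ∑ d, G c d * π c d) / 2
noncomputable def qf (G π π' : M3) : ℝ := ∑ a, ∑ b, π a b * par G π' a b

/-- The momentum constraint for h from v and pi from w. -/
noncomputable def PM (a : Fin 3) (v w : Jt → ℝ) : ℝ :=
  ∑ b, ∑ c, (v (.dh b a c) * w (.p c b) + v (.h a c) * w (.dp b c b) -
    w (.p b c) * v (.dh a b c) / 2)

/-- The Hamiltonian constraint times det^3; B is the first order part of det^3 times the scalar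
curvature. -/
noncomputable def PH (B : (Jt → ℝ) → ℝ) (v : Jt → ℝ) : ℝ :=
  ∑ a, ∑ b, ∑ k, ∑ l, SS (hm v) a b k l * v (.ddh k l a b) + B v -
    (hm v).det ^ 2 * qf (hm v) (pm v) (pm v)

noncomputable def PC (B : (Jt → ℝ) → ℝ) : Eq4 → (Jt → ℝ) → ℝ
  | none, v => PH B v
  | some a, v => PM a v v

/-- Polynomials in the variables h and dh. -/
inductive Pl : ((Jt → ℝ) → ℝ) → Prop
  | const (c : ℝ) : Pl fun _ => c
  | h (a b : Fin 3) : Pl fun v => v (.h a b)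
  | dh (i a b : Fin 3) : Pl fun v => v (.dh i a b)
  | add {F G} : Pl F → Pl G → Pl fun v => F v + G v
  | mul {F G} : Pl F → Pl G → Pl fun v => F v * G v

/-- Polynomials in the jet variables with coefficients in UD, all monomials of degree ≥ n. -/
inductive Pol {P : Type} : ℕ → (P → X3 → (Jt → ℝ) → ℝ) → Prop
  | coef {c : P → X3 → ℝ} : UD c → Pol 0 fun r z _ => c r z
  | zero (n : ℕ) : Pol n fun _ _ _ => 0
  | var (x : Jt) : Pol 1 fun _ _ v => v x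
  | add {n F G} : Pol n F → Pol n G → Pol n fun r z v => F r z v + G r z v
  | mul {n m F G} : Pol n F → Pol m G → Pol (n + m) fun r z v => F r z v * G r z v
  | mono {n m F} : Pol n F → m ≤ n → Pol m F

/-- A family of base jets with uniform bounds, uniformly positive definite. -/
structure Base {P : Type} (jb : P → Jt → X3 → ℝ) : Prop where
  adm : ∀ r, Adm (jb r)
  ud : ∀ x, UD fun r => jb r x
  pos : ∃ c > 0, ∀ r z (w : Fin 3 → ℝ),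
    c * ∑ a, w a ^ 2 ≤ ∑ a, ∑ b, w a * jb r (.h a b) z * w b

/-- A linear form in the jet variables. -/
noncomputable def Lin {P : Type} (lc : Eq4 → Jt → P → X3 → ℝ) (r : P) (j : Jt → X3 → ℝ)
    (k : Eq4) (z : X3) : ℝ := ∑ x, lc k x r z * j x z

/-- The structure of the linearised constraints. -/
structure Str {P : Type} (jb : P → Jt → X3 → ℝ) (lc : Eq4 → Jt → P → X3 → ℝ) : Prop where
  ud : ∀ k x, UD (lc k x)
  hddh : ∀ k l a b r z, lc none (.ddh k l a b) r z = SS (hm (at' (jb r) z)) a b k l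
  hdp : ∀ i a b r z, lc none (.dp i a b) r z = 0
  hp : ∀ a b r z, lc none (.p a b) r z =
    -2 * (hm (at' (jb r) z)).det ^ 2 * par (hm (at' (jb r) z)) (pm (at' (jb r) z)) a b
  mom : ∀ a r z (v : Jt → ℝ), ∑ x, lc (some a) x r z * v x =
    PM a (at' (jb r) z) v + PM a v (at' (jb r) z)

/-- Weights of the jet variables for oscillating functions. -/
def wt : Jt → ℤ
  | .h _ _ => -1
  | .dh _ _ _ => 0
  | .ddh _ _ _ _ => 1
  | .p _ _ => 0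
  | .dp _ _ _ => 1
def isH : Jt → Prop
  | .p _ _ => False
  | .dp _ _ _ => False
  | _ => True

/-- Expansion of the Hamiltonian constraint at the base jet. -/
def DEC : Prop :=
  ∀ B, Pl B → ∀ (P : Type) (jb : P → Jt → X3 → ℝ), Base jb →
    ∃ (lc : Eq4 → Jt → P → X3 → ℝ) (c : Jt → Jt → P → X3 → ℝ) (R : P → X3 → (Jt → ℝ) → ℝ),
      Str jb lc ∧ (∀ x y, UD (c x y)) ∧ Pol 3 R ∧
      (∀ x y, c x y = 0 ∨ wt x + wt y ≤ -1 ∨ (wt x + wt y ≤ 0 ∧ isH x ∧ isH y)) ∧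
      ∀ r z (v : Jt → ℝ), PH B (at' (jb r) z + v) = PH B (at' (jb r) z) +
        ∑ x, lc none x r z * v x -
        (hm (at' (jb r) z)).det ^ 2 * qf (hm (at' (jb r) z)) (pm v) (pm v) +
        ∑ x, ∑ y, c x y r z * v x * v y + R r z v

/-- The conclusion of the linear theorem for the linearised constraints. -/
def Sol {P : Type} (lc : Eq4 → Jt → P → X3 → ℝ) (ψ : X3 → ℝ) (E : Fin 4 → X3 → ℝ) (C0 : ℝ)
    (C : ℕ → ℝ) : Prop :=
  ∀ r (f : Eq4 → X3 → ℝ), (∀ k, Fw (sw ψ) (f k)) →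
    ∃ (j : Jt → X3 → ℝ) (θ : Eq4 × Fin 4 → ℝ), Adm j ∧
      (∀ k z, Lin lc r j k z = f k z - ∑ s, θ (k, s) * E s z) ∧
      (∀ n b, (∀ k, Nw (sw ψ) n (f k) b) → ∀ x, Nw (ww ψ) n (j x) (C n * b)) ∧
      (∀ n a b, (∀ k, Tw (sw ψ) (n + 1) (f k) a) → (∀ k, Nw (sw ψ) n (f k) b) →
        ∀ x, Tw (ww ψ) (n + 1) (j x) (C0 * a + C n * b)) ∧
      ∀ M, 0 ≤ M → Dual ψ f M → ∀ s, |θ s| ≤ C0 * M

def SOL : Prop :=
  ∀ (P : Type) (jb : P → Jt → X3 → ℝ) (lc : Eq4 → Jt → P → X3 → ℝ), Base jb → Str jb lc →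
    ∀ (z0 : X3) (ρ : ℝ), 0 < ρ → ∃ (ψ : X3 → ℝ) (E : Fin 4 → X3 → ℝ) (C0 : ℝ) (C : ℕ → ℝ),
      Wt ψ ∧ (∀ s, ContDiff ℝ ∞ (E s) ∧ ∀ z, z ∉ Metric.closedBall z0 ρ → E s z = 0) ∧
      0 ≤ C0 ∧ (∀ n, 0 ≤ C n) ∧ Sol lc ψ E C0 C

/-! ### Wave packets -/

/-- Oscillating families of size lam^(-n) with phase lam * y a and support in K. -/
def Osc {P : Type} (K : Set X3) (lam : P → ℝ) (a : Fin 3) (n : ℤ) (F : P → X3 → ℝ) : Prop :=
  ∃ A B, UC K A ∧ UC K B ∧ ∀ r z, F r z =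
    lam r ^ (-n) * (A r z * Real.cos (lam r * yc a z) + B r z * Real.sin (lam r * yc a z))

/-- Approximate solutions of the linearised constraints with prescribed leading amplitudes. -/
def WKB : Prop :=
  ∀ (P : Type) (jb : P → Jt → X3 → ℝ) (lc : Eq4 → Jt → P → X3 → ℝ), Base jb → Str jb lc →
    ∀ (K : Set X3) (lam : P → ℝ) (a : Fin 3) (q π : P → X3 → M3) (J : ℕ), IsCompact K →
      (∀ r, 1 ≤ lam r) → (∀ b c, UC K fun r z => q r z b c) → (∀ b c, UC K fun r z => π r z b c) →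
      (∀ r z b c, q r z b c = q r z c b) → (∀ r z b c, π r z b c = π r z c b) →
      (∀ r z, q r z a a = 0) → (∀ r z b, π r z b a = 0) →
      ∃ j : P → Jt → X3 → ℝ, (∀ r, Adm (j r)) ∧
        (∀ b c, Osc K lam a 2 fun r z => j r (.h b c) z -
          (lam r)⁻¹ * par (hm (at' (jb r) z)) (q r z) b c * Real.sin (lam r * yc a z)) ∧
        (∀ b c, Osc K lam a 1 fun r z => j r (.p b c) z -
          π r z b c * Real.cos (lam r * yc a z)) ∧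
        ∀ k, Osc K lam a J fun r => Lin lc r (j r) k

/-! ### The nonlinear iteration -/

/-- The packet with knob values t. -/
noncomputable def pk (j0 : Jt → X3 → ℝ) (jt : Eq4 × Fin 4 → Jt → X3 → ℝ) (t : Eq4 × Fin 4 → ℝ)
    (x : Jt) (z : X3) : ℝ := j0 x z + ∑ s, t s * jt s x z

/-- The defect of the packet. -/
noncomputable def Gd {P : Type} (lc : Eq4 → Jt → P → X3 → ℝ)
    (Q : Eq4 → P → X3 → (Jt → ℝ) → ℝ) (E : Fin 4 → X3 → ℝ) (r : P) (ν : ℝ) (j : Jt → X3 → ℝ)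
    (t : Eq4 × Fin 4 → ℝ) (k : Eq4) (z : X3) : ℝ :=
  Lin lc r j k z + Q k r z (at' j z) - ν * ∑ s, t (k, s) * E s z

/-- The properties of the packets that the iteration uses. -/
structure Pack {P : Type} (l : Filter P) (lc : Eq4 → Jt → P → X3 → ℝ)
    (Q : Eq4 → P → X3 → (Jt → ℝ) → ℝ) (ψ : X3 → ℝ) (E : Fin 4 → X3 → ℝ) (K : Set X3)
    (ε lam : P → ℝ) (j0 : P → Jt → X3 → ℝ) (jt : P → Eq4 × Fin 4 → Jt → X3 → ℝ) : Prop where
  adm0 : ∀ r, Adm (j0 r)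
  admt : ∀ r s, Adm (jt r s)
  supp : ∀ r x z, z ∉ K → j0 r x z = 0 ∧ ∀ s, jt r s x z = 0
  size : ∀ n, ∃ C, ∀ r x, Sb n (j0 r x) (C * ε r * lam r ^ (n + 1)) ∧
    ∀ s, Sb n (jt r s x) (C * ε r * lam r ^ (n + 1))
  lin : ∀ n, ∃ C, ∀ r k, Sb n (Lin lc r (j0 r) k) (C * ε r ^ 2 * lam r ^ n) ∧
    ∀ s, Sb n (Lin lc r (jt r s) k) (C * ε r ^ 2 * lam r ^ n)
  dual : ∃ C, ∀ η > 0, ∀ᶠ r in l,
    Dual ψ (Gd lc Q E r (ε r ^ 2) (j0 r) 0) (ε r ^ 2 * η) ∧ ∀ t t', ‖t‖ ≤ 1 → ‖t'‖ ≤ 1 →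
      Dual ψ (fun k z => Gd lc Q E r (ε r ^ 2) (pk (j0 r) (jt r) t) t k z -
        Gd lc Q E r (ε r ^ 2) (pk (j0 r) (jt r) t') t' k z)
        (ε r ^ 2 * (η + C * (‖t‖ + ‖t'‖)) * ‖t - t'‖)

def NL : Prop :=
  ∀ (P : Type) (l : Filter P) (lc : Eq4 → Jt → P → X3 → ℝ) (Q : Eq4 → P → X3 → (Jt → ℝ) → ℝ)
    (ψ : X3 → ℝ) (E : Fin 4 → X3 → ℝ) (C0 : ℝ) (C : ℕ → ℝ) (K : Set X3) (ε lam : P → ℝ)
    (j0 : P → Jt → X3 → ℝ) (jt : P → Eq4 × Fin 4 → Jt → X3 → ℝ) (m : ℕ),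
    (∀ k x, UD (lc k x)) → (∀ k, Pol 2 (Q k)) → Wt ψ →
    (∀ s, ContDiff ℝ ∞ (E s) ∧ ∀ z, z ∉ K → E s z = 0) → 0 ≤ C0 → (∀ n, 0 ≤ C n) →
    Sol lc ψ E C0 C → IsCompact K → (∀ r, 0 < ε r) → (∀ r, 1 ≤ lam r) →
    Tendsto (fun r => ε r * lam r ^ (m + 20)) l (𝓝 0) → Pack l lc Q ψ E K ε lam j0 jt →
    ∃ C1, ∀ᶠ r in l, ∃ (t : Eq4 × Fin 4 → ℝ) (v : Jt → X3 → ℝ), ‖t‖ ≤ 1 ∧ Adm v ∧
      (∀ x, Fw (ww ψ) (v x)) ∧ (∀ x, Nw (ww ψ) m (v x) (C1 * ε r ^ 2 * lam r ^ (m + 10))) ∧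
      ∀ k z, Lin lc r (pk (j0 r) (jt r) t + v) k z +
        Q k r z (at' (pk (j0 r) (jt r) t + v) z) = 0

/-! ### The theorem in the coordinates z and in the coordinates y -/

/-- The background jet js with its witness: a divergence free T with support in K on which the
second fundamental form has a sign. -/
structure Wit (d : Fin 3 → (X3 → ℝ) → X3 → ℝ) (K : Set X3) (js jT : Jt → X3 → ℝ)
    (χ : X3 → ℝ) : Prop where
  s : Jet d js
  T : Jet d jT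
  pos : ∀ a z, 0 < js (.h a a) z
  det : ∀ z, (hm (at' js z)).det ≠ 0
  h0 : ∀ a b z, jT (.h a b) z = 0
  supp : ∀ z, z ∉ K → χ z = 0 ∧ ∀ x, jT x z = 0
  sm : ContDiff ℝ ∞ χ
  ne : ∃ z, χ z ≠ 0
  div : ∀ a z, PM a (at' js z) (at' jT z) = 0
  sign : ∀ z, qf (hm (at' js z)) (pm (at' jT z)) (pm (at' js z)) = -χ z ^ 2

/-- The number of derivatives in the direction 0. -/
def n0 (α : List (Fin 3)) : ℕ := α.count 0

def COREZ : Prop :=
  ∀ B, Pl B → ∀ (P : Type) (l : Filter P) (jb : P → Jt → X3 → ℝ) (K0 K : Set X3)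
    (js jT : Jt → X3 → ℝ) (χ : X3 → ℝ) (π : P → X3 → M3) (lam : P → ℝ) (m : ℕ),
    Base jb → (∀ r k z, PC B k (at' (jb r) z) = 0) → IsCompact K0 → IsCompact K →
    Wit D K js jT χ → (∀ η > 0, ∀ᶠ r in l, ∀ x, ∀ z ∈ K, |jb r x z - js x z| ≤ η) →
    (∀ b c, UC K0 fun r z => π r z b c) → (∀ r z b c, π r z b c = π r z c b) →
    (∀ r z b, π r z b 0 = 0) → (∀ r, 1 ≤ lam r) → Tendsto lam l atTop →
    ∃ (M : ℕ) (C : ℝ), ∀ᶠ r in l, ∃ j : Jt → X3 → ℝ, Adm j ∧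
      (∀ k z, PC B k (at' (jb r) z + at' j z) = 0) ∧
      (∀ x α (n : ℕ), ∃ c, ∀ z, |Dl α (j x) z| * (1 + ‖z‖ ^ 2) ^ n ≤ c) ∧
      ∀ α : List (Fin 3), α.length ≤ m → ∀ z, (∀ x, |Dl α (j x) z| ≤ C / lam r) ∧
        (z ∉ K → ∀ a b, |Dl α (j (.h a b)) z| ≤ C * lam r ^ n0 α / lam r ^ (M + 2) ∧
          |Dl α (fun y => j (.p a b) y - π r y a b * Real.cos (lam r * yc 0 y) / lam r ^ M) z| ≤
            C * lam r ^ n0 α / lam r ^ (M + 1))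

/-- The open cube. -/
def cube : Set X3 := {y | ∀ i, |co i y| < Real.pi}

/-- The same in the coordinates y: the deformation has support in the closed cube. -/
def COREY : Prop :=
  ∀ B, Pl B → ∀ (P : Type) (l : Filter P) (jb : P → Jt → X3 → ℝ) (K0 K : Set X3)
    (js jT : Jt → X3 → ℝ) (χ : X3 → ℝ) (π : P → X3 → M3) (lam : P → ℝ) (m : ℕ),
    (∀ r, Jet pd (jb r)) → (∀ x α, ∃ C, ∀ r, ∀ y ∈ cube, |pdl α (jb r x) y| ≤ C) →
    (∃ c > 0, ∀ r, ∀ y ∈ cube, ∀ w : Fin 3 → ℝ,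
      c * ∑ a, w a ^ 2 ≤ ∑ a, ∑ b, w a * jb r (.h a b) y * w b) →
    (∀ r k, ∀ y ∈ cube, PC B k (at' (jb r) y) = 0) → IsCompact K0 → IsCompact K →
    K0 ⊆ cube → K ⊆ cube →
    Wit pd K js jT χ → (∀ η > 0, ∀ᶠ r in l, ∀ x, ∀ y ∈ K, |jb r x y - js x y| ≤ η) →
    (∀ b c, UC K0 fun r y => π r y b c) → (∀ r y b c, π r y b c = π r y c b) →
    (∀ r y b, π r y b 0 = 0) → (∀ r, 1 ≤ lam r) → Tendsto lam l atTop →
    ∃ (M : ℕ) (C : ℝ), ∀ᶠ r in l, ∃ j : Jt → X3 → ℝ, Jet pd j ∧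
      (∀ k, ∀ y ∈ cube, PC B k (at' (jb r) y + at' j y) = 0) ∧
      (∀ x y, y ∉ cube → j x y = 0) ∧
      ∀ α : List (Fin 3), α.length ≤ m → ∀ y, (∀ x, |pdl α (j x) y| ≤ C / lam r) ∧
        (y ∉ K → ∀ a b, |pdl α (j (.h a b)) y| ≤ C * lam r ^ n0 α / lam r ^ (M + 2) ∧
          |pdl α (fun y => j (.p a b) y - π r y a b * Real.cos (lam r * y.1) / lam r ^ M) y| ≤
            C * lam r ^ n0 α / lam r ^ (M + 1))

end Vale.Agent.P354K
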