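import Vale.Agent.P354K.Nw
import Vale.Agent.P354KW.Osc

open scoped ContDiff
open MeasureTheory Set Filter Topology

namespace Vale.Agent.P354K

open Vale.Agent.P354H (X3 e pd pdl Sb pd_sm pdl_sm dif)

variable {P : Type} {K : Set X3} {ψ : X3 → ℝ}

/-- Continuous with support in K, and the dual norm is at most M. -/
structure DS (K : Set X3) (ψ : X3 → ℝ) (f : X3 → ℝ) (M : ℝ) : Prop where
  cont : Continuous f
  supp : ∀ z, z ∉ K → f z = 0
  nonneg : 0 ≤ M
  le : ∀ V c, St ψ V c → |∫ z, f z * V z| ≤ M * c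

theorem St.nonneg {V : X3 → ℝ} {c : ℝ} (h : St ψ V c) : 0 ≤ c := (h.2 [] (by simp)).nonneg

theorem DS.int (hK : IsCompact K) {f V : X3 → ℝ} {M : ℝ} (h : DS K ψ f M) (hV : Continuous V) :
    Integrable fun z => f z * V z :=
  (h.cont.mul hV).integrable_of_hasCompactSupport
    (HasCompactSupport.intro hK h.supp).mul_right

theorem DS.mono {f : X3 → ℝ} {M M' : ℝ} (h : DS K ψ f M) (hM : M ≤ M') : DS K ψ f M' :=
  ⟨h.cont, h.supp, h.nonneg.trans hM, fun V c hV =>
    (h.le V c hV).trans (mul_le_mul_of_nonneg_right hM hV.nonneg)⟩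

theorem DS.congr {f g : X3 → ℝ} {M : ℝ} (h : DS K ψ f M) (e : ∀ z, g z = f z) : DS K ψ g M := by
  rwa [show g = f from funext e]

theorem ds_zero : DS K ψ (fun _ => 0) 0 := ⟨continuous_const, fun _ _ => rfl, le_rfl, by simp⟩

theorem DS.add (hK : IsCompact K) {f g : X3 → ℝ} {M M' : ℝ} (h : DS K ψ f M)
    (h' : DS K ψ g M') : DS K ψ (fun z => f z + g z) (M + M') := by
  refine ⟨h.cont.add h'.cont, fun z hz => by simp [h.supp z hz, h'.supp z hz],
    add_nonneg h.nonneg h'.nonneg, fun V c hV => ?_⟩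
  simp only [add_mul]
  rw [integral_add (h.int hK hV.1.continuous) (h'.int hK hV.1.continuous)]
  exact (abs_add_le _ _).trans (add_le_add (h.le V c hV) (h'.le V c hV))

theorem DS.cmul {f : X3 → ℝ} {M : ℝ} (h : DS K ψ f M) (a : ℝ) :
    DS K ψ (fun z => a * f z) (|a| * M) := by
  refine ⟨continuous_const.mul h.cont, fun z hz => by simp [h.supp z hz],
    mul_nonneg (abs_nonneg _) h.nonneg, fun V c hV => ?_⟩
  simp only [mul_assoc]
  rw [integral_const_mul, abs_mul]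
  exact mul_le_mul_of_nonneg_left (h.le V c hV) (abs_nonneg _)

theorem DS.sum (hK : IsCompact K) {ι : Type} (s : Finset ι) {f : ι → X3 → ℝ} {M : ι → ℝ}
    (h : ∀ i, DS K ψ (f i) (M i)) : DS K ψ (fun z => ∑ i ∈ s, f i z) (∑ i ∈ s, M i) := by
  classical
  induction s using Finset.induction_on with
  | empty => simpa using ds_zero
  | insert i s hi ih =>
    simp only [Finset.sum_insert hi]
    exact (h i).add hK ih

theorem dual_of {f : Eq4 → X3 → ℝ} {M : ℝ} (h : ∀ k, DS K ψ (f k) M) : Dual ψ f (4 * M) := by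
  intro V c hV
  refine (Finset.abs_sum_le_sum_abs _ _).trans
    ((Finset.sum_le_sum fun k _ => (h k).le _ c (hV k)).trans (le_of_eq ?_))
  simp
  ring

/-- Sup bounds and divergences. -/
theorem ds_sup (hK : IsCompact K) (hψ : Wt ψ) : ∃ C, 0 ≤ C ∧ ∀ (f : X3 → ℝ) (s : ℝ),
    (∀ z, z ∉ K → f z = 0) → (∀ z, |f z| ≤ s) →
      (Continuous f → DS K ψ f (C * s)) ∧ (Sm f → ∀ j, DS K ψ (D j f) (C * s)) := by
  obtain ⟨C, hC, h⟩ := nw_supp hK hψ.sw.cont
  obtain ⟨C', hC', h'⟩ := l2_supp hK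
  obtain ⟨B, hB⟩ := hK.exists_bound_of_continuousOn hψ.sw.cont.continuousOn
  have key : ∀ (f V : X3 → ℝ) (s c : ℝ), Continuous f → (∀ z, z ∉ K → f z = 0) →
      (∀ z, |f z| ≤ s) → L2 (fun z => ψ z * V z) c →
      |∫ z, f z * V z| ≤ C' * max B 0 * s * c := by
    intro f V s c hf h0 hs hV
    have h1 : L2 (fun z => sw ψ z * f z) (C' * (max B 0 * s)) := by
      refine h' _ _ (hψ.sw.cont.mul hf) (fun z hz => by simp [h0 z hz]) fun z => ?_
      by_cases hz : z ∈ K
      · rw [abs_mul]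
        exact mul_le_mul ((hB z hz).trans (le_max_left _ _)) (hs z) (abs_nonneg _)
          (le_max_right _ _)
      · simpa [h0 z hz] using mul_nonneg (le_max_right B 0) ((abs_nonneg _).trans (hs z))
    have h2 := h1.cs hV
    rw [← mul_assoc] at h2
    convert h2 using 4 with z
    have := (hψ.lw.pos z).ne'
    unfold sw
    field_simp
  have hp : 0 ≤ C' * max B 0 := mul_nonneg hC' (le_max_right _ _)
  refine ⟨C' * max B 0, hp, fun f s h0 hs => ?_⟩
  have hs0 : 0 ≤ s := (abs_nonneg _).trans (hs 0)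
  refine ⟨fun hf => ⟨hf, h0, mul_nonneg hp hs0, fun V c hV => key f V s c hf h0 hs (hV.2 [] (by simp))⟩,
    fun hf j => ⟨(D_sm j hf).continuous, D_supp j hK.isClosed h0, mul_nonneg hp hs0,
      fun V c hV => ?_⟩⟩
  rw [← abs_neg, ← ibp_D j hf (HasCompactSupport.intro hK h0) hV.1]
  exact key f _ s c hf.continuous h0 hs (hV.2 [j] (by simp))

/-- Families which are bounded by a multiple of a, and families which tend to zero. -/
def DB (K : Set X3) (ψ : X3 → ℝ) (a : P → ℝ) (F : P → X3 → ℝ) : Prop :=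
  ∃ C, 0 ≤ C ∧ ∀ r, DS K ψ (F r) (C * a r)
def Sml (l : Filter P) (K : Set X3) (ψ : X3 → ℝ) (F : P → X3 → ℝ) : Prop :=
  ∀ η > 0, ∀ᶠ r in l, DS K ψ (F r) η

variable {l : Filter P} {a : P → ℝ} {F G : P → X3 → ℝ}

theorem DB.congr (h : DB K ψ a F) (e : ∀ r z, G r z = F r z) : DB K ψ a G :=
  let ⟨C, hC, h⟩ := h
  ⟨C, hC, fun r => (h r).congr (e r)⟩

theorem DB.add (hK : IsCompact K) (h : DB K ψ a F) (h' : DB K ψ a G) :
    DB K ψ a fun r z => F r z + G r z :=
  let ⟨C, hC, h⟩ := h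
  let ⟨C', hC', h'⟩ := h'
  ⟨C + C', add_nonneg hC hC', fun r => ((h r).add hK (h' r)).mono (by rw [add_mul])⟩

theorem DB.cmul (h : DB K ψ a F) (c : ℝ) : DB K ψ a fun r z => c * F r z :=
  let ⟨C, hC, h⟩ := h
  ⟨|c| * C, mul_nonneg (abs_nonneg _) hC, fun r => ((h r).cmul c).mono (by rw [mul_assoc])⟩

theorem db_zero : DB K ψ a fun _ _ => 0 := ⟨0, le_rfl, fun _ => ds_zero.mono (by simp)⟩

theorem DB.sum (hK : IsCompact K) {ι : Type} [Fintype ι] {f : ι → P → X3 → ℝ}
    (h : ∀ i, DB K ψ a (f i)) : DB K ψ a fun r z => ∑ i, f i r z := by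
  choose C hC h using h
  exact ⟨∑ i, C i, Finset.sum_nonneg fun i _ => hC i, fun r =>
    (DS.sum hK _ fun i => h i r).mono (by rw [Finset.sum_mul])⟩

theorem db_sup (hK : IsCompact K) (hψ : Wt ψ) (hF : ∀ r, Continuous (F r))
    (h0 : ∀ r z, z ∉ K → F r z = 0) (h : ∃ C, 0 ≤ C ∧ ∀ r z, |F r z| ≤ C * a r) : DB K ψ a F := by
  obtain ⟨C, hC, h⟩ := h
  obtain ⟨C', hC', h'⟩ := ds_sup hK hψ
  exact ⟨C' * C, mul_nonneg hC' hC, fun r =>
    ((h' _ _ (h0 r) (h r)).1 (hF r)).mono (by rw [mul_assoc])⟩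

theorem db_D (hK : IsCompact K) (hψ : Wt ψ) (hF : ∀ r, Sm (F r))
    (h0 : ∀ r z, z ∉ K → F r z = 0) (h : ∃ C, 0 ≤ C ∧ ∀ r z, |F r z| ≤ C * a r) (j : Fin 3) :
    DB K ψ a fun r => D j (F r) := by
  obtain ⟨C, hC, h⟩ := h
  obtain ⟨C', hC', h'⟩ := ds_sup hK hψ
  exact ⟨C' * C, mul_nonneg hC' hC, fun r =>
    ((h' _ _ (h0 r) (h r)).2 (hF r) j).mono (by rw [mul_assoc])⟩

theorem DB.sml (h : DB K ψ a F) (ha : Tendsto a l (𝓝 0)) : Sml l K ψ F := by
  obtain ⟨C, -, h⟩ := h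
  intro η hη
  have := ha.const_mul C
  rw [mul_zero] at this
  filter_upwards [this.eventually (ge_mem_nhds hη)] with r hr using (h r).mono hr

theorem Sml.congr (h : Sml l K ψ F) (e : ∀ r z, G r z = F r z) : Sml l K ψ G :=
  fun η hη => (h η hη).mono fun r h => h.congr (e r)

theorem Sml.add (hK : IsCompact K) (h : Sml l K ψ F) (h' : Sml l K ψ G) :
    Sml l K ψ fun r z => F r z + G r z := fun η hη => by
  filter_upwards [h (η / 2) (by positivity), h' (η / 2) (by positivity)] with r h1 h2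
  exact (h1.add hK h2).mono (by linarith)

theorem sml_zero : Sml l K ψ fun _ _ => 0 := fun _ hη =>
  Eventually.of_forall fun _ => ds_zero.mono hη.le

theorem Sml.sum (hK : IsCompact K) {ι : Type} (s : Finset ι) {f : ι → P → X3 → ℝ}
    (h : ∀ i, Sml l K ψ (f i)) : Sml l K ψ fun r z => ∑ i ∈ s, f i r z := by
  classical
  induction s using Finset.induction_on with
  | empty => simpa using sml_zero
  | insert i s hi ih =>
    simp only [Finset.sum_insert hi]
    exact (h i).add hK ih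

theorem sml_sup (hK : IsCompact K) (hψ : Wt ψ) (hF : ∀ r, Continuous (F r))
    (h0 : ∀ r z, z ∉ K → F r z = 0) (h : ∀ η > 0, ∀ᶠ r in l, ∀ z ∈ K, |F r z| ≤ η) :
    Sml l K ψ F := by
  obtain ⟨C, hC, h'⟩ := ds_sup hK hψ
  intro η hη
  filter_upwards [h (η / (C + 1)) (by positivity)] with r hr
  refine ((h' _ (η / (C + 1)) (h0 r) fun z => ?_).1 (hF r)).mono ?_
  · by_cases hz : z ∈ K
    · exact hr z hz
    · rw [h0 r z hz, abs_zero]
      positivity
  · rw [← mul_div_assoc, div_le_iff₀ (by positivity)]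
    nlinarith

/-- The mean value of a product of two cosines. -/
theorem db_cos (hK : IsCompact K) (hψ : Wt ψ) {lam : P → ℝ} (hl : ∀ r, 1 ≤ lam r)
    {A : P → X3 → ℝ} (hA : UC K A) (a b : Fin 3) :
    DB K ψ (fun r => (lam r)⁻¹) fun r z => A r z * (Real.cos (lam r * yc a z) *
      Real.cos (lam r * yc b z) - if a = b then 1 / 2 else 0) := by
  set c : ℝ := if a = b then 1 / 2 else 1 with hc
  have hc1 : |c| ≤ 1 := by
    rw [hc]
    split_ifs <;> norm_num [abs_of_pos]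
  let S : P → X3 → ℝ := fun r z =>
    (lam r)⁻¹ * c * (Real.sin (lam r * yc a z) * Real.cos (lam r * yc b z))
  have hS : ∀ r, Sm (S r) := fun r =>
    contDiff_const.mul ((P354KW.sin_sm _ a).mul (P354KW.cos_sm _ b))
  have hb : ∀ {A : P → X3 → ℝ}, UB A → ∃ C, 0 ≤ C ∧ ∀ r z, |A r z * S r z| ≤ C * (lam r)⁻¹ := by
    intro A hA
    obtain ⟨C, hC, h⟩ := hA.bd
    refine ⟨C, hC, fun r z => ?_⟩
    have h0 : 0 < (lam r)⁻¹ := inv_pos.2 (one_pos.trans_le (hl r))
    simp only [S, abs_mul, abs_of_pos h0]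
    refine mul_le_mul (h r z) ?_ (by positivity) hC
    rw [mul_assoc]
    exact mul_le_of_le_one_right h0.le (mul_le_one₀ hc1 (by positivity)
      (mul_le_one₀ (Real.abs_sin_le_one _) (abs_nonneg _) (Real.abs_cos_le_one _)))
  have h1 := db_D hK hψ (fun r => (hA.1.1 r).mul (hS r))
    (fun r z hz => by simp [hA.2 r z hz]) (hb hA.1) a
  have hA' := hA.D hK a
  have h2 := (db_sup hK hψ (fun r => ((hA'.1.1 r).mul (hS r)).continuous)
    (fun r z hz => by simp [hA'.2 r z hz]) (hb hA'.1)).cmul (-1)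
  refine (h1.add hK h2).congr fun r z => ?_
  have h0 : lam r ≠ 0 := (one_pos.trans_le (hl r)).ne'
  rw [D_mul a (hA.1.1 r) (hS r)]
  simp only [S]
  rw [D_cmul a _ ((P354KW.sin_sm _ a).mul (P354KW.cos_sm _ b)),
    D_mul a (P354KW.sin_sm _ a) (P354KW.cos_sm _ b), P354KW.D_sin, P354KW.D_cos, hc]
  by_cases hab : a = b
  · subst hab
    simp only [if_true]
    have := Real.sin_sq_add_cos_sq (lam r * yc a z)
    field_simp
    linear_combination (A r z * lam r) * this
  · simp only [if_neg hab, if_neg (Ne.symm hab), if_true]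
    field_simp
    ring

/-! ### Sizes of oscillating families -/

variable {lam : P → ℝ} {d : Fin 3} {n : ℤ}

theorem osc_bd (hl : ∀ r, 1 ≤ lam r) (h : Osc K lam d n F) :
    ∃ C, 0 ≤ C ∧ ∀ r z, |F r z| ≤ C * lam r ^ (-n) := by
  obtain ⟨A, B, hA, hB, h⟩ := h
  obtain ⟨C, hC, h1⟩ := hA.1.bd
  obtain ⟨C', hC', h2⟩ := hB.1.bd
  refine ⟨C + C', add_nonneg hC hC', fun r z => ?_⟩
  have h0 : 0 < lam r ^ (-n) := zpow_pos (one_pos.trans_le (hl r)) _
  rw [h, abs_mul, abs_of_pos h0, mul_comm]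
  refine mul_le_mul_of_nonneg_right ((abs_add_le _ _).trans (add_le_add ?_ ?_)) h0.le
  · rw [abs_mul]
    exact (mul_le_of_le_one_right (abs_nonneg _) (Real.abs_cos_le_one _)).trans (h1 r z)
  · rw [abs_mul]
    exact (mul_le_of_le_one_right (abs_nonneg _) (Real.abs_sin_le_one _)).trans (h2 r z)

theorem osc_D (hl : ∀ r, 1 ≤ lam r) (hK : IsCompact K) (h : Osc K lam d n F) (i : Fin 3) :
    Osc K lam d (n - 1) fun r => D i (F r) :=
  P354KW.der hl hK (P354KW.cast h (by ring)) i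

theorem osc_Dl (hl : ∀ r, 1 ≤ lam r) (hK : IsCompact K) (h : Osc K lam d n F)
    (α : List (Fin 3)) : Osc K lam d (n - α.count d) fun r => Dl α (F r) := by
  induction α generalizing n F with
  | nil => exact P354KW.cast h (by simp)
  | cons i α ih =>
    by_cases hi : i = d
    · subst hi
      exact P354KW.cast (ih (osc_D hl hK h i)) (by simp; ring)
    · exact P354KW.cast (ih (P354KW.der_ne hK h hi)) (by simp [hi])

theorem osc_pdl (hl : ∀ r, 1 ≤ lam r) (hK : IsCompact K) (h : Osc K lam d n F)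
    (α : List (Fin 3)) : Osc K lam d (n - α.length) fun r => pdl α (F r) := by
  induction α generalizing n F with
  | nil => exact P354KW.cast h (by simp)
  | cons i α ih =>
    have : Osc K lam d (n - 1) fun r => pd i (F r) :=
      P354KW.congr (P354KW.mul (osc_D hl hK h i) (ub_gz_inv i)) fun r z =>
        congrFun (pd_eq_D i (F r)) z
    exact P354KW.cast (ih this) (by simp; ring)

theorem osc_sb (hl : ∀ r, 1 ≤ lam r) (hK : IsCompact K) (h : Osc K lam d n F) (k : ℕ) :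
    ∃ C, 0 ≤ C ∧ ∀ r, Sb k (F r) (C * lam r ^ (k - n)) := by
  obtain ⟨C, hC⟩ := words_bound (F := fun α C => 0 ≤ C ∧
    ∀ r z, |pdl α (F r) z| ≤ C * lam r ^ (-(n - α.length)))
    (fun α a b hab h => ⟨h.1.trans hab, fun r z => (h.2 r z).trans
      (mul_le_mul_of_nonneg_right hab (zpow_pos (one_pos.trans_le (hl r)) _).le)⟩)
    (fun α => osc_bd hl (osc_pdl hl hK h α)) k
  have h0 := (hC [] (by simp)).1
  exact ⟨C, h0, fun r α hα z => ((hC α hα).2 r z).trans (mul_le_mul_of_nonneg_left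
    (zpow_le_zpow_right₀ (hl r) (by omega)) h0)⟩

end Vale.Agent.P354K
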