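import Vale.Agent.P354K.Glue
import Vale.Agent.P354KC.Ck
import Vale.Agent.P354KE.Ext
import Vale.Agent.P354KD.Alg
import Vale.Agent.P354JP.Main
import Vale.Agent.P354J.Lip

open scoped ContDiff
open MeasureTheory Set Filter Topology

namespace Vale.Agent.P354K

open Vale.Agent.P354H (X3 e pd pdl Sb pd_sm pdl_sm dif)
open Vale.Agent.P354J (Bd Tm MS PD CC)
open Vale.Agent.P354KC Vale.Agent.P354KE

theorem ug_ub {P : Type} (k : ℕ) {c : P → X3 → ℝ} (h : UG gz k c) : UG (fun _ _ => 1) k c := by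
  induction k generalizing c with
  | zero => exact ug_zero h.1 h.bd
  | succ k ih =>
    refine ug_succ h.1 h.bd fun j => ?_
    convert ih ((ud_iff.1 (ud_gz_inv j) k).mul gz_sm (h.d gz_sm j)) using 2 with r
    funext z
    simp [Gd1, (gz_pos j z).ne']

theorem sb_of_Dl (n : ℕ) : ∃ C, 0 ≤ C ∧ ∀ (f : X3 → ℝ) (η : ℝ), 0 < η → Sm f →
    (∀ α : List (Fin 3), α.length ≤ n → ∀ z, |Dl α f z| ≤ η) → Sb n f (C * η) := by
  obtain ⟨-, C, hC⟩ := ug_ub n (P := {f : X3 → ℝ // Sm f ∧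
    ∀ α : List (Fin 3), α.length ≤ n → ∀ z, |Dl α f z| ≤ 1}) (c := fun f => f.1)
    ⟨fun f => f.2.1, 1, fun α hα f z => by rw [Gl_gz]; exact f.2.2 α hα z⟩
  refine ⟨max C 0, le_max_right _ _, fun f η hη hf h α hα z => ?_⟩
  have := hC α hα ⟨fun z => η⁻¹ * f z, contDiff_const.mul hf, fun β hβ y => by
    rw [Dl_cmul β _ hf, abs_mul, abs_of_pos (inv_pos.2 hη), inv_mul_le_iff₀ hη, mul_one]
    exact h β hβ y⟩ z
  rw [Gl_one, pdl_cmul α _ hf, abs_mul, abs_of_pos (inv_pos.2 hη), inv_mul_le_iff₀ hη,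
    mul_comm] at this
  exact this.trans (mul_le_mul_of_nonneg_right (le_max_left _ _) hη.le)

theorem pc_sm {B : (Jt → ℝ) → ℝ} (hB : Pl B) (k : Eq4) : ContDiff ℝ ∞ (PC B k) := by
  have h : ContDiff ℝ ∞ B := by
    induction hB with
    | const c => exact contDiff_const
    | h a b => fun_prop
    | dh i a b => fun_prop
    | add _ _ h1 h2 => exact h1.add h2
    | mul _ _ h1 h2 => exact h1.mul h2
  cases k with
  | none =>
    have h1 : ∀ a b, ContDiff ℝ ∞ fun v : Jt → ℝ => (hm v).adjugate a b := fun a b => by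
      fin_cases a <;> fin_cases b <;> simp [Matrix.adjugate_fin_three, hm] <;> fun_prop
    have h2 : ContDiff ℝ ∞ fun v : Jt → ℝ => (hm v).det := by
      simp only [Matrix.det_fin_three, hm, Matrix.of_apply]
      fun_prop
    have h3 : ContDiff ℝ ∞ fun v : Jt → ℝ => qf (hm v) (pm v) (pm v) := by
      simp only [qf, par, hm, pm, Matrix.of_apply]
      fun_prop
    show ContDiff ℝ ∞ fun v => PH B v
    simp only [PH, SS]
    fun_prop
  | some a =>
    show ContDiff ℝ ∞ fun v => PM a v v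
    simp only [PM]
    fun_prop

theorem bd_at {n : ℕ} {j : Jt → X3 → ℝ} (hj : ∀ x, Sm (j x)) {y : X3} {c : ℝ} (hc : 0 ≤ c)
    (h : ∀ x (α : List (Fin 3)), α.length ≤ n → |pdl α (j x) y| ≤ c) : Bd n (at' j) y c :=
  fun α hα => (pi_norm_le_iff_of_nonneg hc).2 fun x => by
    have e := congrFun (P354J.pdl_clm (ContinuousLinearMap.proj (R := ℝ) (φ := fun _ : Jt => ℝ) x)
      (f := at' j) (contDiff_pi.2 hj) α) y
    exact (congrArg norm e).symm.trans_le (h x α hα)

/-- The jets are close to any order when the data are close. -/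
theorem closeN {c : ℝ} (hc : 0 < c) (n : ℕ) (B : ℝ) : ∃ C, 0 ≤ C ∧ ∀ (η : ℝ) (y : X3)
    (h K hs Ks : X3 → M3), Gp c B 1 (n + 2) y h K → Gp c B 1 (n + 2) y hs Ks →
    AM 1 (n + 2) (fun z => h z - hs z) y η → AM 1 (n + 2) (fun z => K z - Ks z) y η →
    Tm n C (C * η) y (at' (jet h fun z => piOf (h z) (K z)))
      (at' (jet hs fun z => piOf (hs z) (Ks z))) := by
  obtain ⟨C, hC0, hC⟩ := lip sf_pi (n + 2) B hc
  have hB : B ≤ C + |B| + 1 := by linarith [le_abs_self B]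
  have hC' : C ≤ C + |B| + 1 := by linarith [abs_nonneg B]
  refine ⟨C + |B| + 1, by positivity, fun η y h K hs Ks g g' d1 d2 => ?_⟩
  have h0 := (d1 0 0).nonneg
  have s1 := sf_pi.ms g.sh g.sK g.pos
  have s2 := sf_pi.ms g'.sh g'.sK g'.pos
  have sj : ∀ {h π : X3 → M3}, MS h → MS π → ∀ x, Sm (jet h π x) := fun hh hπ x => by
    cases x
    exacts [hh _ _, pd_sm _ (hh _ _), pd_sm _ (pd_sm _ (hh _ _)), hπ _ _, pd_sm _ (hπ _ _)]
  have z : ∀ u : X3 → M3, AM 1 (n + 2) (fun z => u z - u z) y 0 := fun u a b α _ => by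
    simp [pdl_zero']
  refine ⟨contDiff_pi.2 (sj g.sh s1), contDiff_pi.2 (sj g'.sh s2),
    bd_at (sj g.sh s1) (by positivity) (jet_bd (g.bh.mono one_pos hB)
      ((hC 1 η y _ _ _ _ one_pos g g' d1 d2).1.mono one_pos hC')),
    bd_at (sj g'.sh s2) (by positivity) (jet_bd (g'.bh.mono one_pos hB)
      ((hC 1 0 y _ _ _ _ one_pos g' g' (z _) (z _)).1.mono one_pos hC')), ?_⟩
  have := bd_at (sj (g.sh.sub g'.sh) (s1.sub s2)) (by positivity) (jet_bd (n := n)
    (d1.mono one_pos (show η ≤ (C + |B| + 1) * η by nlinarith [abs_nonneg B]))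
    ((hC 1 η y _ _ _ _ one_pos g g' d1 d2).2.mono one_pos
      (mul_le_mul_of_nonneg_right hC' h0)))
  convert this using 2 with w
  funext x
  exact (congrFun (jet_sub g.sh s1 g'.sh s2 x) w).symm

theorem glk (hZ : GLZ) : GLK := by
  obtain ⟨⟨B, hB, A1⟩, A2, A3⟩ := P354KD.alg0
  intro P l h K hs Ks T χ φ K0 K1 hPD hb ⟨c0, hc0, hlo0⟩ hPs hCs k0 k s0 s w hcl sφ zφ m η hη
  have cb : cube ⊆ Metric.closedBall (0 : X3) 4 := fun y hy => by
    have h := fun i => ((hy i).trans Real.pi_lt_four).le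
    exact mem_closedBall_zero_iff.2 (max_le (h 0) (max_le (h 1) (h 2)))
  have hB4 := isCompact_closedBall (0 : X3) 4
  obtain ⟨c1, hc1, lo1⟩ := P354J.unif_pos hB4 hPs.sh fun z => (hPs.pos z).1
  obtain ⟨c, hc, hlo, los⟩ : ∃ c > 0, (∀ r, ∀ y ∈ cube, Lo c (h r y)) ∧ ∀ y ∈ cube, Lo c (hs y) :=
    ⟨min c0 c1, lt_min hc0 hc1, fun r y hy => Lo.mono (hlo0 r y hy) (min_le_left _ _),
      fun y hy => Lo.mono (lo1 y (cb hy)) (min_le_right _ _)⟩
  have sp := fun r => sf_pi.ms (hPD r).sh (hPD r).sK fun z => ((hPD r).pos z).1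
  obtain ⟨J, hJ⟩ : ∃ J : P → Jt → X3 → ℝ, J = fun r => jet (h r) fun z => piOf (h r z) (K r z) :=
    ⟨_, rfl⟩
  have jJ : ∀ r, Jet pd (J r) := fun r => hJ ▸ jet_jet (hPD r).sh (sp r)
    (fun z => sym_of ((hPD r).pos z).1) fun z a b =>
      (A2 _ _ ((hPD r).pos z).1 ((hPD r).pos z).2).1.apply b a
  have tm : ∀ n, ∃ C, 0 ≤ C ∧ (∀ r, ∀ y ∈ cube, Tm n C 0 y (at' (J r)) (at' (J r))) ∧
      ∀ η > 0, ∀ᶠ r in l, ∀ y ∈ cube,
        Tm n C η y (at' (J r)) (at' (jet hs fun z => piOf (hs z) (Ks z))) := fun n => by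
    obtain ⟨B1, -, h1⟩ := unif hc hPD hb hlo (n + 2)
    obtain ⟨B2, -, h2⟩ := unif (P := Unit) hc (fun _ => hPs) (fun α => by
      choose C1 _ b1 using fun t : Fin 3 × Fin 3 => P354JP.bd_compact α.length hB4 (hPs.sh t.1 t.2)
      choose C2 _ b2 using fun t : Fin 3 × Fin 3 => P354JP.bd_compact α.length hB4 (hPs.sK t.1 t.2)
      obtain ⟨D1, d1⟩ := (finite_range C1).bddAbove
      obtain ⟨D2, d2⟩ := (finite_range C2).bddAbove
      exact ⟨max D1 D2, fun _ a b y hy =>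
        ⟨(b1 (a, b) y (cb hy) α le_rfl).trans (le_max_of_le_left (d1 ⟨_, rfl⟩)),
          (b2 (a, b) y (cb hy) α le_rfl).trans (le_max_of_le_right (d2 ⟨_, rfl⟩))⟩⟩)
      (fun _ => los) (n + 2)
    obtain ⟨C, C0, hC⟩ := closeN hc n (max B1 B2)
    have up : ∀ {B' y h K}, B' ≤ max B1 B2 → Gp c B' 1 (n + 2) y h K →
        Gp c (max B1 B2) 1 (n + 2) y h K := fun hB g =>
      ⟨g.sh, g.sK, g.pos, g.lo, g.bh.mono one_pos hB, g.bK.mono one_pos hB⟩
    have g1 := fun r y hy => up (le_max_left _ _) (h1 r y hy).1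
    refine ⟨C, C0, fun r y hy => ?_, fun η hη => ?_⟩
    · have z : ∀ u : X3 → M3, AM 1 (n + 2) (fun z => u z - u z) y 0 := fun u a b α _ => by
        simp [pdl_zero']
      simpa only [hJ, mul_zero] using hC 0 y _ _ _ _ (g1 r y hy) (g1 r y hy) (z _) (z _)
    · filter_upwards [(eventually_all_finite (List.finite_length_le (Fin 3) (n + 2))).2
        fun α _ => hcl α (η / (C + 1)) (by positivity)] with r hr y hy
      rw [hJ]
      refine (hC _ y _ _ _ _ (g1 r y hy) (up (le_max_right _ _) (h2 () y hy).1)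
        (fun a b => an_one.2 fun α hα => (hr α hα a b y hy).1)
        (fun a b => an_one.2 fun α hα => (hr α hα a b y hy).2)).mono le_rfl le_rfl ?_
      rw [← mul_div_assoc, div_le_iff₀ (by positivity)]
      nlinarith
  have sS : ∀ k r, Sm fun y => φ y * PC B k (at' (J r) y) := fun k r =>
    sφ.mul ((pc_sm hB k).comp (contDiff_pi.2 (jJ r).sm))
  have tS : ∀ n k, ∃ C, (∀ r, ∀ y ∈ cube, Bd n (fun y => φ y * PC B k (at' (J r) y)) y C) ∧
      ∀ η > 0, ∀ᶠ r in l, ∀ y ∈ cube, Bd n (fun y => φ y * PC B k (at' (J r) y)) y η :=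
    fun n k => by
    obtain ⟨C, C0, h1, h2⟩ := tm n
    obtain ⟨D, D0, hD⟩ := P354J.Tm.comp n _ _ (PC B k) univ (Metric.closedBall 0 C) C isOpen_univ
      (pc_sm hB k).contDiffOn (subset_univ _) (isCompact_closedBall _ _) (convex_closedBall _ _)
    obtain ⟨E, E0, hE⟩ := P354JP.bd_compact n hB4 sφ
    have hD' := fun ε y f g (t : Tm n C ε y f g) => hD ε y f g t (fun _ => trivial)
      (fun _ => trivial) (mem_closedBall_zero_iff.2 t.bf.zero) (mem_closedBall_zero_iff.2 t.bg.zero)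
    refine ⟨_, fun r y hy => bd_mul n sφ (hD' _ _ _ _ (h1 r y hy)).sf (hE y (cb hy))
      (hD' _ _ _ _ (h1 r y hy)).bf, fun η hη => ?_⟩
    filter_upwards [h2 (η / (2 ^ n * E * D + 1)) (by positivity)] with r hr y hy
    have t := hD' _ _ _ _ (hr y hy)
    have t1 := t.bd
    simp only [fun y => (A1 _ _ hPs y).1 (hCs y) k, sub_zero] at t1
    refine (bd_mul n sφ t.sf (hE y (cb hy)) t1).mono le_rfl ?_
    rw [← mul_assoc, ← mul_div_assoc, div_le_iff₀ (by positivity)]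
    nlinarith
  obtain ⟨B0, B00, hB0⟩ := unif hc hPD hb hlo m
  obtain ⟨C2, C20, hC2⟩ := est (half_pos hc) m (max B0 (c / 6))
  obtain ⟨ν, ν0, n1, n2, n3⟩ : ∃ ν > 0, ν ≤ c / 6 ∧ ν ≤ η ∧ C2 * ν ≤ η :=
    ⟨min (c / 6) (η / (C2 + 1)), by positivity, min_le_left _ _, (min_le_right _ _).trans
      (div_le_self hη.le (by linarith)), (mul_le_mul_of_nonneg_left (min_le_right _ _) C20).trans (by
        rw [← mul_div_assoc, div_le_iff₀ (by positivity)]; nlinarith)⟩
  have H := hZ B hB P l (fun r x => J r x ∘ Fi) (Fi ⁻¹' K0) (Fi ⁻¹' K1)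
    (fun x => jet hs (fun z => piOf (hs z) (Ks z)) x ∘ Fi) (fun x => jet 0 T x ∘ Fi) (χ ∘ Fi)
    (fun k r => (fun y => φ y * PC B k (at' (J r) y)) ∘ Fi)
    ⟨fun r => jet_Fi (jJ r), fun x => ud_Fi (fun r => (jJ r).sm x) fun α =>
      (unif hc hPD hb hlo (α.length + 2)).imp fun _ H r y hy =>
        hJ ▸ jet_bd (H.2 r y hy).1.bh (H.2 r y hy).2 x α le_rfl,
      c, hc, fun r z => hJ ▸ hlo r _ (Fi_mem z)⟩ (cpt k0 s0) (cpt k s)
    ⟨jet_Fi w.s, jet_Fi w.T, fun a z => w.pos a _, fun z => w.det _, fun a b z => w.h0 a b _,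
      fun z => w.supp _, w.sm.comp Fi_sm, w.ne.elim fun y hy => ⟨Ps y, by
        rwa [Function.comp, Fi_Ps (s (by_contra fun h => hy (w.supp y h).1))]⟩,
      fun a z => w.div a _, fun z => w.sign _⟩
    (fun η hη => by
      obtain ⟨C, -, -, h2⟩ := tm 0
      exact (h2 η hη).mono fun r h x z _ => (norm_le_pi_norm _ x).trans (h _ (Fi_mem z)).bd.zero)
    (fun k => ⟨(ud_Fi (sS k) fun α => (tS α.length k).imp fun C h r y hy =>
      h.1 r y hy α le_rfl).ub, fun r z hz => by simp [zφ _ hz]⟩)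
    (fun n η hη => by
      obtain ⟨C, C0, hC⟩ := sb_of_Dl n
      filter_upwards [eventually_all.2 fun k => (tS n k).choose_spec.2 (η / (C + 1))
        (by positivity)] with r hr k
      refine (hC _ (η / (C + 1)) (by positivity) ((sS k r).comp Fi_sm) fun α hα z => by
        rw [Dl_Fi α (sS k r)]; exact hr k _ (Fi_mem z) α hα).mono le_rfl ?_
      rw [← mul_div_assoc, div_le_iff₀ (by positivity)]
      nlinarith) m ν ν0
  refine H.mono fun r ⟨j0, a1, a2, a3, a4⟩ => ?_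
  have hd : ∀ x, Dc (j0 x) := fun x => ⟨a1.sm x, fun α => a3 x α 1⟩
  obtain ⟨j, hj, h1, h0, hest⟩ : ∃ j : Jt → X3 → ℝ, Jet pd j ∧
      (∀ k, ∀ y ∈ cube, PC B k (at' (J r) y + at' j y) = (1 - φ y) * PC B k (at' (J r) y)) ∧
      (∀ x y, y ∉ cube → j x y = 0) ∧
      ∀ α : List (Fin 3), α.length ≤ m → ∀ y x, |pdl α (j x) y| ≤ ν := by
    refine ⟨fun x => Ex (j0 x), jet_Ex a1 hd, fun k y hy => ?_, fun x y => Ex_out _,
      fun α hα y x => ?_⟩
    · have := a2 k (Ps y)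
      rw [show at' (fun x => J r x ∘ Fi) (Ps y) = at' (J r) y from funext fun x => by
        rw [at', at', Function.comp, Fi_Ps hy], Function.comp, Fi_Ps hy] at this
      rw [show at' (fun x => Ex (j0 x)) y = at' j0 (Ps y) from funext fun x => Ex_in _ hy, this]
      ring
    · by_cases hy : y ∈ cube
      · rw [pdl_in α (Ex_sm (hd x)) hy, Ex_Fi]
        exact a4 α hα _ x
      · rw [P354KE.pdl_out α (hd x) hy, abs_zero]
        exact ν0.le
  have sh' : MS fun z => hm (at' j z) := fun a b => hj.sm (.h a b)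
  have sπ' : MS fun z => pm (at' j z) := fun a b => hj.sm (.p a b)
  have b2 : ∀ y, AM 1 m (fun z => hm (at' j z)) y ν := fun y a b =>
    an_one.2 fun α hα => hest α hα y (.h a b)
  have b3 : ∀ y, AM 1 m (fun z => pm (at' j z)) y ν := fun y a b =>
    an_one.2 fun α hα => hest α hα y (.p a b)
  have lo : ∀ y ∈ cube, Lo (c / 2) (h r y + hm (at' j y)) := fun y hy =>
    (Lo.add (hlo r y hy) fun a b => (b2 y a b).zero).mono (by linarith)
  have z1 : ∀ y, y ∉ cube → hm (at' j y) = 0 := fun y hy => Matrix.ext fun a b => h0 _ y hy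
  have z2 : ∀ y, y ∉ cube → pm (at' j y) = 0 := fun y hy => Matrix.ext fun a b => h0 _ y hy
  have p := hPD r
  have pos : ∀ z, (h r z + hm (at' j z)).PosDef := fun z => by
    by_cases hz : z ∈ cube
    · exact (lo z hz).posDef (half_pos hc) fun a b =>
        congrArg₂ (· + ·) (sym_of (p.pos z).1 a b) (congrFun (hj.hs a b) z)
    · rw [z1 z hz, add_zero]
      exact (p.pos z).1
  have sy : ∀ z, (piOf (h r z) (K r z) + pm (at' j z)).IsSymm := fun z =>
    (A2 _ _ (p.pos z).1 (p.pos z).2).1.add (Matrix.IsSymm.ext fun a b => congrFun (hj.ps b a) z)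
  have q : PD (fun z => h r z + hm (at' j z))
      (fun z => kOf (h r z + hm (at' j z)) (piOf (h r z) (K r z) + pm (at' j z))) :=
    ⟨p.sh.add sh', sf_k.ms (p.sh.add sh') ((sp r).add sπ') pos,
      fun z => ⟨pos z, (A3 _ _ (pos z) (sy z)).1⟩⟩
  have eK : ∀ z, kOf (h r z) (piOf (h r z) (K r z)) = K r z := fun z =>
    (A2 _ _ (p.pos z).1 (p.pos z).2).2
  have eq : K r + (fun z => kOf (h r z + hm (at' j z)) (piOf (h r z) (K r z) + pm (at' j z)) -
      K r z) = fun z => kOf (h r z + hm (at' j z)) (piOf (h r z) (K r z) + pm (at' j z)) := by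
    funext z
    simp
  refine ⟨fun z => hm (at' j z), fun z => kOf (h r z + hm (at' j z))
    (piOf (h r z) (K r z) + pm (at' j z)) - K r z, eq.symm ▸ q, fun y hy => eq.symm ▸ ?_,
    fun y hy => ⟨z1 y hy, by simp [z1 y hy, z2 y hy, eK]⟩, fun α hα y a b =>
      ⟨(an_one.1 (b2 y a b) α hα).trans n2, ?_⟩⟩
  · refine (A1 _ _ q y).2 fun k => ?_
    simp only [fun z => (A3 _ _ (pos z) (sy z)).2]
    have e1 : at' (jet (fun z => h r z + hm (at' j z)) fun z =>
        piOf (h r z) (K r z) + pm (at' j z)) y = at' (J r) y + at' j y := by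
      funext x
      have := congrFun (jet_add p.sh (sp r) sh' sπ' x) y
      rwa [jet_of hj, ← congrFun hJ r] at this
    have e2 : CC (h r) (K r) y → PC B k (at' (J r) y) = 0 := fun h => hJ ▸ (A1 _ _ p y).1 h k
    rw [e1]
    by_cases hc : y ∈ cube
    · rw [h1 k y hc]
      rcases hy with hy | hy
      · rw [e2 hy, mul_zero]
      · rw [hy, sub_self, zero_mul]
    · rw [show at' j y = 0 from funext fun x => h0 x y hc, add_zero]
      exact e2 (hy.resolve_right (by rw [zφ y fun h => hc (s0 h)]; exact zero_ne_one))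
  · have le1 : ν ≤ max B0 (c / 6) := le_max_of_le_right n1
    have := hC2 (h r) (fun z => piOf (h r z) (K r z)) 0 (fun z => hm (at' j z))
      (fun z => pm (at' j z)) (fun _ => 0) 1 ν y le_rfl p.sh (sp r) (fun _ _ => contDiff_const)
      sh' sπ' contDiff_const (fun z => (p.pos z).1) pos (fun z hz => ⟨z1 z hz, z2 z hz, rfl⟩)
      (fun hy => ⟨Lo.mono (hlo r y hy) (by linarith), lo y hy,
        (hB0 r y hy).1.bh.mono one_pos (le_max_left _ _),
        (hB0 r y hy).2.mono one_pos (le_max_left _ _)⟩)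
      (fun a b α _ => by simpa [pdl_zero'] using .inl B00) ((b2 y).mono one_pos le1)
      ((b3 y).mono one_pos le1) (fun α _ => by simp [pdl_zero']) (b2 y)
      (by simpa only [zero_smul, sub_zero] using b3 y)
    simp only [zero_smul, sub_zero, eK] at this
    exact (an_one.1 (this a b) α hα).trans n3

end Vale.Agent.P354K
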