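import Vale.Agent.P354K.L2
import Vale.Agent.P354H.Lim

open scoped ContDiff
open MeasureTheory Set Filter Topology

namespace Vale.Agent.P354K

open Vale.Agent.P354H (X3 e pd pdl Sb pd_sm pdl_sm dif one_le_two_pow)

variable {P : Type} {W W1 W2 : X3 → ℝ}

/-! ### Weighted norms -/

theorem Nw.zero {k : ℕ} {g : X3 → ℝ} {c : ℝ} (h : Nw W k g c) : L2 (fun z => W z * g z) c :=
  h.2 [] (Nat.zero_le _)

theorem Nw.nonneg {k : ℕ} {g : X3 → ℝ} {c : ℝ} (h : Nw W k g c) : 0 ≤ c := h.zero.nonneg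

theorem Nw.mono {k m : ℕ} {g : X3 → ℝ} {c d : ℝ} (h : Nw W k g c) (hm : m ≤ k) (hd : c ≤ d) :
    Nw W m g d := ⟨h.1, fun α hα => (h.2 α (hα.trans hm)).le hd⟩

theorem Nw.low {k m : ℕ} {g : X3 → ℝ} {c : ℝ} (h : Nw W k g c) (hm : m ≤ k) : Nw W m g c :=
  h.mono hm le_rfl

theorem Nw.le {k : ℕ} {g : X3 → ℝ} {c d : ℝ} (h : Nw W k g c) (hd : c ≤ d) : Nw W k g d :=
  h.mono le_rfl hd

theorem Nw.pd {k : ℕ} {g : X3 → ℝ} {c : ℝ} (h : Nw W (k + 1) g c) (j : Fin 3) :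
    Nw W k (pd j g) c := ⟨pd_sm j h.1, fun α hα => h.2 (j :: α) (by simpa using hα)⟩

theorem Nw.pdl {k : ℕ} {g : X3 → ℝ} {c : ℝ} (β : List (Fin 3)) (h : Nw W (k + β.length) g c) :
    Nw W k (pdl β g) c := ⟨pdl_sm β h.1, fun α hα => by
  rw [← P354H.pdl_append]
  exact h.2 _ (by rw [List.length_append]; omega)⟩

theorem Nw.tw {k : ℕ} {g : X3 → ℝ} {c : ℝ} (h : Nw W k g c) : Tw W k g c :=
  fun α hα => h.2 α hα.le

theorem Tw.le {k : ℕ} {g : X3 → ℝ} {c d : ℝ} (h : Tw W k g c) (hd : c ≤ d) : Tw W k g d :=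
  fun α hα => (h α hα).le hd

theorem Tw.nonneg {k : ℕ} {g : X3 → ℝ} {c : ℝ} (h : Tw W k g c) : 0 ≤ c :=
  (h (List.replicate k 0) (by simp)).nonneg

theorem Tw.pd {k : ℕ} {g : X3 → ℝ} {c : ℝ} (h : Tw W (k + 1) g c) (j : Fin 3) :
    Tw W k (pd j g) c := fun α hα => h (j :: α) (by simpa using hα)

theorem nw_zero {g : X3 → ℝ} {c : ℝ} (hg : Sm g) (h : L2 (fun z => W z * g z) c) :
    Nw W 0 g c := ⟨hg, fun α hα => by
  rw [List.eq_nil_of_length_eq_zero (Nat.le_zero.1 hα)]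
  exact h⟩

theorem nw_succ {k : ℕ} {g : X3 → ℝ} {c : ℝ} (hg : Sm g) (h : L2 (fun z => W z * g z) c)
    (h1 : ∀ j, Nw W k (pd j g) c) : Nw W (k + 1) g c := ⟨hg, fun α hα => by
  cases α with
  | nil => exact h
  | cons j α => exact (h1 j).2 α (by simpa using hα)⟩

theorem Nw.top {k : ℕ} {g : X3 → ℝ} {c d : ℝ} (h : Nw W k g c) (h' : Tw W (k + 1) g d) :
    Nw W (k + 1) g (c + d) := ⟨h.1, fun α hα => by
  rcases hα.eq_or_lt with h1 | h1
  · exact (h' α h1).le (le_add_of_nonneg_left h.nonneg)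
  · exact (h.2 α (by omega)).le (le_add_of_nonneg_right h'.nonneg)⟩

theorem Nw.add {k : ℕ} {f g : X3 → ℝ} {c d : ℝ} (h : Nw W k f c) (h' : Nw W k g d) :
    Nw W k (fun z => f z + g z) (c + d) := ⟨h.1.add h'.1, fun α hα =>
  ((h.2 α hα).add (h'.2 α hα)).congr fun z => by rw [pdl_add' α h.1 h'.1, mul_add]⟩

theorem Tw.add {k : ℕ} {f g : X3 → ℝ} {c d : ℝ} (h : Tw W k f c) (h' : Tw W k g d) (hf : Sm f)
    (hg : Sm g) : Tw W k (fun z => f z + g z) (c + d) := fun α hα =>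
  ((h α hα).add (h' α hα)).congr fun z => by rw [pdl_add' α hf hg, mul_add]

theorem Nw.cmul {k : ℕ} {f : X3 → ℝ} {c : ℝ} (h : Nw W k f c) (a : ℝ) :
    Nw W k (fun z => a * f z) (|a| * c) := ⟨contDiff_const.mul h.1, fun α hα =>
  ((h.2 α hα).cmul a).congr fun z => by rw [pdl_cmul α a h.1, mul_left_comm]⟩

theorem Tw.cmul {k : ℕ} {f : X3 → ℝ} {c : ℝ} (h : Tw W k f c) (hf : Sm f) (a : ℝ) :
    Tw W k (fun z => a * f z) (|a| * c) := fun α hα =>
  ((h α hα).cmul a).congr fun z => by rw [pdl_cmul α a hf, mul_left_comm]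

theorem Nw.neg {k : ℕ} {f : X3 → ℝ} {c : ℝ} (h : Nw W k f c) : Nw W k (fun z => -f z) c := by
  simpa using h.cmul (-1)

theorem Tw.neg {k : ℕ} {f : X3 → ℝ} {c : ℝ} (h : Tw W k f c) (hf : Sm f) :
    Tw W k (fun z => -f z) c := by
  simpa using h.cmul hf (-1)

theorem Nw.sub {k : ℕ} {f g : X3 → ℝ} {c d : ℝ} (h : Nw W k f c) (h' : Nw W k g d) :
    Nw W k (fun z => f z - g z) (c + d) := by
  simpa [sub_eq_add_neg] using h.add h'.neg

theorem nw_null (k : ℕ) : Nw W k (fun _ => 0) 0 :=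
  ⟨contDiff_const, fun α _ => l2_zero.congr fun z => by simp [pdl_zero']⟩

theorem Nw.sum {ι : Type} (s : Finset ι) {k : ℕ} {f : ι → X3 → ℝ} {a : ι → ℝ}
    (h : ∀ i ∈ s, Nw W k (f i) (a i)) : Nw W k (fun z => ∑ i ∈ s, f i z) (∑ i ∈ s, a i) := by
  classical
  induction s using Finset.induction_on with
  | empty => simpa using nw_null k
  | insert i s hi ih =>
    simp only [Finset.sum_insert hi]
    exact (h i (Finset.mem_insert_self _ _)).add
      (ih fun j hj => h j (Finset.mem_insert_of_mem hj))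

theorem Tw.sum {ι : Type} (s : Finset ι) {k : ℕ} {f : ι → X3 → ℝ} {a : ι → ℝ}
    (h : ∀ i ∈ s, Tw W k (f i) (a i)) (hf : ∀ i, Sm (f i)) :
    Tw W k (fun z => ∑ i ∈ s, f i z) (∑ i ∈ s, a i) := fun α hα =>
  (L2.sum s fun i hi => h i hi α hα).congr fun z => by rw [pdl_sum α s hf, Finset.mul_sum]

/-- Change of the weight. -/
theorem Nw.wt {k : ℕ} {g : X3 → ℝ} {c C : ℝ} (h : Nw W1 k g c) (hW : Continuous W) (hC : 0 ≤ C)
    (hle : ∀ z, |W z| ≤ C * |W1 z|) : Nw W k g (C * c) := ⟨h.1, fun α hα =>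
  (h.2 α hα).mono (hW.mul (pdl_sm α h.1).continuous) hC fun z => by
    rw [abs_mul, abs_mul, ← mul_assoc]
    exact mul_le_mul_of_nonneg_right (hle z) (abs_nonneg _)⟩

theorem Nw.weak {ψ : X3 → ℝ} (hψ : Wt ψ) {k : ℕ} {g : X3 → ℝ} {c : ℝ} (h : Nw (sw ψ) k g c) :
    Nw (ww ψ) k g (64 * c) := h.wt hψ.ww.cont (by norm_num) fun z => by
  rw [abs_of_pos (hψ.ww.pos z), abs_of_pos (hψ.sw.pos z)]
  exact ww_le hψ z

/-- Functions with support in a compact set. -/
theorem nw_supp {K : Set X3} (hK : IsCompact K) (hW : Continuous W) : ∃ C, 0 ≤ C ∧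
    ∀ (k : ℕ) (g : X3 → ℝ) (c : ℝ), Sm g → (∀ z, z ∉ K → g z = 0) → Sb k g c →
      Nw W k g (C * c) := by
  obtain ⟨C, hC, h⟩ := l2_supp hK
  obtain ⟨B, hB⟩ := hK.exists_bound_of_continuousOn hW.continuousOn
  refine ⟨C * max B 0, mul_nonneg hC (le_max_right _ _), fun k g c hg h0 hc => ⟨hg, fun α hα => ?_⟩⟩
  rw [mul_assoc]
  have h1 := pdl_supp α hK.isClosed h0
  refine h _ _ (hW.mul (pdl_sm α hg).continuous) (fun z hz => by simp [h1 z hz]) fun z => ?_
  by_cases hz : z ∈ K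
  · rw [abs_mul]
    exact mul_le_mul ((hB z hz).trans (le_max_left _ _)) (hc α hα z) (abs_nonneg _)
      (le_max_right _ _)
  · simpa [h1 z hz] using mul_nonneg (le_max_right B 0) hc.nonneg

/-! ### Weighted sup bounds and products -/

/-- Weighted bounds for all derivatives of order at most k. -/
def Sw (W : X3 → ℝ) (k : ℕ) (g : X3 → ℝ) (s : ℝ) : Prop :=
  Sm g ∧ ∀ α : List (Fin 3), α.length ≤ k → ∀ z, |W z * pdl α g z| ≤ s

theorem Sw.nonneg {k : ℕ} {g : X3 → ℝ} {s : ℝ} (h : Sw W k g s) : 0 ≤ s :=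
  (abs_nonneg _).trans (h.2 [] (Nat.zero_le _) 0)

theorem Sw.mono {k m : ℕ} {g : X3 → ℝ} {c d : ℝ} (h : Sw W k g c) (hm : m ≤ k) (hd : c ≤ d) :
    Sw W m g d := ⟨h.1, fun α hα z => (h.2 α (hα.trans hm) z).trans hd⟩

theorem Sw.low {k m : ℕ} {g : X3 → ℝ} {c : ℝ} (h : Sw W k g c) (hm : m ≤ k) : Sw W m g c :=
  h.mono hm le_rfl

theorem Sw.pd {k : ℕ} {g : X3 → ℝ} {c : ℝ} (h : Sw W (k + 1) g c) (j : Fin 3) :
    Sw W k (pd j g) c := ⟨pd_sm j h.1, fun α hα => h.2 (j :: α) (by simpa using hα)⟩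

theorem sw_one {k : ℕ} {g : X3 → ℝ} {c : ℝ} (hg : Sm g) (h : Sb k g c) : Sw (fun _ => 1) k g c :=
  ⟨hg, fun α hα z => by simpa using h α hα z⟩

section
variable {B : ℝ} (hW : Continuous W) (hB : 0 ≤ B) (hle : ∀ z, |W z| ≤ B * (|W1 z| * |W2 z|))
include hW hB hle

theorem l2_mul {u v : X3 → ℝ} {s n : ℝ} (hu : Continuous u) (hv : Continuous v)
    (h1 : ∀ z, |W1 z * u z| ≤ s) (h2 : L2 (fun z => W2 z * v z) n) :
    L2 (fun z => W z * (u z * v z)) (B * (s * n)) := by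
  rw [← mul_assoc]
  refine h2.mono (hW.mul (hu.mul hv)) (mul_nonneg hB ((abs_nonneg _).trans (h1 0))) fun z => ?_
  have := h1 z
  rw [abs_mul] at this
  rw [abs_mul, abs_mul, abs_mul]
  calc |W z| * (|u z| * |v z|) ≤ B * (|W1 z| * |W2 z|) * (|u z| * |v z|) :=
        mul_le_mul_of_nonneg_right (hle z) (by positivity)
    _ = B * (|W1 z| * |u z|) * (|W2 z| * |v z|) := by ring
    _ ≤ _ := by gcongr

/-- Bounded times square integrable. -/
theorem prodS {k : ℕ} {u v : X3 → ℝ} {s n : ℝ} (h1 : Sw W1 k u s) (h2 : Nw W2 k v n) :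
    Nw W k (fun z => u z * v z) (2 ^ k * (B * (s * n))) := by
  have h0 : ∀ {k : ℕ} {u v : X3 → ℝ}, Sw W1 k u s → Nw W2 k v n →
      L2 (fun z => W z * (u z * v z)) (B * (s * n)) := fun h1 h2 =>
    l2_mul hW hB hle h1.1.continuous h2.1.continuous (h1.2 [] (Nat.zero_le _)) h2.zero
  induction k generalizing u v with
  | zero => exact nw_zero (h1.1.mul h2.1) (by simpa using h0 h1 h2)
  | succ k ih =>
    refine nw_succ (h1.1.mul h2.1) ((h0 h1 h2).le (le_mul_of_one_le_left (h0 h1 h2).nonneg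
      (one_le_two_pow _))) fun j => ?_
    rw [pd_mul j h1.1 h2.1]
    exact ((ih (h1.pd j) (h2.low k.le_succ)).add (ih (h1.low k.le_succ) (h2.pd j))).le
      (le_of_eq (by ring))

end

/-- Tame product estimate with two weights. -/
theorem prodT {B : ℝ} (hW : Continuous W) (hB : 0 ≤ B)
    (hle : ∀ z, |W z| ≤ B * (|W1 z| * |W2 z|)) {k a b : ℕ} {u v : X3 → ℝ} {s1 n1 s2 n2 : ℝ}
    (hk : k ≤ a + b + 1) (h1 : Sw W1 a u s1) (h2 : Nw W1 k u n1) (h3 : Sw W2 b v s2)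
    (h4 : Nw W2 k v n2) : Nw W k (fun z => u z * v z) (2 ^ k * (B * (s1 * n2 + n1 * s2))) := by
  have p1 : 0 ≤ s1 * n2 := mul_nonneg h1.nonneg h4.nonneg
  have p2 : 0 ≤ n1 * s2 := mul_nonneg h2.nonneg h3.nonneg
  have hle' : ∀ z, |W z| ≤ B * (|W2 z| * |W1 z|) := fun z => by rw [mul_comm |W2 z|]; exact hle z
  have q1 : ∀ {k : ℕ} {u v : X3 → ℝ}, Sw W1 k u s1 → Nw W2 k v n2 →
      Nw W k (fun z => u z * v z) (2 ^ k * (B * (s1 * n2 + n1 * s2))) := fun h1 h4 =>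
    (prodS hW hB hle h1 h4).le (by gcongr; linarith)
  have q2 : ∀ {k : ℕ} {u v : X3 → ℝ}, Nw W1 k u n1 → Sw W2 k v s2 →
      Nw W k (fun z => u z * v z) (2 ^ k * (B * (s1 * n2 + n1 * s2))) := fun {k u v} h2 h3 => by
    rw [show (fun z => u z * v z) = fun z => v z * u z from funext fun z => mul_comm _ _]
    exact (prodS hW hB hle' h3 h2).le (by gcongr; linarith)
  induction k generalizing u v a b with
  | zero => exact q1 (h1.low (Nat.zero_le _)) h4
  | succ k ih =>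
    refine nw_succ (h1.1.mul h3.1) ((q1 (h1.low (Nat.zero_le _)) (h4.low (Nat.zero_le _))).zero.le
      ?_) fun j => ?_
    · gcongr
      · norm_num
      · omega
    · rw [pd_mul j h1.1 h3.1]
      have r1 : Nw W k (fun z => pd j u z * v z) (2 ^ k * (B * (s1 * n2 + n1 * s2))) := by
        cases a with
        | zero => exact q2 (h2.pd j) (h3.low (by omega))
        | succ a => exact ih (by omega) (h1.pd j) (h2.pd j) h3 (h4.low k.le_succ)
      have r2 : Nw W k (fun z => u z * pd j v z) (2 ^ k * (B * (s1 * n2 + n1 * s2))) := by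
        cases b with
        | zero => exact q1 (h1.low (by omega)) (h4.pd j)
        | succ b => exact ih (by omega) h1 (h2.low k.le_succ) (h3.pd j) (h4.pd j)
      exact (r1.add r2).le (le_of_eq (by ring))

/-- Multiplication by a bounded coefficient. -/
theorem Nw.bmul (hW : Continuous W) {k : ℕ} {a g : X3 → ℝ} {s c : ℝ} (h : Nw W k g c) (ha : Sm a)
    (hs : Sb k a s) : Nw W k (fun z => a z * g z) (2 ^ k * (s * c)) := by
  simpa using prodS (W1 := fun _ => 1) hW zero_le_one (fun z => by simp) (sw_one ha hs) h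

/-- The commutator with a coefficient: one derivative less on g. -/
theorem commS {B : ℝ} (hW : Continuous W) (hB : 0 ≤ B)
    (hle : ∀ z, |W z| ≤ B * (|W1 z| * |W2 z|)) (α : List (Fin 3)) {k : ℕ} {u v : X3 → ℝ}
    {s n : ℝ} (h1 : Sw W1 (k + 1) u s) (h2 : Nw W2 k v n) (hα : α.length ≤ k + 1) :
    L2 (fun z => W z * (pdl α (fun y => u y * v y) z - u z * pdl α v z))
      (α.length * (2 ^ k * (B * (s * n)))) := by
  have p : 0 ≤ B * (s * n) := mul_nonneg hB (mul_nonneg h1.nonneg h2.nonneg)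
  induction α generalizing k v with
  | nil => simpa [P354H.pdl] using l2_zero
  | cons j α ih =>
    rw [List.length_cons] at hα
    have r1 := (prodS hW hB hle (h1.pd j) h2).2 α (by omega)
    have r2 : L2 (fun z => W z * (pdl α (fun y => u y * pd j v y) z - u z * pdl α (pd j v) z))
        (α.length * (2 ^ k * (B * (s * n)))) := by
      cases k with
      | zero =>
        rw [List.eq_nil_of_length_eq_zero (show α.length = 0 by omega)]
        simpa [P354H.pdl] using l2_zero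
      | succ k =>
        refine (ih (h1.low (Nat.le_succ _)) (h2.pd j) (by omega)).le ?_
        gcongr
        · norm_num
        · omega
    refine ((r1.add r2).congr fun z => ?_).le (le_of_eq (by push_cast [List.length_cons]; ring))
    simp only [P354H.pdl]
    rw [pd_mul j h1.1 h2.1, pdl_add' α ((pd_sm j h1.1).mul h2.1) (h1.1.mul (pd_sm j h2.1))]
    ring

/-- Top order estimate for a bounded coefficient. -/
theorem Tw.bmul (hW : Continuous W) {k : ℕ} {a g : X3 → ℝ} {s0 s t c : ℝ}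
    (ht : Tw W (k + 1) g t) (h : Nw W k g c) (ha : Sm a) (h0 : ∀ z, |a z| ≤ s0)
    (hs : Sb (k + 1) a s) :
    Tw W (k + 1) (fun z => a z * g z) (s0 * t + (k + 1) * (2 ^ k * (s * c))) := fun α hα => by
  have r1 := commS (W1 := fun _ => 1) hW zero_le_one (fun z => by simp) α (sw_one ha hs) h hα.le
  have r2 := (ht α hα).bmul ha.continuous h0
  refine ((r2.add r1).congr fun z => by ring).le (le_of_eq ?_)
  rw [hα]
  push_cast
  ring

/-! ### Sobolev embedding and limits -/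

theorem sob_one : ∃ C, 0 ≤ C ∧ ∀ (u : X3 → ℝ) (c : ℝ), Nw (fun _ => 1) 3 u c → ∀ z,
    |u z| ≤ C * c := by
  obtain ⟨η, h1, h2, h3, -⟩ := ex_bump (isCompact_singleton (x := (0 : X3)))
  obtain ⟨s, hs, hb⟩ := (ub_of_cs (P := Unit) h1 h2).sb 3
  refine ⟨3 * (2 ^ 3 * s), by positivity, fun u c hu z => ?_⟩
  have hη : Sm (P354H.tr (-z) η) := P354H.tr_sm _ h1
  have h4 := hu.bmul continuous_const hη ((hb ()).tr (-z))
  have hg : P354H.Good fun y => P354H.tr (-z) η y * u y :=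
    ⟨h4.1, (P354H.Good.tr ⟨h1, h2⟩ (-z)).2.mul_right⟩
  have h5 := P354H.sob0 hg (c := 2 ^ 3 * (s * c)) (fun α hα => by
    have := (h4.2 α hα).opt_le
    simpa [P354H.n2] using this) z
  have h6 : P354H.tr (-z) η z = 1 := by simp [P354H.tr, h3]
  rw [h6, one_mul, Real.norm_eq_abs] at h5
  linarith

/-- Moving the weight inside. -/
theorem nw_inside (hW : LW W) (k : ℕ) : ∃ C, 0 ≤ C ∧ ∀ (g : X3 → ℝ) (c : ℝ), Nw W k g c →
    Nw (fun _ => 1) k (fun z => W z * g z) (C * c) := by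
  obtain ⟨s, hs⟩ := words_bound (F := fun α C => ∀ z, |(W z)⁻¹ * pdl α W z| ≤ C)
    (fun α a b hab h z => (h z).trans hab) (fun α => by
      obtain ⟨t, ht, e1⟩ := hW.pdl α
      obtain ⟨C, -, hC⟩ := ht.bd
      refine ⟨C, fun z => ?_⟩
      rw [e1, mul_left_comm, inv_mul_cancel₀ (hW.pos z).ne', mul_one]
      exact hC () z) k
  have hs' : Sw (fun z => (W z)⁻¹) k W s := ⟨hW.sm, hs⟩
  refine ⟨2 ^ k * s, mul_nonneg (by positivity) hs'.nonneg, fun g c hg => ?_⟩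
  refine (prodS (W := fun _ => 1) continuous_const zero_le_one (fun z => ?_) hs' hg).le
    (le_of_eq (by ring))
  rw [← abs_mul, inv_mul_cancel₀ (hW.pos z).ne']
  simp

theorem sobw : SOBW := by
  intro W hW
  obtain ⟨C, hC, h⟩ := sob_one
  obtain ⟨C', hC', h'⟩ := nw_inside hW 3
  refine ⟨C * C', mul_nonneg hC hC', fun k g c hg α hα z => ?_⟩
  have := h _ _ (h' _ _ (Nw.pdl α (hg.low (show 3 + α.length ≤ k + 3 by omega)))) z
  rwa [abs_mul, abs_of_pos (hW.pos z), ← mul_assoc] at this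

theorem sob_sw (hW : LW W) : ∃ C, 0 ≤ C ∧ ∀ k g c, Nw W (k + 3) g c → Sw W k g (C * c) := by
  obtain ⟨C, hC, h⟩ := sobw W hW
  exact ⟨C, hC, fun k g c hg => ⟨hg.1, fun α hα z => by
    rw [abs_mul, abs_of_pos (hW.pos z)]
    exact h k g c hg α hα z⟩⟩

theorem hasSum_mul {u : ℕ → X3 → ℝ} {G a : X3 → ℝ} (hu : ∀ n, Sm (u n)) (hG : Sm G) (ha : Sm a)
    (h : ∀ β z, HasSum (fun n => pdl β (u n) z) (pdl β G z)) (α : List (Fin 3)) (z : X3) :
    HasSum (fun n => pdl α (fun y => a y * u n y) z) (pdl α (fun y => a y * G y) z) := by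
  induction α generalizing u G a with
  | nil => exact (h [] z).mul_left (a z)
  | cons j α ih =>
    simp only [P354H.pdl]
    rw [pd_mul j ha hG, pdl_add' α ((pd_sm j ha).mul hG) (ha.mul (pd_sm j hG))]
    have := (ih hu hG (pd_sm j ha) h).add
      (ih (fun n => pd_sm j (hu n)) (pd_sm j hG) ha fun β => h (j :: β))
    convert this using 2 with n
    rw [pd_mul j ha (hu n), pdl_add' α ((pd_sm j ha).mul (hu n)) (ha.mul (pd_sm j (hu n)))]

theorem lim : LIM := by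
  intro W hW δ hδ
  have hs : ∀ n, Sm (δ n) := fun n => let ⟨_, _, h⟩ := hδ 0; (h n).1
  have hu : ∀ n, Sm fun z => W z * δ n z := fun n => hW.sm.mul (hs n)
  have hb : ∀ k, ∃ c : ℕ → ℝ, Summable c ∧ ∀ n, Sb k (fun z => W z * δ n z) (c n) := fun k => by
    obtain ⟨c, hc, h⟩ := hδ (k + 3)
    obtain ⟨C, -, h1⟩ := nw_inside hW (k + 3)
    obtain ⟨C', -, h2⟩ := sob_sw lw_one
    refine ⟨fun n => C' * (C * c n), (hc.mul_left _).mul_left _, fun n α hα z => ?_⟩
    simpa using (h2 k _ _ (h1 _ _ (h n))).2 α hα z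
  have hsum : ∀ α z, Summable fun n => pdl α (fun z => W z * δ n z) z := fun α z => by
    obtain ⟨c, hc, h⟩ := hb α.length
    exact hc.of_norm_bounded fun n => h n α le_rfl z
  obtain ⟨hG, hG'⟩ := P354H.lim_space (F := atTop)
    (f := fun m z => ∑ n ∈ Finset.range m, W z * δ n z)
    (g := fun α z => ∑' n, pdl α (fun z => W z * δ n z) z)
    (fun m => ContDiff.sum fun n _ => hu n) (fun k => by
      obtain ⟨c, hc, h⟩ := hb k
      refine ⟨∑' n, c n, fun m α hα z => ?_⟩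
      rw [pdl_sum α _ hu]
      exact (norm_sum_le _ _).trans ((Finset.sum_le_sum fun n _ => h n α hα z).trans
        (hc.sum_le_tsum _ fun n _ => (h n).nonneg)))
    fun α z => by
      simp only [pdl_sum α _ hu]
      exact (hsum α z).hasSum.tendsto_sum_nat
  have hi := hW.inv
  have key : ∀ α z, HasSum (fun n => pdl α (δ n) z) (pdl α
      (fun y => (W y)⁻¹ * ∑' n, pdl [] (fun z => W z * δ n z) y) z) := fun α z => by
    have := hasSum_mul hu hG hi.sm (fun β z => by rw [hG' β]; exact (hsum β z).hasSum) α z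
    simpa only [inv_mul_cancel_left₀ (hW.pos _).ne'] using this
  refine ⟨_, hi.sm.mul hG, key, fun α c hc h => ?_⟩
  refine l2_lim (f := fun m z => ∑ n ∈ Finset.range m, W z * pdl α (δ n) z) (fun m =>
    (L2.sum _ fun n _ => h n).le (hc.sum_le_tsum _ fun n _ => (h n).nonneg))
    (hW.cont.mul (pdl_sm α (hi.sm.mul hG)).continuous) fun z => ?_
  exact ((key α z).mul_left (W z)).tendsto_sum_nat

end Vale.Agent.P354K
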