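import Vale.Agent.P354K.Asm

open scoped ContDiff
open MeasureTheory Set Filter Topology

namespace Vale.Agent.P354K

open Vale.Agent.P354H (X3 e pd pdl Sb pd_sm pdl_sm dif)
open Vale.Agent.P354KW (Gm)

variable {P : Type} {K : Set X3} {ψ : X3 → ℝ} {lam : P → ℝ} {l : Filter P}
  {jb : P → Jt → X3 → ℝ} {c : Jt → Jt → P → X3 → ℝ} {lc : Eq4 → Jt → P → X3 → ℝ}

/-! ### Sizes of all derivatives -/

def WZ (K : Set X3) (lam : P → ℝ) (i : ℤ) (f : P → X3 → ℝ) : Prop :=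
  ∀ α : List (Fin 3), Bz K lam (α.length + i) (fun r => pdl α (f r)) ∧
    Bz K lam (α.length + i) fun r => Dl α (f r)

variable {i j : ℤ} {f g : P → X3 → ℝ}

theorem WZ.bz (h : WZ K lam i f) : Bz K lam i f := by simpa [Dl] using (h []).2

theorem WZ.add (h : WZ K lam i f) (h' : WZ K lam i g) : WZ K lam i fun r z => f r z + g r z :=
  fun α => ⟨((h α).1.add (h' α).1).congr fun r z => by rw [pdl_add' α (h.bz.1 r) (h'.bz.1 r)],
    ((h α).2.add (h' α).2).congr fun r z => by rw [Dl_add α (h.bz.1 r) (h'.bz.1 r)]⟩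

theorem WZ.sum {ι : Type} [Fintype ι] {f : ι → P → X3 → ℝ} (h : ∀ s, WZ K lam i (f s)) :
    WZ K lam i fun r z => ∑ s, f s r z :=
  fun α => ⟨(Bz.sum fun s => (h s α).1).congr fun r z => by
      rw [pdl_sum α _ fun s => (h s).bz.1 r],
    (Bz.sum fun s => (h s α).2).congr fun r z => by rw [Dl_sum α _ fun s => (h s).bz.1 r]⟩

theorem WZ.scal (hl : ∀ r, 1 ≤ lam r) (h : WZ K lam i f) (j : ℤ) :
    WZ K lam (j + i) fun r z => lam r ^ j * f r z :=
  fun α => ⟨(((h α).1.scal hl j).mono hl (by omega)).congr fun r z => by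
      rw [pdl_cmul α _ (h.bz.1 r)],
    (((h α).2.scal hl j).mono hl (by omega)).congr fun r z => by rw [Dl_cmul α _ (h.bz.1 r)]⟩

theorem WZ.mono (hl : ∀ r, 1 ≤ lam r) (h : WZ K lam i f) (hij : i ≤ j) : WZ K lam j f :=
  fun α => ⟨(h α).1.mono hl (by omega), (h α).2.mono hl (by omega)⟩

theorem WZ.sup {K' : Set X3} (h : WZ K lam i f) (hK : K ⊆ K') : WZ K' lam i f :=
  fun α => ⟨(h α).1.sup hK, (h α).2.sup hK⟩

theorem WZ.congr (h : WZ K lam i f) (e : ∀ r z, g r z = f r z) : WZ K lam i g := by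
  rwa [show g = f from funext fun r => funext (e r)]

theorem wz_osc (hK : IsCompact K) (hl : ∀ r, 1 ≤ lam r) {d : Fin 3} {n : ℤ}
    (h : Osc K lam d n f) : WZ K lam (-n) f := fun α =>
  ⟨(bz_osc hl (osc_pdl hl hK h α)).mono hl (by omega),
    (bz_osc hl (osc_Dl hl hK h α)).mono hl (by have := List.count_le_length (a := d) (l := α); omega)⟩

theorem wz_uc (hK : IsCompact K) (hl : ∀ r, 1 ≤ lam r) (h : UC K f) : WZ K lam 0 f := fun α =>
  ⟨(bz_uc ⟨h.1.pdl α, fun r => pdl_supp α hK.isClosed (h.2 r)⟩).mono hl (by omega),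
    (bz_uc (h.Dl hK α)).mono hl (by omega)⟩

theorem WZ.sb (hl : ∀ r, 1 ≤ lam r) {ι : Type} [Fintype ι] {f : ι → P → X3 → ℝ}
    (h : ∀ s, WZ K lam i (f s)) (n : ℕ) :
    ∃ C, 0 ≤ C ∧ ∀ s r, Sb n (f s r) (C * lam r ^ (n + i)) := by
  have hp : ∀ r (k : ℤ), 0 ≤ lam r ^ k := fun r k => (zpow_pos (one_pos.trans_le (hl r)) k).le
  choose C hC using fun s => words_bound (F := fun α C => 0 ≤ C ∧
    ∀ r z, |pdl α (f s r) z| ≤ C * lam r ^ (α.length + i))
    (fun α a b hab h => ⟨h.1.trans hab, fun r z => (h.2 r z).trans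
      (mul_le_mul_of_nonneg_right hab (hp r _))⟩) (fun α => (h s α).1.2.2) n
  have h0 : ∀ s, 0 ≤ C s := fun s => (hC s [] (by simp)).1
  refine ⟨∑ s, C s, Finset.sum_nonneg fun s _ => h0 s, fun s r α hα z =>
    ((hC s α hα).2 r z).trans (mul_le_mul (Finset.single_le_sum (fun s _ => h0 s)
      (Finset.mem_univ s)) (zpow_le_zpow_right₀ (hl r) (by omega)) (hp r _)
      (Finset.sum_nonneg fun s _ => h0 s))⟩

theorem osc_sup {K' : Set X3} {d : Fin 3} {n : ℤ} (h : Osc K lam d n f) (hK : K ⊆ K') :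
    Osc K' lam d n f :=
  let ⟨A, B, hA, hB, h⟩ := h
  ⟨A, B, hA.mono hK, hB.mono hK, h⟩

theorem Pkt.sup {K' : Set X3} {a : Fin 3} {q π : P → X3 → M3} {v : P → Jt → X3 → ℝ}
    (h : Pkt K lam jb a q π v) (hK : K ⊆ K') : Pkt K' lam jb a q π v :=
  ⟨fun b c => (h.q_uc b c).mono hK, fun b c => (h.p_uc b c).mono hK, h.adm,
    fun b c => osc_sup (h.h b c) hK, fun b c => osc_sup (h.p b c) hK⟩

theorem ex_pkt (hw : WKB) (hb : Base jb) (hs : Str jb lc) (hK : IsCompact K)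
    (hl : ∀ r, 1 ≤ lam r) (a : Fin 3) {q π : P → X3 → M3} (J : ℕ)
    (h1 : ∀ b c, UC K fun r z => q r z b c) (h2 : ∀ b c, UC K fun r z => π r z b c)
    (h3 : ∀ r z b c, q r z b c = q r z c b) (h4 : ∀ r z b c, π r z b c = π r z c b)
    (h5 : ∀ r z, q r z a a = 0) (h6 : ∀ r z b, π r z b a = 0) :
    ∃ v, Pkt K lam jb a q π v ∧ ∀ k, Osc K lam a J fun r => Lin lc r (v r) k :=
  let ⟨v, a1, a2, a3, a4⟩ := hw P jb lc hb hs K lam a q π J hK hl h1 h2 h3 h4 h5 h6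
  ⟨v, ⟨h1, h2, a1, a2, a3⟩, a4⟩

/-! ### The polarisations -/

def PP (a : Fin 3) : M3 := Matrix.of fun b c => if b ≠ a ∧ c ≠ a ∧ b ≠ c then 1 else 0

theorem PP_symm (a b c : Fin 3) : PP a b c = PP a c b := by
  fin_cases a <;> fin_cases b <;> fin_cases c <;> simp [PP]

theorem PP_zero (a b : Fin 3) : PP a b a = 0 := by simp [PP]

noncomputable def NN (jb : P → Jt → X3 → ℝ) (a : Fin 3) (r : P) (z : X3) : ℝ :=
  qf (Gm jb r z) (PP a) (PP a)

theorem NN_eq (hb : Base jb) (a : Fin 3) (r : P) (z : X3) :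
    NN jb a r z = 2 * (Gm jb r z (a + 1) (a + 1) * Gm jb r z (a + 2) (a + 2)) := by
  have h := P354KW.Gm_symm hb r z
  unfold NN
  generalize Gm jb r z = G at *
  fin_cases a <;> simp [qf, par, PP, Fin.sum_univ_three, h 1 0, h 2 0, h 2 1] <;> ring

theorem NN_low (hb : Base jb) : ∃ δ > 0, ∀ a r z, δ ≤ NN jb a r z := by
  obtain ⟨δ, hδ, h⟩ := hb.pos
  have k : ∀ r z a, δ ≤ Gm jb r z a a := fun r z a => by
    have := h r z (Pi.single a 1)
    fin_cases a <;> simpa [Fin.sum_univ_three, Gm, hm, at'] using this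
  refine ⟨2 * (δ * δ), by positivity, fun a r z => ?_⟩
  rw [NN_eq hb]
  exact mul_le_mul_of_nonneg_left (mul_le_mul (k r z _) (k r z _) hδ.le (hδ.le.trans (k r z _)))
    zero_le_two

theorem ud_NN (hb : Base jb) (a : Fin 3) : UD (NN jb a) := by
  have := (ud_c 2).mul ((P354KW.ud_G hb (a + 1) (a + 1)).mul (P354KW.ud_G hb (a + 2) (a + 2)))
  simpa only [← NN_eq hb] using this

theorem ud_rpow (hb : Base jb) (a : Fin 3) (p : ℝ) : UD fun r z => NN jb a r z ^ p :=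
  let ⟨_, hδ, h⟩ := NN_low hb
  (ud_NN hb a).compPos hδ (h a) (F := fun x => x ^ p) fun x hx =>
    (Real.contDiffAt_rpow_const_of_ne (ne_of_gt hx)).contDiffWithinAt

/-- NN to the power -1/2. -/
noncomputable def sN (jb : P → Jt → X3 → ℝ) (a : Fin 3) (r : P) (z : X3) : ℝ :=
  NN jb a r z ^ (-1 / 2 : ℝ)

theorem sN_sq (hb : Base jb) (a : Fin 3) (r : P) (z : X3) :
    sN jb a r z * sN jb a r z * NN jb a r z = 1 := by
  obtain ⟨δ, hδ, h⟩ := NN_low hb
  have h0 := hδ.trans_le (h a r z)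
  rw [sN, ← Real.rpow_add h0, show (-1 / 2 + -1 / 2 : ℝ) = -1 by norm_num, Real.rpow_neg_one,
    inv_mul_cancel₀ h0.ne']

/-- Uniform convergence of continuous functions of the jets. -/
theorem conv_jet (hb : Base jb) (hK : IsCompact K) {js jT : Jt → X3 → ℝ}
    (hs : ∀ x, Continuous (js x)) (hT : ∀ x, Continuous (jT x))
    (h : ∀ η > 0, ∀ᶠ r in l, ∀ x, ∀ z ∈ K, |jb r x z - js x z| ≤ η)
    {F : (Jt → ℝ) × (Jt → ℝ) → ℝ} (hF : Continuous F) : ∀ η > 0, ∀ᶠ r in l, ∀ z ∈ K,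
      |F (at' (jb r) z, at' jT z) - F (at' js z, at' jT z)| ≤ η := by
  intro η hη
  obtain ⟨B, hB⟩ := hK.exists_bound_of_continuousOn (f := fun z => (at' js z, at' jT z))
    ((continuous_pi hs).prodMk (continuous_pi hT)).continuousOn
  obtain ⟨δ, hδ, h1⟩ := Metric.uniformContinuousOn_iff_le.1
    ((isCompact_closedBall 0 (B + 1)).uniformContinuousOn_of_continuous hF.continuousOn) η hη
  filter_upwards [h (min δ 1) (by positivity)] with r hr z hz
  have h2 : dist (at' (jb r) z, at' jT z) (at' js z, at' jT z) ≤ min δ 1 := by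
    rw [Prod.dist_eq, dist_self, max_le_iff]
    exact ⟨(dist_pi_le_iff (by positivity)).2 fun x => hr x z hz, by positivity⟩
  have h3 := mem_closedBall_zero_iff.2 (hB z hz)
  refine h1 _ ?_ _ (Metric.closedBall_subset_closedBall (by linarith) h3)
    (h2.trans (min_le_left _ _))
  exact (dist_triangle _ _ _).trans (add_comm B 1 ▸ add_le_add (h2.trans (min_le_right _ _)) h3)

theorem lin_add (r : P) (v w : Jt → X3 → ℝ) (k : Eq4) (z : X3) :
    Lin lc r (fun x z => v x z + w x z) k z = Lin lc r v k z + Lin lc r w k z := by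
  simp only [Lin, mul_add, Finset.sum_add_distrib]

theorem lin_scl (r : P) (a : ℝ) (v : Jt → X3 → ℝ) (k : Eq4) (z : X3) :
    Lin lc r (scl a v) k z = a * Lin lc r v k z := by
  simp only [Lin, scl, Finset.mul_sum, mul_left_comm]

theorem lin_sum {ι : Type} [Fintype ι] (r : P) (v : ι → Jt → X3 → ℝ) (k : Eq4) (z : X3) :
    Lin lc r (fun x z => ∑ s, v s x z) k z = ∑ s, Lin lc r (v s) k z := by
  simp only [Lin, Finset.mul_sum]
  exact Finset.sum_comm

theorem adm_sum3 {v : Fin 3 → Jt → X3 → ℝ} (h : ∀ a, Adm (v a)) :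
    Adm fun x z => ∑ a, v a x z := by
  simp only [Fin.sum_univ_three]
  exact P354KW.adm_add (P354KW.adm_add (h 0) (h 1)) (h 2)

theorem Wit.isH {js jT : Jt → X3 → ℝ} {χ : X3 → ℝ} (h : Wit D K js jT χ) (x : Jt) (hx : isH x) :
    jT x = fun _ => 0 := by
  have h1 : ∀ a b, jT (.h a b) = fun _ => 0 := fun a b => funext (h.h0 a b)
  have h2 : ∀ i a b, jT (.dh i a b) = fun _ => 0 := fun i a b => by rw [h.T.dh, h1, D_const]
  cases x with
  | h a b => exact h1 a b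
  | dh i a b => exact h2 i a b
  | ddh i k a b => rw [h.T.ddh, h2, D_const]
  | p a b => exact hx.elim
  | dp i a b => exact hx.elim

/-- The linear part of the witness. -/
theorem lin_wit (hs : Str jb lc) {js jT : Jt → X3 → ℝ} {χ : X3 → ℝ} (h : Wit D K js jT χ) (r : P)
    (z : X3) : Lin lc r jT none z = -2 * (Gm jb r z).det ^ 2 *
      qf (Gm jb r z) (pm (at' jT z)) (pm (at' (jb r) z)) ∧
      ∀ a, Lin lc r jT (some a) z = PM a (at' (jb r) z) (at' jT z) := by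
  refine ⟨?_, fun a => ?_⟩
  · simp only [Lin, P354KW.sum_Jt, h.isH (.h _ _) trivial, h.isH (.dh _ _ _) trivial,
      h.isH (.ddh _ _ _ _) trivial, hs.hdp, hs.hp, qf, Finset.mul_sum]
    simp only [mul_zero, zero_mul, Finset.sum_const_zero, zero_add, add_zero]
    exact Finset.sum_congr rfl fun _ _ => Finset.sum_congr rfl fun _ _ => by
      simp only [pm, at', Matrix.of_apply]; ring
  · rw [Lin, show ∑ x, lc (some a) x r z * jT x z = _ from hs.mom a r z (at' jT z)]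
    simp [PM, at', h.isH (.h _ _) trivial, h.isH (.dh _ _ _) trivial]

/-- Existence of the packets. -/
def XPK : Prop :=
  ∀ (P : Type) (l : Filter P) (jb : P → Jt → X3 → ℝ) (lc : Eq4 → Jt → P → X3 → ℝ)
    (c : Jt → Jt → P → X3 → ℝ) (R : Eq4 → P → X3 → (Jt → ℝ) → ℝ) (K0 K S : Set X3)
    (js jT : Jt → X3 → ℝ) (χ : X3 → ℝ) (π : P → X3 → M3) (lam : P → ℝ) (ψ : X3 → ℝ)
    (E : Fin 4 → X3 → ℝ) (M : ℕ),
    Cf jb c → Str jb lc → (∀ k, Pol 3 (R k)) → IsCompact K0 → IsCompact K →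
    Wit D K js jT χ → (∀ η > 0, ∀ᶠ r in l, ∀ x, ∀ z ∈ K, |jb r x z - js x z| ≤ η) →
    (∀ b c, UC K0 fun r z => π r z b c) → (∀ r z b c, π r z b c = π r z c b) →
    (∀ r z b, π r z b 0 = 0) → (∀ r, 1 ≤ lam r) → Tendsto lam l atTop → Wt ψ → IsClosed S →
    (∀ z ∈ S, χ z ≠ 0) → (∀ s, ContDiff ℝ ∞ (E s) ∧ ∀ z, z ∉ S → E s z = 0) → 4 ≤ M →
    ∃ (X0 w : P → Jt → X3 → ℝ) (X : Eq4 × Fin 4 → P → Jt → X3 → ℝ),
      Pack l lc (QQ jb c R) ψ E (K0 ∪ K) (fun r => lam r ^ (-M : ℤ)) lam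
        (fun r => scl (lam r ^ (-M : ℤ)) (X0 r)) (fun r s => scl (lam r ^ (-M : ℤ)) (X s r)) ∧
      (∀ x, WZ (K0 ∪ K) lam 1 fun r => X0 r x) ∧ (∀ s x, WZ K lam 1 fun r => X s r x) ∧
      Pkt K0 lam jb 0 0 π w ∧ ∀ r x z, z ∉ K → X0 r x z = (lam r)⁻¹ * w r x z

end Vale.Agent.P354K
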