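import Vale.Agent.P354K.Dual
import Vale.Agent.P354KW.Alg
import Vale.Agent.P354KD.Dec

open scoped ContDiff
open MeasureTheory Set Filter Topology

namespace Vale.Agent.P354K

open Vale.Agent.P354H (X3 e pd pdl Sb pd_sm pdl_sm dif)
open Vale.Agent.P354KW (Gm)

variable {P : Type} {K : Set X3} {ψ : X3 → ℝ} {lam : P → ℝ}

/-! ### Pointwise estimates for polynomials -/

theorem pol_est {n : ℕ} {R : P → X3 → (Jt → ℝ) → ℝ} (h : Pol n R) : ∃ C, 0 ≤ C ∧
    ∀ r z (v v' : Jt → ℝ) (ρ : ℝ), 0 ≤ ρ → ρ ≤ 1 → ‖v‖ ≤ ρ → ‖v'‖ ≤ ρ →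
      |R r z v| ≤ C * ρ ^ n ∧ |R r z v - R r z v'| ≤ C * ρ ^ (n - 1) * ‖v - v'‖ := by
  induction h with
  | coef h =>
    obtain ⟨C, hC, h⟩ := h.bd
    exact ⟨C, hC, fun r z v v' ρ _ _ _ _ => ⟨by simpa using h r z, by simp; positivity⟩⟩
  | zero n => exact ⟨0, le_rfl, fun _ _ _ _ _ _ _ _ _ => by simp⟩
  | var x => exact ⟨1, zero_le_one, fun r z v v' ρ _ _ hv _ =>
      ⟨by simpa using (norm_le_pi_norm v x).trans hv, by simpa using norm_le_pi_norm (v - v') x⟩⟩
  | add _ _ a b =>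
    obtain ⟨C, hC, a⟩ := a
    obtain ⟨C', hC', b⟩ := b
    refine ⟨C + C', add_nonneg hC hC', fun r z v v' ρ h0 h1 hv hv' => ?_⟩
    obtain ⟨a1, a2⟩ := a r z v v' ρ h0 h1 hv hv'
    obtain ⟨b1, b2⟩ := b r z v v' ρ h0 h1 hv hv'
    refine ⟨(abs_add_le _ _).trans (by linarith), ?_⟩
    rw [add_sub_add_comm]
    exact (abs_add_le _ _).trans (by linarith)
  | @mul n m F G _ _ a b =>
    obtain ⟨C, hC, a⟩ := a
    obtain ⟨C', hC', b⟩ := b
    refine ⟨2 * (C * C'), by positivity, fun r z v v' ρ h0 h1 hv hv' => ?_⟩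
    obtain ⟨a1, a2⟩ := a r z v v' ρ h0 h1 hv hv'
    obtain ⟨b1, b2⟩ := b r z v v' ρ h0 h1 hv hv'
    obtain ⟨a3, -⟩ := a r z v' v ρ h0 h1 hv' hv
    have p := pow_nonneg h0
    refine ⟨?_, ?_⟩
    · rw [abs_mul, pow_add]
      have := mul_le_mul a1 b1 (abs_nonneg _) (mul_nonneg hC (p _))
      nlinarith [mul_nonneg (mul_nonneg hC hC') (mul_nonneg (p n) (p m))]
    · rw [show F r z v * G r z v - F r z v' * G r z v' =
        (F r z v - F r z v') * G r z v + F r z v' * (G r z v - G r z v') by ring]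
      refine (abs_add_le _ _).trans ?_
      rw [abs_mul, abs_mul]
      have e1 := mul_le_mul a2 b1 (abs_nonneg _) (by have := p (n - 1); positivity)
      have e2 := mul_le_mul a3 b2 (abs_nonneg _) (mul_nonneg hC (p _))
      have e3 : ρ ^ (n - 1) * ρ ^ m ≤ ρ ^ (n + m - 1) := by
        rw [← pow_add]
        exact pow_le_pow_of_le_one h0 h1 (by omega)
      have e4 : ρ ^ n * ρ ^ (m - 1) ≤ ρ ^ (n + m - 1) := by
        rw [← pow_add]
        exact pow_le_pow_of_le_one h0 h1 (by omega)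
      have q : 0 ≤ C * C' * ‖v - v'‖ := by positivity
      nlinarith [mul_le_mul_of_nonneg_left e3 q, mul_le_mul_of_nonneg_left e4 q]
  | @mono n m F _ hm a =>
    obtain ⟨C, hC, a⟩ := a
    refine ⟨C, hC, fun r z v v' ρ h0 h1 hv hv' => ?_⟩
    obtain ⟨a1, a2⟩ := a r z v v' ρ h0 h1 hv hv'
    exact ⟨a1.trans (mul_le_mul_of_nonneg_left (pow_le_pow_of_le_one h0 h1 hm) hC),
      a2.trans (mul_le_mul_of_nonneg_right (mul_le_mul_of_nonneg_left
        (pow_le_pow_of_le_one h0 h1 (by omega)) hC) (norm_nonneg _))⟩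

theorem pol_cont {n : ℕ} {R : P → X3 → (Jt → ℝ) → ℝ} (h : Pol n R) (r : P) {j : Jt → X3 → ℝ}
    (hj : ∀ x, Continuous (j x)) : Continuous fun z => R r z (at' j z) := by
  induction h with
  | coef h => exact (h.1 r).continuous
  | zero n => exact continuous_const
  | var x => exact hj x
  | add _ _ a b => exact a.add b
  | mul _ _ a b => exact a.mul b
  | mono _ _ a => exact a

/-! ### Families of size lam ^ i -/

def Bz (K : Set X3) (lam : P → ℝ) (i : ℤ) (f : P → X3 → ℝ) : Prop :=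
  (∀ r, Sm (f r)) ∧ (∀ r z, z ∉ K → f r z = 0) ∧ ∃ C, 0 ≤ C ∧ ∀ r z, |f r z| ≤ C * lam r ^ i

variable {i j : ℤ} {f g : P → X3 → ℝ}

theorem Bz.congr (h : Bz K lam i f) (e : ∀ r z, g r z = f r z) : Bz K lam i g := by
  rwa [show g = f from funext fun r => funext (e r)]

theorem Bz.add (h : Bz K lam i f) (h' : Bz K lam i g) : Bz K lam i fun r z => f r z + g r z := by
  obtain ⟨h1, h2, C, hC, h⟩ := h
  obtain ⟨h1', h2', C', hC', h'⟩ := h'
  exact ⟨fun r => (h1 r).add (h1' r), fun r z hz => by simp [h2 r z hz, h2' r z hz], C + C',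
    add_nonneg hC hC', fun r z => (abs_add_le _ _).trans (by linarith [h r z, h' r z])⟩

theorem Bz.mul (hl : ∀ r, 1 ≤ lam r) (h : Bz K lam i f) (h' : Bz K lam j g) :
    Bz K lam (i + j) fun r z => f r z * g r z := by
  obtain ⟨h1, h2, C, hC, h⟩ := h
  obtain ⟨h1', h2', C', hC', h'⟩ := h'
  refine ⟨fun r => (h1 r).mul (h1' r), fun r z hz => by simp [h2 r z hz], C * C',
    mul_nonneg hC hC', fun r z => ?_⟩
  have h0 := one_pos.trans_le (hl r)
  rw [abs_mul, zpow_add₀ h0.ne', mul_mul_mul_comm]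
  exact mul_le_mul (h r z) (h' r z) (abs_nonneg _) (mul_nonneg hC (zpow_pos h0 _).le)

theorem Bz.coef (h : Bz K lam i f) {c : P → X3 → ℝ} (hc : UB c) :
    Bz K lam i fun r z => c r z * f r z := by
  obtain ⟨h1, h2, C, hC, h⟩ := h
  obtain ⟨C', hC', h'⟩ := hc.bd
  refine ⟨fun r => (hc.1 r).mul (h1 r), fun r z hz => by simp [h2 r z hz], C' * C,
    mul_nonneg hC' hC, fun r z => ?_⟩
  rw [abs_mul, mul_assoc]
  exact mul_le_mul (h' r z) (h r z) (abs_nonneg _) hC'

theorem Bz.mono (hl : ∀ r, 1 ≤ lam r) (h : Bz K lam i f) (hij : i ≤ j) : Bz K lam j f :=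
  let ⟨h1, h2, C, hC, h⟩ := h
  ⟨h1, h2, C, hC, fun r z => (h r z).trans
    (mul_le_mul_of_nonneg_left (zpow_le_zpow_right₀ (hl r) hij) hC)⟩

theorem Bz.sup {K' : Set X3} (h : Bz K lam i f) (hK : K ⊆ K') : Bz K' lam i f :=
  ⟨h.1, fun r z hz => h.2.1 r z fun h => hz (hK h), h.2.2⟩

theorem bz_zero : Bz K lam i fun _ _ => 0 :=
  ⟨fun _ => contDiff_const, fun _ _ _ => rfl, 0, le_rfl, by simp⟩

theorem Bz.sum {ι : Type} [Fintype ι] {f : ι → P → X3 → ℝ} (h : ∀ x, Bz K lam i (f x)) :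
    Bz K lam i fun r z => ∑ x, f x r z := by
  choose C hC h' using fun x => (h x).2.2
  refine ⟨fun r => ContDiff.sum fun x _ => (h x).1 r,
    fun r z hz => Finset.sum_eq_zero fun x _ => (h x).2.1 r z hz, ∑ x, C x,
    Finset.sum_nonneg fun x _ => hC x, fun r z => ?_⟩
  rw [Finset.sum_mul]
  exact (Finset.abs_sum_le_sum_abs _ _).trans (Finset.sum_le_sum fun x _ => h' x r z)

theorem Bz.scal (hl : ∀ r, 1 ≤ lam r) (h : Bz K lam i f) (j : ℤ) :
    Bz K lam (j + i) fun r z => lam r ^ j * f r z := by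
  obtain ⟨h1, h2, C, hC, h⟩ := h
  refine ⟨fun r => contDiff_const.mul (h1 r), fun r z hz => by simp [h2 r z hz], C, hC,
    fun r z => ?_⟩
  have h0 := one_pos.trans_le (hl r)
  rw [abs_mul, zpow_add₀ h0.ne', abs_of_pos (zpow_pos h0 _), mul_left_comm]
  exact mul_le_mul_of_nonneg_left (h r z) (zpow_pos h0 _).le

theorem bz_osc (hl : ∀ r, 1 ≤ lam r) {d : Fin 3} {n : ℤ} (h : Osc K lam d n f) :
    Bz K lam (-n) f := ⟨P354KW.sm h, P354KW.supp h, osc_bd hl h⟩

theorem bz_uc (h : UC K f) : Bz K lam 0 f := ⟨h.1.1, h.2, by simpa using h.1.bd⟩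

theorem Bz.db (hK : IsCompact K) (hψ : Wt ψ) (h : Bz K lam i f) :
    DB K ψ (fun r => lam r ^ i) f := db_sup hK hψ (fun r => (h.1 r).continuous) h.2.1 h.2.2

theorem Bz.dbD (hK : IsCompact K) (hψ : Wt ψ) (h : Bz K lam i f) (a : Fin 3) :
    DB K ψ (fun r => lam r ^ i) fun r => D a (f r) := db_D hK hψ h.1 h.2.1 h.2.2 a

/-! ### The quadratic form -/

variable {jb : P → Jt → X3 → ℝ} {c : Jt → Jt → P → X3 → ℝ}

/-- The quadratic part of the constraints as a bilinear expression. -/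
noncomputable def Q2 (jb : P → Jt → X3 → ℝ) (c : Jt → Jt → P → X3 → ℝ) :
    Eq4 → P → X3 → (Jt → ℝ) → (Jt → ℝ) → ℝ
  | none, r, z, v, w => -((Gm jb r z).det ^ 2 * qf (Gm jb r z) (pm v) (pm w)) +
      ∑ x, ∑ y, c x y r z * v x * w y
  | some a, _, _, v, w => PM a v w

theorem qf_add_left (G A A' B : M3) : qf G (A + A') B = qf G A B + qf G A' B := by
  simp only [qf, Matrix.add_apply, add_mul, Finset.sum_add_distrib]

theorem qf_smul_left (G A B : M3) (t : ℝ) : qf G (t • A) B = t * qf G A B := by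
  simp only [qf, Matrix.smul_apply, smul_eq_mul, Finset.mul_sum, mul_assoc]

theorem qf_add_right (G A B B' : M3) : qf G A (B + B') = qf G A B + qf G A B' := by
  simp only [P354KD.qf_eq, Matrix.add_apply, mul_add, Finset.sum_add_distrib]

theorem qf_smul_right (G A B : M3) (t : ℝ) : qf G A (t • B) = t * qf G A B := by
  simp only [P354KD.qf_eq, Matrix.smul_apply, smul_eq_mul, Finset.mul_sum, mul_left_comm]

/-- The same as a bilinear map. -/
noncomputable def QL (jb : P → Jt → X3 → ℝ) (c : Jt → Jt → P → X3 → ℝ) (k : Eq4) (r : P)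
    (z : X3) : (Jt → ℝ) →ₗ[ℝ] (Jt → ℝ) →ₗ[ℝ] ℝ :=
  LinearMap.mk₂ ℝ (Q2 jb c k r z)
    (fun v v' w => by
      cases k with
      | none =>
        simp only [Q2, show pm (v + v') = pm v + pm v' from rfl, qf_add_left, Pi.add_apply,
          mul_add, add_mul, Finset.sum_add_distrib]
        ring
      | some a =>
        simp only [Q2, PM, Pi.add_apply, ← Finset.sum_add_distrib]
        exact Finset.sum_congr rfl fun _ _ => Finset.sum_congr rfl fun _ _ => by ring)
    (fun t v w => by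
      cases k with
      | none =>
        simp only [Q2, show pm (t • v) = t • pm v from rfl, qf_smul_left, Pi.smul_apply,
          smul_eq_mul, mul_add, Finset.mul_sum]
        congr 1
        · ring
        · exact Finset.sum_congr rfl fun _ _ => Finset.sum_congr rfl fun _ _ => by ring
      | some a =>
        simp only [Q2, PM, Pi.smul_apply, smul_eq_mul, Finset.mul_sum]
        exact Finset.sum_congr rfl fun _ _ => Finset.sum_congr rfl fun _ _ => by ring)
    (fun v w w' => by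
      cases k with
      | none =>
        simp only [Q2, show pm (w + w') = pm w + pm w' from rfl, qf_add_right, Pi.add_apply,
          mul_add, Finset.sum_add_distrib]
        ring
      | some a =>
        simp only [Q2, PM, Pi.add_apply, ← Finset.sum_add_distrib]
        exact Finset.sum_congr rfl fun _ _ => Finset.sum_congr rfl fun _ _ => by ring)
    (fun t v w => by
      cases k with
      | none =>
        simp only [Q2, show pm (t • w) = t • pm w from rfl, qf_smul_right, Pi.smul_apply,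
          smul_eq_mul, mul_add, Finset.mul_sum]
        congr 1
        · ring
        · exact Finset.sum_congr rfl fun _ _ => Finset.sum_congr rfl fun _ _ => by ring
      | some a =>
        simp only [Q2, PM, Pi.smul_apply, smul_eq_mul, Finset.mul_sum]
        exact Finset.sum_congr rfl fun _ _ => Finset.sum_congr rfl fun _ _ => by ring)

theorem QL_apply (k : Eq4) (r : P) (z : X3) (v w : Jt → ℝ) :
    QL jb c k r z v w = Q2 jb c k r z v w := rfl

/-- Jet fields of size lam ^ (wt x - n). -/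
def Sz (K : Set X3) (lam : P → ℝ) (n : ℤ) (v : P → Jt → X3 → ℝ) : Prop :=
  (∀ r, Adm (v r)) ∧ ∀ x, Bz K lam (wt x - n) fun r => v r x

/-- The metric part is smaller. -/
def SzP (K : Set X3) (lam : P → ℝ) (v : P → Jt → X3 → ℝ) : Prop :=
  ∀ x, isH x → Bz K lam (wt x - 1) fun r => v r x

/-- The hypotheses on the coefficients. -/
structure Cf (jb : P → Jt → X3 → ℝ) (c : Jt → Jt → P → X3 → ℝ) : Prop where
  base : Base jb
  ud : ∀ x y, UD (c x y)
  wt : ∀ x y, c x y = 0 ∨ wt x + wt y ≤ -1 ∨ (wt x + wt y ≤ 0 ∧ isH x ∧ isH y)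

variable {n m : ℤ} {v w : P → Jt → X3 → ℝ}

theorem bz_qf (hl : ∀ r, 1 ≤ lam r) (hb : Base jb) {A B : P → X3 → M3}
    (hA : ∀ a b, Bz K lam i fun r z => A r z a b) (hB : ∀ a b, Bz K lam j fun r z => B r z a b) :
    Bz K lam (i + j) fun r z => qf (Gm jb r z) (A r z) (B r z) := by
  refine (Bz.sum fun a => Bz.sum fun b => Bz.sum fun c => Bz.sum fun d =>
    ((hA a b).mul hl (hB c d)).coef (P354KW.ud_parc hb a b c d).ub).congr fun r z => ?_
  simp only [qf, P354KW.par_eq, Finset.mul_sum, mul_left_comm]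

theorem bz_T2 (hl : ∀ r, 1 ≤ lam r) (hc : Cf jb c) (hv : Sz K lam n v) (hw : Sz K lam m w) :
    Bz K lam (-(n + m)) fun r z => ∑ x, ∑ y, c x y r z * v r x z * w r y z := by
  refine Bz.sum fun x => Bz.sum fun y => ?_
  rcases hc.wt x y with h | h
  · exact bz_zero.congr fun r z => by simp [h]
  · exact ((((hv.2 x).mul hl (hw.2 y)).coef (hc.ud x y).ub).mono hl (by omega)).congr
      fun r z => mul_assoc _ _ _

theorem bz_T2' (hl : ∀ r, 1 ≤ lam r) (hc : Cf jb c) (hv : Sz K lam 0 v) (hw : Sz K lam 0 w)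
    (h : SzP K lam v ∨ SzP K lam w) :
    Bz K lam (-1) fun r z => ∑ x, ∑ y, c x y r z * v r x z * w r y z := by
  refine Bz.sum fun x => Bz.sum fun y => ?_
  rcases hc.wt x y with h1 | h1 | ⟨h1, h2, h3⟩
  · exact bz_zero.congr fun r z => by simp [h1]
  · exact ((((hv.2 x).mul hl (hw.2 y)).coef (hc.ud x y).ub).mono hl (by omega)).congr
      fun r z => mul_assoc _ _ _
  · rcases h with h | h
    · exact ((((h x h2).mul hl (hw.2 y)).coef (hc.ud x y).ub).mono hl (by omega)).congr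
        fun r z => mul_assoc _ _ _
    · exact ((((hv.2 x).mul hl (h y h3)).coef (hc.ud x y).ub).mono hl (by omega)).congr
        fun r z => mul_assoc _ _ _

theorem PM_eq {v w : Jt → X3 → ℝ} (hv : Adm v) (hw : Adm w) (a : Fin 3) (z : X3) :
    PM a (at' v z) (at' w z) = ∑ b, ∑ c, D b (fun y => v (.h a c) y * w (.p c b) y) z +
      (-1 / 2) * ∑ b, ∑ c, w (.p b c) z * v (.dh a b c) z := by
  simp only [PM, at', D_mul _ (hv.sm _) (hw.sm _), ← hv.dh, ← hw.dp, Finset.mul_sum,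
    ← Finset.sum_add_distrib]
  exact Finset.sum_congr rfl fun _ _ => Finset.sum_congr rfl fun _ _ => by ring

theorem db_T3 (hK : IsCompact K) (hψ : Wt ψ) (hl : ∀ r, 1 ≤ lam r) (hv : Sz K lam n v)
    (hw : Sz K lam m w) (a : Fin 3) : DB K ψ (fun r => lam r ^ (-(n + m) - 1))
      fun r z => ∑ b, ∑ c, D b (fun y => v r (.h a c) y * w r (.p c b) y) z :=
  DB.sum hK fun b => DB.sum hK fun c =>
    (((hv.2 (.h a c)).mul hl (hw.2 (.p c b))).mono hl (by simp [wt]; omega)).dbD hK hψ b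

theorem DB.mono {a a' : P → ℝ} (h : DB K ψ a f) (ha : ∀ r, a r ≤ a' r) : DB K ψ a' f :=
  let ⟨C, hC, h⟩ := h
  ⟨C, hC, fun r => (h r).mono (mul_le_mul_of_nonneg_left (ha r) hC)⟩

/-- The general bound. -/
theorem db_Q2 (hK : IsCompact K) (hψ : Wt ψ) (hl : ∀ r, 1 ≤ lam r) (hc : Cf jb c)
    (hv : Sz K lam n v) (hw : Sz K lam m w) (k : Eq4) : DB K ψ (fun r => lam r ^ (-(n + m)))
      fun r z => Q2 jb c k r z (at' (v r) z) (at' (w r) z) := by
  cases k with
  | none =>
    have h1 := (bz_qf (K := K) (i := wt (.p 0 0) - n) (j := wt (.p 0 0) - m) hl hc.base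
      (A := fun r z => pm (at' (v r) z))
      (B := fun r z => pm (at' (w r) z)) (fun a b => hv.2 (.p a b))
      fun a b => hw.2 (.p a b)).coef ((P354KW.ud_det hc.base).pow 2).neg.ub
    exact ((((h1.mono hl (by simp [wt])).add (bz_T2 hl hc hv hw))).db hK hψ).congr
      fun r z => by simp only [Q2, at', neg_mul]
  | some a =>
    have h1 := (Bz.sum fun b => Bz.sum fun c =>
      ((hw.2 (.p b c)).mul hl (hv.2 (.dh a b c))).mono hl
        (show _ ≤ -(n + m) by simp [wt])).coef (ub_c (-1 / 2))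
    exact (((db_T3 hK hψ hl hv hw a).mono fun r => zpow_le_zpow_right₀ (hl r) (by omega)).add hK
      (h1.db hK hψ)).congr fun r z => PM_eq (hv.1 r) (hw.1 r) a z

/-! ### Packets -/

/-- A packet with phase lam * y a and leading amplitudes q and pi. -/
structure Pkt (K : Set X3) (lam : P → ℝ) (jb : P → Jt → X3 → ℝ) (a : Fin 3)
    (q π : P → X3 → M3) (v : P → Jt → X3 → ℝ) : Prop where
  q_uc : ∀ b c, UC K fun r z => q r z b c
  p_uc : ∀ b c, UC K fun r z => π r z b c
  adm : ∀ r, Adm (v r)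
  h : ∀ b c, Osc K lam a 2 fun r z => v r (.h b c) z -
    (lam r)⁻¹ * par (hm (at' (jb r) z)) (q r z) b c * Real.sin (lam r * yc a z)
  p : ∀ b c, Osc K lam a 1 fun r z => v r (.p b c) z - π r z b c * Real.cos (lam r * yc a z)

variable {a a' : Fin 3} {q π q' π' : P → X3 → M3}

theorem osc_jet (hK : IsCompact K) (hl : ∀ r, 1 ≤ lam r) (hv : ∀ r, Adm (v r))
    (h1 : ∀ b c, Osc K lam a (n + 1) fun r => v r (.h b c))
    (h2 : ∀ b c, Osc K lam a m fun r => v r (.p b c)) (x : Jt) :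
    (isH x → Osc K lam a (n - wt x) fun r => v r x) ∧
      (¬ isH x → Osc K lam a (m - wt x) fun r => v r x) := by
  have d1 : ∀ i b c, Osc K lam a (n + 1 - 1) fun r => v r (.dh i b c) := fun i b c =>
    P354KW.congr (osc_D hl hK (h1 b c) i) fun r z => by rw [(hv r).dh]
  cases x with
  | h b c => exact ⟨fun _ => P354KW.cast (h1 b c) (by simp [wt]), fun h => absurd trivial h⟩
  | dh i b c => exact ⟨fun _ => P354KW.cast (d1 i b c) (by simp [wt]), fun h => absurd trivial h⟩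
  | ddh i k b c =>
    exact ⟨fun _ => P354KW.cast (P354KW.congr (osc_D hl hK (d1 k b c) i) fun r z => by
      rw [(hv r).ddh]) (by simp [wt]), fun h => absurd trivial h⟩
  | p b c => exact ⟨fun h => h.elim, fun _ => P354KW.cast (h2 b c) (by simp [wt])⟩
  | dp i b c =>
    exact ⟨fun h => h.elim, fun _ => P354KW.cast (P354KW.congr (osc_D hl hK (h2 b c) i)
      fun r z => by rw [(hv r).dp]) (by simp [wt])⟩

theorem Pkt.p0 (hl : ∀ r, 1 ≤ lam r) (h : Pkt K lam jb a q π v) (b c : Fin 3) :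
    Osc K lam a 0 fun r => v r (.p b c) :=
  P354KW.congr (P354KW.add (P354KW.mono hl (h.p b c) zero_le_one)
    (P354KW.of_cos (h.p_uc b c) 0)) fun r z => by simp

theorem Pkt.osc (hK : IsCompact K) (hl : ∀ r, 1 ≤ lam r) (hb : Base jb)
    (h : Pkt K lam jb a q π v) (x : Jt) : Osc K lam a (0 - wt x) fun r => v r x := by
  have := osc_jet (n := 0) hK hl h.adm (fun b c => P354KW.congr (P354KW.add
    (P354KW.mono hl (h.h b c) (by norm_num))
    (P354KW.of_sin (P354KW.uc_par hb h.q_uc b c) (0 + 1))) fun r z => by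
      simp only [zero_add, zpow_neg, zpow_one]
      ring) (h.p0 hl) x
  by_cases hx : isH x
  exacts [this.1 hx, this.2 hx]

theorem Pkt.sz (hK : IsCompact K) (hl : ∀ r, 1 ≤ lam r) (hb : Base jb)
    (h : Pkt K lam jb a q π v) : Sz K lam 0 v :=
  ⟨h.adm, fun x => (bz_osc hl (h.osc hK hl hb x)).mono hl (by omega)⟩

theorem par_zero (G : M3) (b c : Fin 3) : par G 0 b c = 0 := by simp [par]

theorem Pkt.oscP (hK : IsCompact K) (hl : ∀ r, 1 ≤ lam r) (h : Pkt K lam jb a 0 π v) (x : Jt)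
    (hx : isH x) : Osc K lam a (1 - wt x) fun r => v r x :=
  (osc_jet (n := 1) hK hl h.adm (fun b c => P354KW.congr (h.h b c) fun r z => by
    simp [par_zero]) (h.p0 hl) x).1 hx

theorem Pkt.szP (hK : IsCompact K) (hl : ∀ r, 1 ≤ lam r) (h : Pkt K lam jb a 0 π v) :
    SzP K lam v := fun x hx => (bz_osc hl (h.oscP hK hl x hx)).mono hl (by omega)

theorem uc_qf (hb : Base jb) (h : ∀ b c, UC K fun r z => π r z b c)
    (h' : ∀ b c, UC K fun r z => π' r z b c) : UC K fun r z => qf (Gm jb r z) (π r z) (π' r z) :=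
  UC.sum _ fun b => UC.sum _ fun c => (h b c).mul' (P354KW.uc_par hb h' b c).1

theorem pair_none (hK : IsCompact K) (hψ : Wt ψ) (hl : ∀ r, 1 ≤ lam r) (hc : Cf jb c)
    (hv : Pkt K lam jb a q π v) (hw : Pkt K lam jb a' q' π' w)
    (h : SzP K lam v ∨ SzP K lam w) : DB K ψ (fun r => lam r ^ (-1 : ℤ)) fun r z =>
      Q2 jb c none r z (at' (v r) z) (at' (w r) z) + (if a = a' then 1 / 2 else 0) *
        ((Gm jb r z).det ^ 2 * qf (Gm jb r z) (π r z) (π' r z)) := by
  have hb := hc.base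
  have hd := ((P354KW.ud_det hb).pow 2).neg.ub
  have h1 := bz_T2' hl hc (hv.sz hK hl hb) (hw.sz hK hl hb) h
  have h2 := (bz_qf hl hb
    (A := fun r z => pm (at' (v r) z) - Real.cos (lam r * yc a z) • π r z)
    (B := fun r z => pm (at' (w r) z)) (fun b c => (bz_osc hl (hv.p b c)).congr fun r z => by
      simp [pm, at', mul_comm]) fun b c => bz_osc hl (hw.p0 hl b c)).coef hd
  have h3 := (bz_qf hl hb (A := fun r z => Real.cos (lam r * yc a z) • π r z)
    (B := fun r z => pm (at' (w r) z) - Real.cos (lam r * yc a' z) • π' r z)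
    (fun b c => (bz_osc hl (P354KW.of_cos (a := a) (hv.p_uc b c) 0)).congr fun r z => by
      simp [mul_comm]) fun b c => (bz_osc hl (hw.p b c)).congr fun r z => by
      simp [pm, at', mul_comm]).coef hd
  have h4 := db_cos hK hψ hl ((uc_qf hb hv.p_uc hw.p_uc).mul hd) a a'
  refine ((((h1.add (h2.mono hl (by norm_num))).add (h3.mono hl (by norm_num))).db hK hψ).add hK
    (h4.mono fun r => by simp)).congr fun r z => ?_
  simp only [sub_eq_add_neg, ← neg_smul, qf_add_left, qf_add_right, qf_smul_left, qf_smul_right,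
    Q2, at']
  ring

theorem Pkt.dh (hK : IsCompact K) (hl : ∀ r, 1 ≤ lam r) (hb : Base jb)
    (h : Pkt K lam jb a q π v) (i b c : Fin 3) : Bz K lam (-1) fun r z => v r (.dh i b c) z -
      (if a = i then 1 else 0) * par (Gm jb r z) (q r z) b c * Real.cos (lam r * yc a z) := by
  have hp := P354KW.uc_par hb h.q_uc b c
  have h1 := bz_osc hl (osc_D hl hK (h.h b c) i)
  have h2 := bz_osc hl (P354KW.of_sin (a := a) (hp.D hK i) 1)
  refine ((h1.mono hl (by norm_num)).add h2).congr fun r z => ?_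
  have s1 : Sm fun z => (lam r)⁻¹ * par (hm (at' (jb r) z)) (q r z) b c :=
    contDiff_const.mul (hp.1.1 r)
  have h0 : lam r ≠ 0 := (one_pos.trans_le (hl r)).ne'
  rw [D_sub i ((h.adm r).sm _) (s1.mul (P354KW.sin_sm _ a)), D_mul i s1 (P354KW.sin_sm _ a),
    D_cmul i _ (hp.1.1 r), P354KW.D_sin, (h.adm r).dh]
  simp only [zpow_neg, zpow_one]
  field_simp
  ring

theorem pair_some (hK : IsCompact K) (hψ : Wt ψ) (hl : ∀ r, 1 ≤ lam r) (hc : Cf jb c)
    (hv : Pkt K lam jb a q π v) (hw : Pkt K lam jb a' q' π' w) (i : Fin 3) :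
    DB K ψ (fun r => lam r ^ (-1 : ℤ)) fun r z =>
      Q2 jb c (some i) r z (at' (v r) z) (at' (w r) z) + (if a' = a then 1 / 2 else 0) *
        ((if a = i then 1 else 0) / 2 * qf (Gm jb r z) (π' r z) (q r z)) := by
  have hb := hc.base
  have h1 := db_T3 hK hψ hl (hv.sz hK hl hb) (hw.sz hK hl hb) i
  have h2 := (Bz.sum fun b => Bz.sum fun c => (bz_osc hl (hw.p0 hl b c)).mul hl
    (hv.dh hK hl hb i b c)).coef (ub_c (-1 / 2))
  have h3 := (Bz.sum fun b => Bz.sum fun c => (bz_osc hl (hw.p b c)).mul hl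
    (bz_osc hl (P354KW.of_cos (a := a) (P354KW.uc_par hb hv.q_uc b c) 0))).coef
    (ub_c (-(if a = i then 1 else 0) / 2))
  have h4 := db_cos hK hψ hl ((uc_qf hb hw.p_uc hv.q_uc).mul
    (ub_c (-(if a = i then 1 else 0) / 2))) a' a
  refine (((h1.mono fun r => by simp).add hK (((h2.mono hl (show _ ≤ (-1 : ℤ) by norm_num)).add
    (h3.mono hl (by norm_num))).db hK hψ)).add hK (h4.mono fun r => by simp)).congr
    fun r z => ?_
  simp only [Q2, PM_eq (hv.adm r) (hw.adm r), qf, Fin.sum_univ_three, neg_zero, zpow_zero]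
  ring

end Vale.Agent.P354K
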